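import Vale.Agent.P284Y.Y.Defs

/-!
# P284Y: inequalities between the parameters, and the choice of the scale
-/

noncomputable section

namespace Vale.Agent.P284Y

namespace Par
variable (P : Par)

theorem Z_ge' : (100 : ℝ) ≤ P.Z := by exact_mod_cast P.Z_ge
theorem one_le_Z : (1 : ℝ) ≤ P.Z := le_trans (by norm_num) P.Z_ge'
theorem Z_pos : (0 : ℝ) < P.Z := one_pos.trans_le P.one_le_Z
theorem pow_le {a b : ℕ} (h : a ≤ b) : (P.Z : ℝ) ^ a ≤ (P.Z : ℝ) ^ b :=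
  pow_le_pow_right₀ P.one_le_Z h
theorem Z_le_pow {a : ℕ} (h : 1 ≤ a) : (P.Z : ℝ) ≤ (P.Z : ℝ) ^ a := by
  simpa using P.pow_le h
theorem q_pos : 0 < P.q := inv_pos.2 (pow_pos P.Z_pos _)
theorem q_mul : P.q * (P.Z : ℝ) ^ 6 = 1 := inv_mul_cancel₀ (pow_pos P.Z_pos _).ne'
theorem q_le_inv : P.q ≤ (P.Z : ℝ)⁻¹ := inv_anti₀ P.Z_pos (P.Z_le_pow (by norm_num))
theorem q_le : P.q ≤ 1 / 100 := P.q_le_inv.trans (by
  rw [one_div]
  exact inv_anti₀ (by norm_num) P.Z_ge')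
theorem sw_eq (s : ℝ) : P.sw s = s * (P.Z : ℝ) ^ 6 := by rw [sw, q, div_inv_eq_mul]
theorem Z_le_TT : (P.Z : ℝ) ≤ P.TT := (P.Z_le_pow (by norm_num)).trans P.TT_ge
theorem one_le_TT : 1 ≤ P.TT := P.one_le_Z.trans P.Z_le_TT
theorem TT_pos : 0 < P.TT := one_pos.trans_le P.one_le_TT
theorem TT_le_lo : P.TT ≤ P.lo := (le_mul_of_one_le_left P.TT_pos.le P.one_le_Z).trans P.lo_ge
theorem pow_le_lo : (P.Z : ℝ) ^ 8 ≤ P.lo := by
  refine le_trans ?_ P.lo_ge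
  rw [pow_succ']
  exact mul_le_mul_of_nonneg_left P.TT_ge P.Z_pos.le
theorem Z_le_lo : (P.Z : ℝ) ≤ P.lo := P.Z_le_TT.trans P.TT_le_lo
theorem lo_pos : 0 < P.lo := P.Z_pos.trans_le P.Z_le_lo
theorem one_le_hi : 1 ≤ P.hi := P.one_le_Z.trans (P.Z_le_lo.trans P.hi_ge)
theorem hi_le_β : (P.Z : ℝ) ^ 13 * P.TT * P.hi ≤ P.β := by
  have := P.TT_pos
  have := P.Z_pos
  refine le_trans ?_ P.β_ge
  gcongr
  nlinarith [P.one_le_hi]
theorem one_le_β : 1 ≤ P.β := (one_le_mul_of_one_le_of_one_le (one_le_mul_of_one_le_of_one_le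
  (one_le_pow₀ P.one_le_Z) P.one_le_TT) P.one_le_hi).trans P.hi_le_β
theorem β_pos : 0 < P.β := one_pos.trans_le P.one_le_β
theorem t_pos : 0 < P.t := mul_pos P.β_pos P.TT_pos
theorem B_pos : 0 < P.B := mul_pos P.q_pos P.t_pos
theorem m_pos : 0 < P.m := mul_pos (by norm_num) P.B_pos
theorem B_mul : P.B * (P.Z : ℝ) ^ 6 = P.t := by rw [B, mul_right_comm, q_mul, one_mul]
theorem B_mul_sw (s : ℝ) : P.B * P.sw s = P.t * s := by
  rw [sw_eq, mul_left_comm, B_mul, mul_comm]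
/-- every multiple of `β` is a small multiple of `B` -/
theorem Zβ_le_B : P.Z * P.β ≤ P.B := by
  refine le_of_mul_le_mul_right ?_ (pow_pos P.Z_pos 6)
  rw [B_mul, t, mul_right_comm, ← pow_succ', mul_comm]
  exact mul_le_mul_of_nonneg_left P.TT_ge P.β_pos.le
theorem β_le_B : P.β ≤ P.B := (le_mul_of_one_le_left P.β_pos.le P.one_le_Z).trans P.Zβ_le_B
theorem one_le_B : 1 ≤ P.B := P.one_le_β.trans P.β_le_B
/-- `B` dominates `s / q` and `TT s` -/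
theorem hi_le_B : (P.Z : ℝ) ^ 14 * P.TT * P.hi ≤ P.B := by
  refine le_trans ?_ P.Zβ_le_B
  rw [pow_succ', mul_assoc, mul_assoc, ← mul_assoc _ P.TT]
  exact mul_le_mul_of_nonneg_left P.hi_le_β P.Z_pos.le
theorem ZB_le_t : P.Z * P.B ≤ P.t := by
  rw [← B_mul, mul_comm]
  exact mul_le_mul_of_nonneg_left (P.Z_le_pow (by norm_num)) P.B_pos.le
theorem B_le_t : P.B ≤ P.t := (le_mul_of_one_le_left P.B_pos.le P.one_le_Z).trans P.ZB_le_t
theorem m_le_t : P.m ≤ P.t := le_trans (mul_le_mul_of_nonneg_right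
  (le_trans (by norm_num) P.Z_ge') P.B_pos.le) P.ZB_le_t
theorem β_le_m : P.β ≤ P.m := by linarith [P.β_le_B, P.B_pos, show P.m = 64 * P.B from rfl]
theorem le_sw {s : ℝ} (h : 0 ≤ s) : s ≤ P.sw s :=
  P.sw_eq s ▸ le_mul_of_one_le_right h (one_le_pow₀ P.one_le_Z)
/-- all the scales in `w` are below `B` -/
theorem sw_le_B {s : ℝ} (h : s ≤ P.hi) : (P.Z : ℝ) ^ 8 * P.sw s ≤ P.B := by
  refine le_trans ?_ P.hi_le_B
  rw [sw_eq, mul_left_comm, ← pow_add, mul_comm, mul_assoc]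
  exact mul_le_mul_of_nonneg_left (h.trans (le_mul_of_one_le_left
    (zero_le_one.trans P.one_le_hi) P.one_le_TT)) (pow_pos P.Z_pos _).le
theorem L_le {s : ℝ} (h : 0 ≤ s) : P.L s ≤ s := div_le_self h (one_le_pow₀ P.one_le_Z)

end Par

/-- **Pigeonhole**: a function of linear growth is almost doubled at some scale. -/
theorem exists_scale {G : ℝ → ℝ} {a G₀ R ε : ℝ} {m : ℕ} (ha : 0 < a) (hG : 0 < G₀) (hε : 0 ≤ ε)
    (hm : R < (1 + ε) ^ m) (h : ∀ S, a ≤ S → S ≤ a * 2 ^ m → G₀ * S ≤ G S ∧ G S ≤ R * G₀ * S) :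
    ∃ s, a ≤ s ∧ 2 * s ≤ a * 2 ^ m ∧ G (2 * s) ≤ 2 * (1 + ε) * G s := by
  by_contra! h1
  have h2 : ∀ i ≤ m, (1 + ε) ^ i * (G₀ * (a * 2 ^ i)) ≤ G (a * 2 ^ i) := fun i hi => by
    induction i with
    | zero => simpa using (h a le_rfl (le_mul_of_one_le_right ha.le (one_le_pow₀ one_le_two))).1
    | succ i ih =>
      have e : a * 2 ^ (i + 1) = 2 * (a * 2 ^ i) := by ring
      have h3 := h1 (a * 2 ^ i) (le_mul_of_one_le_right ha.le (one_le_pow₀ one_le_two))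
        (e ▸ mul_le_mul_of_nonneg_left (pow_le_pow_right₀ one_le_two hi) ha.le)
      have h4 := mul_le_mul_of_nonneg_left (ih (by omega)) (by positivity : 0 ≤ 2 * (1 + ε))
      rw [e, pow_succ]
      linarith
  have h3 := (h2 m le_rfl).trans
    (h _ (le_mul_of_one_le_right ha.le (one_le_pow₀ one_le_two)) le_rfl).2
  rw [mul_assoc R] at h3
  exact absurd (le_of_mul_le_mul_right h3 (by positivity)) (not_le.2 hm)

end Vale.Agent.P284Y
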