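import Vale.Agent.P284Y.Y9.Svd

/-!
# P284Y, row Y9: adapted frames
-/

open scoped ComplexOrder Matrix
open Matrix

noncomputable section

namespace Vale.Agent.P284Y.Y9

open Vale.Agent.P272.K Vale.Agent.P284Z Vale.Agent.P284Z.J Vale.Agent.P284Y.A Vale.Agent.P284Y.Lib

namespace Ad

variable {n p : ℕ}

theorem ns (u : Cm n) : ((nsq u : ℝ) : ℂ) = star u ⬝ᵥ u := by
  simp only [nsq, dotProduct, Pi.star_apply, Complex.ofReal_sum, Complex.ofReal_pow]
  refine Finset.sum_congr rfl fun i _ => ?_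
  rw [Complex.star_def, Complex.conj_mul']

theorem ns0 (u : Cm n) : 0 ≤ nsq u := Finset.sum_nonneg fun _ _ => sq_nonneg _

theorem ns_mul (B : Matrix (Fin p) (Fin n) ℂ) (u : Cm n) :
    ((nsq (B *ᵥ u) : ℝ) : ℂ) = star u ⬝ᵥ ((Bᴴ * B) *ᵥ u) := by
  rw [ns, star_mulVec, ← mulVec_mulVec, dotProduct_mulVec (star u)]

theorem ns_iso {V : Mx n} (h : Vᴴ * V = 1) (u : Cm n) : nsq (V *ᵥ u) = nsq u := by
  have := ns_mul V u
  rw [h, one_mulVec, ← ns] at this
  exact_mod_cast this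

theorem ns_single (i : Fin n) (c : ℝ) : nsq (Pi.single i (c : ℂ) : Cm n) = c ^ 2 := by
  rw [nsq, Finset.sum_eq_single i (fun j _ hj => by simp [hj]) (by simp)]
  simp

theorem ns_diag (x : Fin n → ℝ) (c : Cm n) :
    star c ⬝ᵥ (diagonal (fun i => (x i : ℂ)) *ᵥ c) = ((∑ i, x i * ‖c i‖ ^ 2 : ℝ) : ℂ) := by
  simp only [dotProduct, mulVec_diagonal, Pi.star_apply, Complex.ofReal_sum, Complex.ofReal_mul,
    Complex.ofReal_pow]
  refine Finset.sum_congr rfl fun i _ => ?_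
  rw [Complex.star_def, ← Complex.conj_mul']
  ring

theorem eq0 {u : Cm n} (h : nsq u ≤ 0) : u = 0 := by
  funext i
  have := (Finset.sum_eq_zero_iff_of_nonneg (fun j _ => sq_nonneg ‖u j‖)).1
    (le_antisymm h (ns0 u)) i (Finset.mem_univ i)
  simpa using this

theorem fr_unit {R : ℝ} {ξ : Mx n} (h : Fr R ξ) : IsUnit ξ := by
  rw [← mulVec_injective_iff_isUnit]
  intro u v huv
  have h1 := (h (u - v)).1
  rw [mulVec_sub, show ξ *ᵥ u = ξ *ᵥ v from huv, sub_self, show nsq (0 : Cm n) = 0 by simp [nsq]]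
    at h1
  exact sub_eq_zero.1 (eq0 (nonpos_of_mul_nonpos_right h1 (Real.exp_pos _)))

theorem fr_inv {R : ℝ} {ξ : Mx n} (h : Fr R ξ) : Fr R ξ⁻¹ := fun u => by
  have hu := (isUnit_iff_isUnit_det _).1 (fr_unit h)
  have h1 := h (ξ⁻¹ *ᵥ u)
  rw [mulVec_mulVec, mul_nonsing_inv _ hu, one_mulVec] at h1
  have e : Real.exp (-(2 * R)) * Real.exp (2 * R) = 1 := by rw [← Real.exp_add]; simp
  have a := Real.exp_pos (-(2 * R))
  have b := Real.exp_pos (2 * R)
  constructor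
  · calc _ ≤ Real.exp (-(2 * R)) * (Real.exp (2 * R) * nsq (ξ⁻¹ *ᵥ u)) := by gcongr; exact h1.2
      _ = _ := by rw [← mul_assoc, e, one_mul]
  · calc _ = Real.exp (2 * R) * (Real.exp (-(2 * R)) * nsq (ξ⁻¹ *ᵥ u)) := by
          rw [← mul_assoc, mul_comm (Real.exp (2 * R)), e, one_mul]
      _ ≤ _ := by gcongr; exact h1.1

theorem pd {B : Matrix (Fin p) (Fin n) ℂ} (h : ∀ w, Bᴴ *ᵥ w = 0 → w = 0) : (B * Bᴴ).PosDef := by
  have := PosDef.conjTranspose_mul_self Bᴴ (fun u v huv => sub_eq_zero.1 (h _ (by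
    rw [mulVec_sub, show Bᴴ *ᵥ u = Bᴴ *ᵥ v from huv, sub_self])))
  rwa [conjTranspose_conjTranspose] at this

theorem inj_mul {B : Matrix (Fin p) (Fin n) ℂ} {Z : Mx n} (h : ∀ w, Bᴴ *ᵥ w = 0 → w = 0)
    (hZ : IsUnit Z) : ∀ w, (B * Z)ᴴ *ᵥ w = 0 → w = 0 := fun w hw => by
  rw [conjTranspose_mul, ← mulVec_mulVec] at hw
  have hu : IsUnit Zᴴ := by simpa [star_eq_conjTranspose] using hZ.star
  exact h _ (mulVec_injective_iff_isUnit.2 hu (by simpa using hw))

/-- the orthogonal projection on the image of the adjoint -/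
theorem proj {B : Matrix (Fin p) (Fin n) ℂ} (h : (B * Bᴴ).PosDef) (u : Cm n) :
    (star u ⬝ᵥ ((Bᴴ * (B * Bᴴ)⁻¹ * B) *ᵥ u)).re ≤ nsq u := by
  have hu := (isUnit_iff_isUnit_det _).1 h.isUnit
  obtain ⟨P, hP⟩ : ∃ P, P = Bᴴ * (B * Bᴴ)⁻¹ * B := ⟨_, rfl⟩
  have h1 : Pᴴ = P := by
    rw [hP, conjTranspose_mul, conjTranspose_mul, conjTranspose_conjTranspose, h.1.inv.eq,
      Matrix.mul_assoc]
  have h2 : P * P = P := by
    rw [hP]
    calc _ = Bᴴ * ((B * Bᴴ)⁻¹ * (B * Bᴴ)) * (B * Bᴴ)⁻¹ * B := by simp only [Matrix.mul_assoc]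
      _ = _ := by rw [nonsing_inv_mul _ hu, Matrix.mul_one]
  have h3 := ns_mul (1 - P) u
  rw [conjTranspose_sub, conjTranspose_one, h1, Matrix.sub_mul, Matrix.mul_sub, Matrix.mul_sub,
    h2, Matrix.one_mul, Matrix.one_mul, Matrix.mul_one, sub_self, sub_zero, sub_mulVec,
    dotProduct_sub, one_mulVec, ← ns] at h3
  have h4 := congrArg Complex.re h3
  rw [Complex.sub_re, Complex.ofReal_re, Complex.ofReal_re] at h4
  rw [← hP]
  linarith [ns0 (u - P *ᵥ u)]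

theorem core (B : Matrix (Fin p) (Fin n) ℂ) (Z : Mx n) (K : ℝ)
    (hB : ∀ w, Bᴴ *ᵥ w = 0 → w = 0) (hZ : IsUnit Z) (h1 : ∀ u, nsq u ≤ K * nsq (Z *ᵥ u))
    (h2 : ∀ u, nsq (Zᴴ *ᵥ u) ≤ K * nsq u) :
    ∃ (V : Mx n) (x : Fin n → ℝ), Vᴴ * V = 1 ∧ V * Vᴴ = 1 ∧
      (∀ i, x i = 0 ∨ (0 < x i ∧ 1 ≤ K * x i ∧ x i ≤ K)) ∧
      (∀ w : Fin n → ℝ, (B * V * diagonal (fun i => (w i : ℂ)) * (B * V)ᴴ).det =
        (B * Z * (B * Z)ᴴ).det * ((∏ i, if x i = 0 then 1 else x i * w i : ℝ) : ℂ)) ∧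
      ∀ u, ∑ i, x i * ‖(Vᴴ *ᵥ (Z *ᵥ u)) i‖ ^ 2 ≤ nsq u := by
  have hS := pd (inj_mul hB hZ)
  have hpr := proj hS
  obtain ⟨S, hSe⟩ : ∃ S, S = B * Z * (B * Z)ᴴ := ⟨_, rfl⟩
  rw [← hSe] at hS hpr ⊢
  have hSu := (isUnit_iff_isUnit_det _).1 hS.isUnit
  have hX : (Bᴴ * S⁻¹ * B).IsHermitian := (hS.inv.posSemidef.conjTranspose_mul_mul_same B).1
  obtain ⟨V, x, v1, v2, hd⟩ : ∃ (V : Mx n) (x : Fin n → ℝ), Vᴴ * V = 1 ∧ V * Vᴴ = 1 ∧
      Vᴴ * (Bᴴ * S⁻¹ * B) * V = diagonal fun i => (x i : ℂ) := by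
    refine ⟨hX.eigenvectorUnitary, hX.eigenvalues, Unitary.coe_star_mul_self _,
      Unitary.coe_mul_star_self _, ?_⟩
    have := hX.conjStarAlgAut_star_eigenvectorUnitary
    rw [Unitary.conjStarAlgAut_star_apply] at this
    exact this
  obtain ⟨Y, hY⟩ : ∃ Y, Y = B * V := ⟨_, rfl⟩
  have hd' : Yᴴ * S⁻¹ * Y = diagonal fun i => (x i : ℂ) := by
    rw [← hd, hY, conjTranspose_mul]; simp only [Matrix.mul_assoc]
  have last : ∀ u, ∑ i, x i * ‖(Vᴴ *ᵥ (Z *ᵥ u)) i‖ ^ 2 ≤ nsq u := fun u => by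
    refine le_trans (le_of_eq ?_) (hpr u)
    rw [← Complex.ofReal_re (∑ i, _), ← ns_diag, ← hd, star_mulVec, star_mulVec,
      conjTranspose_conjTranspose, vecMul_vecMul, ← dotProduct_mulVec, mulVec_mulVec,
      mulVec_mulVec, mulVec_mulVec, conjTranspose_mul]
    congr 3
    calc _ = Zᴴ * (V * Vᴴ) * (Bᴴ * S⁻¹ * B) * (V * Vᴴ) * Z := by simp only [Matrix.mul_assoc]
      _ = _ := by rw [v2]; simp only [Matrix.mul_assoc, Matrix.mul_one]
  have hx : ∀ i, x i = nsq (Zᴴ *ᵥ (V *ᵥ Pi.single i (x i : ℂ))) ∧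
      (x i = 0 → Y *ᵥ Pi.single i 1 = 0) := fun i => by
    obtain ⟨w, hw⟩ : ∃ w, w = S⁻¹ *ᵥ (Y *ᵥ Pi.single i 1) := ⟨_, rfl⟩
    have a1 : Yᴴ *ᵥ w = Pi.single i (x i : ℂ) := by
      rw [hw, mulVec_mulVec, mulVec_mulVec, hd', diagonal_mulVec_single, mul_one]
    have a2 : S *ᵥ w = Y *ᵥ Pi.single i 1 := by
      rw [hw, mulVec_mulVec, mul_nonsing_inv _ hSu, one_mulVec]
    have a3 : Bᴴ *ᵥ w = V *ᵥ Pi.single i (x i : ℂ) := by
      rw [← a1, hY, conjTranspose_mul, mulVec_mulVec, ← Matrix.mul_assoc, v2, Matrix.one_mul]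
    have a4 := ns_mul (B * Z)ᴴ w
    rw [conjTranspose_conjTranspose, ← hSe, a2, dotProduct_mulVec,
      ← conjTranspose_conjTranspose Y, ← star_mulVec, a1, conjTranspose_mul, ← mulVec_mulVec,
      a3] at a4
    refine ⟨?_, fun h0 => ?_⟩
    · have : star (Pi.single i (x i : ℂ) : Cm n) ⬝ᵥ Pi.single i 1 = (x i : ℂ) := by simp
      rw [this] at a4
      exact_mod_cast a4.symm
    · rw [h0, Complex.ofReal_zero, Pi.single_zero, mulVec_zero] at a3
      rw [← a2, hB w a3, mulVec_zero]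
  have hE : Y * diagonal (fun i => ((x i)⁻¹ : ℂ)) * diagonal (fun i => (x i : ℂ)) = Y := by
    ext a i
    rw [mul_diagonal, mul_diagonal]
    by_cases h0 : x i = 0
    · have := congrFun ((hx i).2 h0) a
      rw [mulVec_single_one] at this
      simp only [col_apply, Pi.zero_apply] at this
      simp [this]
    · have : (x i : ℂ) ≠ 0 := by exact_mod_cast h0
      field_simp
  have hYY : IsUnit (Y * Yᴴ).det := by
    have : Y * Yᴴ = B * Bᴴ := by
      rw [hY, conjTranspose_mul, Matrix.mul_assoc, ← Matrix.mul_assoc V, v2, Matrix.one_mul]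
    rw [this]
    exact (isUnit_iff_isUnit_det _).1 (pd hB).isUnit
  have hT : Y * diagonal (fun i => ((x i)⁻¹ : ℂ)) * Yᴴ = S := by
    have b1 : Y * diagonal (fun i => ((x i)⁻¹ : ℂ)) * Yᴴ * S⁻¹ * (Y * Yᴴ) = Y * Yᴴ := by
      calc _ = Y * diagonal (fun i => ((x i)⁻¹ : ℂ)) * (Yᴴ * S⁻¹ * Y) * Yᴴ := by
            simp only [Matrix.mul_assoc]
        _ = _ := by rw [hd', hE]
    have b2 : Y * diagonal (fun i => ((x i)⁻¹ : ℂ)) * Yᴴ * S⁻¹ = 1 := by
      have := congrArg (· * (Y * Yᴴ)⁻¹) b1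
      rwa [Matrix.mul_assoc _ (Y * Yᴴ), mul_nonsing_inv _ hYY, Matrix.mul_one] at this
    rw [← Matrix.one_mul S, ← b2, Matrix.mul_assoc _ S⁻¹, nonsing_inv_mul _ hSu, Matrix.mul_one]
  refine ⟨V, x, v1, v2, fun i => ?_, fun w => ?_, last⟩
  · rcases eq_or_ne (x i) 0 with h0 | h0
    · exact Or.inl h0
    have x0 : 0 < x i := lt_of_le_of_ne ((hx i).1 ▸ ns0 _) h0.symm
    refine Or.inr ⟨x0, ?_, ?_⟩
    · have := h2 (V *ᵥ Pi.single i (x i : ℂ))
      rw [← (hx i).1, ns_iso v1, ns_single] at this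
      nlinarith
    · have hZu := (isUnit_iff_isUnit_det _).1 hZ
      have c1 := last (Z⁻¹ *ᵥ (V *ᵥ Pi.single i ((1 : ℝ) : ℂ)))
      have c2 := h1 (Z⁻¹ *ᵥ (V *ᵥ Pi.single i ((1 : ℝ) : ℂ)))
      rw [mulVec_mulVec _ Z, mul_nonsing_inv _ hZu, one_mulVec] at c1 c2
      rw [mulVec_mulVec, v1, one_mulVec,
        Finset.sum_eq_single i (fun j _ hj => by simp [hj]) (by simp)] at c1
      rw [ns_iso v1, ns_single] at c2
      simp only [Pi.single_eq_same, Complex.ofReal_one, norm_one] at c1 c2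
      linarith
  · rw [← hY]
    have e1 : Y * diagonal (fun i => (w i : ℂ)) * Yᴴ =
        S * (1 + S⁻¹ * Y * diagonal (fun i => (w i : ℂ) - ((x i)⁻¹ : ℂ)) * Yᴴ) := by
      rw [Matrix.mul_add, Matrix.mul_one, ← Matrix.mul_assoc, ← Matrix.mul_assoc,
        ← Matrix.mul_assoc, mul_nonsing_inv _ hSu, Matrix.one_mul, ← diagonal_sub, Matrix.mul_sub,
        Matrix.sub_mul, hT, add_sub_cancel]
    rw [e1, det_mul, det_one_add_mul_comm, ← Matrix.mul_assoc, ← Matrix.mul_assoc, hd',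
      diagonal_mul_diagonal, ← diagonal_one, diagonal_add, det_diagonal, Complex.ofReal_prod]
    congr 1
    refine Finset.prod_congr rfl fun i _ => ?_
    split_ifs with h0
    · simp [h0]
    · have : (x i : ℂ) ≠ 0 := by exact_mod_cast h0
      push_cast
      field_simp
      ring

end Ad

open Ad in
theorem stAd_of (hS : StSvd) : StAd := by
  intro n p A ξ ζ R δ R0 hξ hζ hA δ0 δ1
  have hξu := (isUnit_iff_isUnit_det _).1 (fr_unit hξ)
  have hZ : Fr (R + R) (ξ⁻¹ * ζ) := hS.mul _ _ _ _ _ (fr_inv hξ) hζ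
  have hZi := fr_inv hZ
  have hZu := (isUnit_iff_isUnit_det _).1 (fr_unit hZ)
  have e4 : 2 * (R + R) = 4 * R := by ring
  have hB := inj_mul hA (fr_unit hξ)
  obtain ⟨V, x, v1, v2, hx, hd, hl⟩ := core (A * ξ) (ξ⁻¹ * ζ) (Real.exp (4 * R)) hB (fr_unit hZ)
    (fun u => by
      have := (hZi ((ξ⁻¹ * ζ) *ᵥ u)).2
      rwa [mulVec_mulVec, nonsing_inv_mul _ hZu, one_mulVec, e4] at this)
    (fun u => e4 ▸ (hS.adj _ _ _ hZ u).2)
  have e0 : A * ξ * (ξ⁻¹ * ζ) = A * ζ := by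
    rw [Matrix.mul_assoc, ← Matrix.mul_assoc ξ, mul_nonsing_inv _ hξu, Matrix.one_mul]
  rw [e0] at hd
  have d0 := (pd (inj_mul hA (fr_unit hζ))).det_pos
  have d1 : 0 < (A * ζ * (A * ζ)ᴴ).det.re := (Complex.pos_iff.1 d0).1
  have l0 : Real.log δ ≤ Real.log (1 - δ) := Real.log_le_log δ0 (by linarith)
  have l1 : Real.log (1 - δ) ≤ 0 := Real.log_nonpos (by linarith) (by linarith)
  have l2 : -(2 * δ) ≤ Real.log (1 - δ) := by
    have h := Real.one_sub_inv_le_log_of_pos (x := 1 - δ) (by linarith)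
    refine le_trans ?_ h
    have : (1 - δ)⁻¹ ≤ 1 + 2 * δ := by
      rw [inv_le_iff_one_le_mul₀ (by linarith)]; nlinarith
    linarith
  have lx : ∀ i, x i ≠ 0 → 0 < x i ∧ |Real.log (x i)| ≤ 4 * R := fun i h0 => by
    obtain ⟨a, b, c⟩ := (hx i).resolve_left h0
    have b' := Real.log_le_log one_pos b
    have c' := Real.log_le_log a c
    rw [Real.log_mul (Real.exp_pos _).ne' h0, Real.log_exp, Real.log_one] at b'
    rw [Real.log_exp] at c'
    exact ⟨a, abs_le.2 ⟨by linarith, c'⟩⟩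
  obtain ⟨m, hm⟩ : ∃ m : Fin n → ℝ, m = fun i =>
    if x i = 0 then Real.log δ - 4 * R else Real.log (1 - δ) + Real.log (x i) := ⟨_, rfl⟩
  have m1 : ∀ i, |m i| ≤ 4 * R - Real.log δ := fun i => by
    rw [hm]
    dsimp only
    split_ifs with h0
    · exact abs_le.2 ⟨by linarith, by linarith⟩
    · have := abs_le.1 (lx i h0).2
      exact abs_le.2 ⟨by linarith, by linarith⟩
  have key : ∀ r, lds (A * (ξ * V * dg m r)) = lds (A * ζ) +
      ∑ i, (if x i = 0 then 0 else Real.log (x i)) - r * ∑ i, if x i = 0 then 0 else m i := by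
    intro r
    have h1 : A * (ξ * V * dg m r) * (A * (ξ * V * dg m r))ᴴ = A * ξ * V *
        diagonal (fun i => ((Real.exp (-(r * m i)) : ℝ) : ℂ)) * (A * ξ * V)ᴴ := by
      have : dg m r * (dg m r)ᴴ = diagonal fun i => ((Real.exp (-(r * m i)) : ℝ) : ℂ) := by
        rw [dg, diagonal_conjTranspose, diagonal_mul_diagonal]
        congr 1
        funext i
        rw [Pi.star_apply, Complex.star_def, Complex.conj_ofReal, ← Complex.ofReal_mul,
          ← Real.exp_add]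
        congr 2
        ring
      rw [← this, ← Matrix.mul_assoc, ← Matrix.mul_assoc, conjTranspose_mul (A * ξ * V)]
      simp only [Matrix.mul_assoc]
    have h2 : ∀ i ∈ Finset.univ, (if x i = 0 then 1 else x i * Real.exp (-(r * m i))) ≠ 0 :=
      fun i _ => by
        split_ifs with h0
        · exact one_ne_zero
        · exact mul_ne_zero h0 (Real.exp_pos _).ne'
    rw [lds, h1, hd, Complex.re_mul_ofReal, Real.log_mul d1.ne' (Finset.prod_ne_zero_iff.2 h2),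
      Real.log_prod h2, lds, Finset.mul_sum, add_sub_assoc, ← Finset.sum_sub_distrib]
    congr 1
    refine Finset.sum_congr rfl fun i _ => ?_
    split_ifs with h0
    · simp
    · rw [Real.log_mul h0 (Real.exp_pos _).ne', Real.log_exp, sub_eq_add_neg]
  have k0 : lds (A * ξ) = lds (A * ζ) + ∑ i, (if x i = 0 then 0 else Real.log (x i)) := by
    have := key 0
    rw [zero_mul, sub_zero] at this
    rw [← this, lds, lds, show dg m 0 = 1 by simp [dg], Matrix.mul_one, ← Matrix.mul_assoc,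
      conjTranspose_mul (A * ξ), Matrix.mul_assoc (A * ξ), ← Matrix.mul_assoc V, v2,
      Matrix.one_mul]
  have bd : ∀ (f : Fin n → ℝ) (c : ℝ), (∀ i, |f i| ≤ c) → |∑ i, f i| ≤ n * c := fun f c h => by
    refine (Finset.abs_sum_le_sum_abs _ _).trans ((Finset.sum_le_card_nsmul _ _ _
      fun i _ => h i).trans ?_)
    simp
  refine ⟨V, m, ∑ i, if x i = 0 then 0 else m i, ns_iso v1, m1, bd _ _ fun i => ?_,
    fun r => by rw [key, k0], ?_, fun u hu => ?_⟩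
  · split_ifs
    · exact (abs_zero.trans_le (abs_nonneg _)).trans (m1 i)
    · exact m1 i
  · rw [k0, add_sub_cancel_left, ← Finset.sum_sub_distrib]
    refine (bd _ (2 * δ) fun i => ?_).trans_eq (by ring)
    rw [hm]
    dsimp only
    split_ifs
    · simp [δ0.le]
    · exact abs_le.2 ⟨by linarith, by linarith⟩
  · obtain ⟨c, hc⟩ : ∃ c, c = Vᴴ *ᵥ ((ξ⁻¹ * ζ) *ᵥ u) := ⟨_, rfl⟩
    refine ⟨dg m (-1) *ᵥ c, ?_, ?_⟩
    · have c1 := hl u
      have c2 : nsq c ≤ Real.exp (4 * R) * nsq u := by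
        rw [hc, ns_iso (V := Vᴴ) (by rwa [conjTranspose_conjTranspose])]
        exact e4 ▸ (hZ u).2
      rw [← hc] at c1
      have c3 : nsq (dg m (-1) *ᵥ c) ≤ (1 - δ) * ∑ i, x i * ‖c i‖ ^ 2 +
          δ * Real.exp (-(4 * R)) * nsq c := by
        rw [nsq, nsq, Finset.mul_sum, Finset.mul_sum, ← Finset.sum_add_distrib]
        refine Finset.sum_le_sum fun i _ => ?_
        rw [dg, mulVec_diagonal, norm_mul, mul_pow, Complex.norm_real, Real.norm_eq_abs, sq_abs,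
          ← Real.exp_nat_mul, show ((2 : ℕ) : ℝ) * -(-1 * m i / 2) = m i by push_cast; ring, hm]
        dsimp only
        split_ifs with h0
        · rw [h0, sub_eq_add_neg, Real.exp_add, Real.exp_log δ0]
          simp
        · rw [Real.exp_add, Real.exp_log (by linarith), Real.exp_log (lx i h0).1, mul_assoc]
          exact le_add_of_nonneg_right (by positivity)
      have c4 : Real.exp (-(4 * R)) * nsq c ≤ nsq u := by
        calc _ ≤ Real.exp (-(4 * R)) * (Real.exp (4 * R) * nsq u) := by gcongr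
          _ = _ := by rw [← mul_assoc, ← Real.exp_add]; simp
      have c5 := mul_le_mul_of_nonneg_left (c1.trans hu) (show 0 ≤ 1 - δ by linarith)
      have c6 := mul_le_mul_of_nonneg_left (c4.trans hu) δ0.le
      rw [mul_assoc] at c3
      linarith
    · have : dg m 1 * dg m (-1) = 1 := by
        rw [dg, dg, diagonal_mul_diagonal, ← diagonal_one]
        congr 1
        funext i
        rw [← Complex.ofReal_mul, ← Real.exp_add, show -(1 * m i / 2) + -(-1 * m i / 2) = 0 by ring]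
        simp
      rw [hc, mulVec_mulVec, mulVec_mulVec, mulVec_mulVec, Matrix.mul_assoc _ (dg m 1), this,
        Matrix.mul_one, Matrix.mul_assoc ξ, v2, Matrix.mul_one, ← Matrix.mul_assoc,
        mul_nonsing_inv _ hξu, Matrix.one_mul]

theorem stAd : StAd := stAd_of stSvd

end Vale.Agent.P284Y.Y9
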