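import Vale.Agent.P284Y.Y9.Spec
import Vale.Agent.P284Y.Y.S41e

/-!
# P284Y, row X1: convexity along diagonal one parameter groups
-/

open scoped ContDiff Topology ComplexOrder ENNReal Matrix
open Filter Set Function Metric MeasureTheory

noncomputable section

namespace Vale.Agent.P284Y.Y9

open Vale.Agent.P272.K Vale.Agent.P284Z Vale.Agent.P284Z.J Y S41e

namespace Cv

variable {n : ℕ}

/-- `diag (exp (-θ m / 2))` -/
def dgc (m : Fin n → ℝ) (θ : ℂ) : Mx n := Matrix.diagonal fun i => Complex.exp (-(θ * m i / 2))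

theorem dgc_eq (m : Fin n → ℝ) (θ : ℂ) :
    ∃ V : Mx n, (∀ u, nsq (V *ᵥ u) = nsq u) ∧ dgc m θ = dg m θ.re * V := by
  refine ⟨Matrix.diagonal fun i => Complex.exp ((-(θ.im * m i / 2) : ℝ) * Complex.I),
    fun u => ?_, ?_⟩
  · simp only [nsq, Matrix.mulVec_diagonal, norm_mul, Complex.norm_exp_ofReal_mul_I, one_mul]
  · rw [dg, Matrix.diagonal_mul_diagonal, dgc]
    congr 1
    funext i
    rw [Complex.ofReal_exp, ← Complex.exp_add]
    congr 1
    apply Complex.ext <;> simp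

theorem hsn_dgc (ξ : Mx n) (m : Fin n → ℝ) (θ : ℂ) :
    hsn (ξ * dgc m θ) = hsn (ξ * dg m θ.re) := by
  simp only [hsn, dgc, dg, Matrix.mul_diagonal, norm_mul, Complex.norm_exp, Complex.norm_real,
    Real.norm_eq_abs, Real.abs_exp]
  simp

variable {Γ E : Type} [Group Γ] [TopologicalSpace E] [MulAction Γ E] {C : Cov n Γ E}
  [MeasurableSpace E] {μ : Measure (E × ℂ)} {P : Par} {S : MAS (P.Q C) μ} {K : ℝ}

/-- the energy along the group -/
theorem ray (hA : R41a P C μ K) (b : Pb C) (m : Fin n → ℝ) {lam M : ℝ} {I : Set ℝ}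
    {ν : E × ℂ → ℝ} (hI : IsOpen I) (hI' : I.OrdConnected) (hν : (P.Q C).Dens ν)
    (hn : (n : ℝ) ≤ Real.exp (b.s / 2)) (hok : ∀ r ∈ I, (pdg b m r).Ok P)
    (hM : ∀ r ∈ I, S.msl ν ((pdg b m r).p P) lam ≤ M) :
    ConvexOn ℝ I fun r => S.G (ν + (pdg b m r).W P lam) +
      M * ((n + 2) * (P.β * K * Real.exp (-b.s) * hsn (b.ξ * dg m r))) := by
  set b' : ℂ → Pb C := fun θ => { b with ξ := b.ξ * dgc m θ } with hb'
  have hV : ∀ θ : ℂ, θ.re ∈ I → (b' θ).Ok P ∧ (b' θ).p P = (pdg b m θ.re).p P := fun θ hθ => by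
    obtain ⟨V, hV, e⟩ := dgc_eq m θ
    have h := hok θ.re hθ
    have e' : b' θ = { pdg b m θ.re with ξ := (pdg b m θ.re).ξ * V } := by
      simp only [hb', pdg, e, Matrix.mul_assoc]
    rw [e']
    refine ⟨⟨h.x_mem, fun u => ?_, h.lo, h.hi, h.w_le, h.lo', h.hi'⟩, hA.uni _ V h hV⟩
    have := h.fr (V *ᵥ u)
    rwa [hV, Matrix.mulVec_mulVec] at this
  obtain ⟨hc, hp⟩ := S.psh ℂ {θ | θ.re ∈ I} Unit ν (fun _ => (b.γ, b.a)) (fun _ => bmp₂ n P.q)
    (fun _ _ => Fin.cons b.w b.x) (fun _ θ => (b' θ).A) (fun _ _ => lam / 2)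
    (fun _ => Fin.cons P.m fun _ => P.β * K) (fun _ => M)
    (fun _ θ => (b' θ).W P lam) (fun θ => ν + (b' θ).W P lam)
    (hI.preimage Complex.continuous_re) hν (fun _ => hA.ker.1)
    (fun _ => ⟨analyticOnNhd_const, fun i j θ _ => by
      simp only [Pb.A, bd_eq, hb']
      refine Fin.cases ?_ (fun i => ?_) i <;> refine Fin.cases ?_ (fun j => ?_) j
      · simp only [bk_00]; fun_prop
      · simp only [bk_0s]; fun_prop
      · simp only [bk_s0]; fun_prop
      · simp only [bk_ss, Matrix.smul_apply, smul_eq_mul, dgc, Matrix.mul_diagonal]; fun_prop,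
      analyticOnNhd_const⟩)
    (fun _ θ hθ => by
      refine ⟨hA.inn _ (hV θ hθ).1, fun u hu => ?_⟩
      have key : Fin.tail ((Fin.cons b.w b.x : Cm (n + 1)) + (b' θ).A *ᵥ u) ∈
          C.B (7 / 2) b.a := by
        rw [Pb.A, bd_eq, bk_mulVec, Matrix.smul_mulVec]
        exact hA.mem _ (hV θ hθ).1 (Fin.tail u) ((nsq_le ((pi_norm_le_iff_of_nonneg zero_le_one).2
          fun i => (norm_le_pi_norm u i.succ).trans hu)).trans hn)
      rw [QY_hess C _ (C.B_mono (by norm_num) b.a key)]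
      have e1 : (fun i => (((Fin.cons P.m fun _ => P.β * K : Fin (n + 1) → ℝ) i : ℝ) : ℂ)) =
          (Fin.cons (P.m : ℂ) fun _ => ((P.β * K : ℝ) : ℂ) : Fin (n + 1) → ℂ) :=
        funext fun i => Fin.cases rfl (fun _ => rfl) i
      rw [e1, bk_diag, bk_sub, sub_self]
      have h2 := ((hA.hess b.a _ key).1).smul
        (show (0 : ℂ) ≤ (P.β : ℂ) by exact_mod_cast P.β_pos.le)
      have h3 := bk_psd le_rfl h2
      rw [Complex.ofReal_zero, smul_sub, smul_smul, Matrix.smul_one_eq_diagonal] at h3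
      rw [Complex.ofReal_mul]
      exact h3)
    (fun _ θ => by
      have e : 2 * ((lam : ℂ) / 2).re = lam := by simp; ring
      rw [e]
      rfl)
    (fun θ => by simp) (fun _ θ hθ => by
      have := hM θ.re hθ
      rw [← (hV θ hθ).2] at this
      exact this)
  have eW : ∀ θ : ℂ, θ.re ∈ I → (b' θ).W P lam = (pdg b m θ.re).W P lam := fun θ hθ => by
    rw [Pb.W, Pb.W, (hV θ hθ).2]
  set c₀ : ℝ := M * (∑ i, (Fin.cons P.m fun _ => P.β * K : Fin (n + 1) → ℝ) i *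
    (((n + 1 : ℕ) : ℝ) + 1) * ‖(Fin.cons b.w b.x : Cm (n + 1)) i‖ ^ 2 +
      (n + 2) * (P.m * Real.exp (-b.s'))) with hc₀
  set cor : ℝ → ℝ := fun r => M * ((n + 2) * (P.β * K * Real.exp (-b.s) * hsn (b.ξ * dg m r)))
    with hcor
  have hcc : Continuous cor := by
    simp only [hcor, hsn, dg, Matrix.mul_diagonal]
    fun_prop
  have sq : ∀ r : ℝ, ‖((Real.exp (-(r / 2)) : ℝ) : ℂ)‖ ^ 2 = Real.exp (-r) := fun r => by
    rw [Complex.norm_real, Real.norm_of_nonneg (Real.exp_pos _).le, ← Real.exp_nat_mul]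
    congr 1
    push_cast
    ring
  have h1 : ConvexOn ℝ I fun r => S.G (ν + (pdg b m r).W P lam) + cor r + c₀ := by
    refine Lib.cvx₁ hI hI' ?_ (LB.of_cont (((hc.congr fun θ hθ => by rw [eW θ hθ]).add
      (hcc.comp Complex.continuous_re).continuousOn).add continuousOn_const))
    refine hp.congr fun θ hθ => ?_
    beta_reduce
    rw [eW θ hθ, add_assoc, Finset.univ_unique, Finset.sum_singleton, hc₀, hcor, ← mul_add,
      ← hsn_dgc]
    congr 2
    simp only [mul_add, Finset.sum_add_distrib, Pb.A, bd_eq, hb']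
    simp only [Fin.sum_univ_succ, Fin.cons_zero, Fin.cons_succ, bk_00, bk_0s, bk_s0, bk_ss,
      Matrix.smul_apply, smul_eq_mul, norm_mul, mul_pow, sq, norm_zero, hsn, ← Finset.mul_sum]
    simp [← Finset.mul_sum]
    ring
  exact (h1.add_const (-c₀)).congr fun r _ => by simp [hcor]

end Cv

theorem stCv : StCv := by
  intro n Γ E _ _ _ _ _ _ _ C K
  refine ⟨⌈K ^ 3 * (n * (n + 2)) + n⌉₊, fun P hP μ S hG hR b m ν L θ hν L0 θ0 θ1 hok => ?_⟩
  have hZ : K ^ 3 * (n * (n + 2)) + n ≤ P.Z := Nat.ceil_le.1 hP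
  have hK := hR.K_ge
  have hb := hok 0 ⟨by norm_num, by linarith⟩
  have hs : P.lo ≤ b.s := hb.lo
  have hZs : (P.Z : ℝ) ≤ b.s := P.Z_le_lo.trans hs
  have hs1 : 1 ≤ b.s := P.one_le_Z.trans hZs
  have hβ := P.β_pos
  have hT := P.TT_pos
  have hts := mul_pos P.t_pos (one_pos.trans_le hs1)
  have k3 : 0 ≤ K ^ 3 * (n * (n + 2)) := by positivity
  have top : ∀ r ∈ Icc (-1) (L + 1), S.G ((pdg b m r).W P (P.t * b.s)) ≤ K * P.U S b.s :=
    fun r hr => hR.top _ _ (hok r hr) (by change _ ≤ 3 * (P.t * b.s); linarith)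
  have hU : 0 ≤ P.U S b.s := nonneg_of_mul_nonneg_right
    ((hG.G_nonneg _ (hR.densW _ _ hb)).trans (top 0 ⟨by norm_num, by linarith⟩)) (by linarith)
  have hZT : (P.Z : ℝ) * P.TT ≤ b.s := P.lo_ge.trans hs
  have hc := Cv.ray (S := S) hR.toR41a b m (lam := P.t * b.s)
    (M := K * (K * P.U S b.s) / (P.t * b.s)) (I := Ioo (-1) (L + 1)) isOpen_Ioo ordConnected_Ioo hν
    (by
      have := Real.add_one_le_exp (b.s / 2)
      nlinarith [P.Z_ge'.trans P.Z_le_TT, P.Z_pos])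
    (fun r hr => hok r (Ioo_subset_Icc_self hr)) fun r hr =>
      (hR.slope _ (P.t * b.s) _ ν (hok r (Ioo_subset_Icc_self hr))
        (by change P.t * b.s / 8 ≤ _; linarith) (by change _ ≤ 2 * (P.t * b.s); linarith)
        (by linarith) hν).trans (by gcongr; exact top r (Ioo_subset_Icc_self hr))
  have h3 := hc.2 (x := 0) ⟨by norm_num, by linarith⟩ (y := L) ⟨by linarith, by linarith⟩
    (sub_nonneg.2 θ1) θ0 (sub_add_cancel _ _)
  simp only [smul_eq_mul, mul_zero, zero_add] at h3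
  have c0 : 0 ≤ K * (K * P.U S b.s) / (P.t * b.s) *
      ((n + 2) * (P.β * K * Real.exp (-b.s) * hsn (b.ξ * dg m (θ * L)))) := by
    have := hs_nn (b.ξ * dg m (θ * L))
    positivity
  have c1 : ∀ r ∈ Icc (-1) (L + 1), K * (K * P.U S b.s) / (P.t * b.s) *
      ((n + 2) * (P.β * K * Real.exp (-b.s) * hsn (b.ξ * dg m r))) ≤
      P.U S b.s * Real.exp (-(b.s / 2)) := fun r hr => by
    have e1 : hsn (b.ξ * dg m r) ≤ n * Real.exp (2 * (b.s / 8)) := hs_le (hok r hr).fr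
    have e2 : Real.exp (-b.s) * Real.exp (2 * (b.s / 8)) ≤ Real.exp (-(b.s / 2)) := by
      rw [← Real.exp_add]
      exact Real.exp_le_exp.2 (by linarith)
    have e3 : K ^ 3 * (n * (n + 2)) / (P.TT * b.s) ≤ 1 := by
      rw [div_le_one (by positivity)]
      nlinarith [P.one_le_TT, n.cast_nonneg (α := ℝ)]
    calc _ ≤ K * (K * P.U S b.s) / (P.t * b.s) *
          ((n + 2) * (P.β * K * Real.exp (-b.s) * (n * Real.exp (2 * (b.s / 8))))) := by gcongr
      _ = K ^ 3 * (n * (n + 2)) / (P.TT * b.s) *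
          (P.U S b.s * (Real.exp (-b.s) * Real.exp (2 * (b.s / 8)))) := by
          rw [Par.t]
          field_simp
      _ ≤ 1 * (P.U S b.s * Real.exp (-(b.s / 2))) := by gcongr
      _ = _ := one_mul _
  have d1 := mul_le_mul_of_nonneg_left (c1 0 ⟨by norm_num, by linarith⟩) (sub_nonneg.2 θ1)
  have d2 := mul_le_mul_of_nonneg_left (c1 L ⟨by linarith, by linarith⟩) θ0
  linarith

end Vale.Agent.P284Y.Y9
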