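import Vale.Agent.P284Y.Y9.Spec

/-!
# P284Y, rows Y9 and X1: the choice of the parameters and of the scale
-/

open scoped ContDiff Topology ComplexOrder ENNReal Matrix
open Filter Set Function Metric MeasureTheory

noncomputable section

namespace Vale.Agent.P284Y.Y9

open Vale.Agent.P272.K Vale.Agent.P284Z Vale.Agent.P284Z.J Vale.Agent.P284Y.A Vale.Agent.P284Y.Lib

variable {Φ Ψ : Par → Prop}

theorem Ev.mono (h : Ev Φ) (h' : ∀ P, Φ P → Ψ P) : Ev Ψ :=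
  let ⟨Z, f, h⟩ := h
  ⟨Z, f, fun P h1 h2 => h' P (h P h1 h2)⟩

theorem Ev.and (h : Ev Φ) (h' : Ev Ψ) : Ev fun P => Φ P ∧ Ψ P :=
  let ⟨Z, f, h⟩ := h
  let ⟨Z', f', h'⟩ := h'
  ⟨max Z Z', fun T => max (f T) (f' T), fun P h1 h2 =>
    ⟨h P (le_of_max_le_left h1) (le_of_max_le_left h2),
      h' P (le_of_max_le_right h1) (le_of_max_le_right h2)⟩⟩

theorem ev_nat {Z₀ : ℕ} (h : ∀ P : Par, Z₀ ≤ P.Z → Φ P) : Ev Φ := ⟨Z₀, id, fun P h1 _ => h P h1⟩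

theorem ev_Z (c : ℝ) : Ev fun P => c ≤ P.Z :=
  ev_nat (Z₀ := ⌈c⌉₊) fun _ h => Nat.ceil_le.1 h

theorem ev_lo (f : ℝ → ℝ) : Ev fun P => f P.TT ≤ P.lo := ⟨0, f, fun _ _ h => h⟩

theorem Ev.all {Φ : ℕ → Par → Prop} (h : ∀ i, Ev (Φ i)) (j : ℕ) : Ev fun P => ∀ i ≤ j, Φ i P := by
  induction j with
  | zero => exact (h 0).mono fun P h i hi => Nat.le_zero.1 hi ▸ h
  | succ j ih =>
    exact (ih.and (h (j + 1))).mono fun P h i hi =>
      (Nat.of_le_succ hi).elim (h.1 i) fun e => e ▸ h.2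

theorem md_pos (P : Par) (d p : ℕ) {κ : ℝ} (h : 0 < κ) : 0 < md P d p κ := by
  have := P.β_pos
  have := P.t_pos
  unfold md
  positivity

variable {n : ℕ} {Γ E : Type} [Group Γ] [Countable Γ] [TopologicalSpace E] [T2Space E]
  [MulAction Γ E] [MeasurableSpace E] [BorelSpace E] {C : Cov n Γ E} {μ : Measure E} {F : Fol C}

/-- one tube -/
theorem one_tube (hM : StModT) (hU : StUT) (hL : StLT) (hX : StX1) (T : Tube F) (hμ : C.Vol μ)
    (hS : ∀ᵐ t, t ∈ ball T.t₁ T.r → ∀ τ > (0 : ℝ), Nonempty (Sesh T t τ)) (K R : ℝ) {ε : ℝ}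
    (hε : 0 < ε) : ∃ κ > (0 : ℝ), Ev fun P => ∀ S : MAS (P.Q C) (μY n μ P.β P.m), Gen S →
      R41 P S K → LoT P S F κ (1 / 2) ∧ ∀ s ∈ Icc P.lo P.hi, P.Pin S s T.core T.sh R ε := by
  obtain ⟨M, h1, h2, h3, V, hV⟩ := hM n Γ E C μ F T hμ
  obtain ⟨e, he, hX⟩ := hX n Γ E C F T K R ε hε
  have hb : BddAbove (M.V '' M.O) := ⟨V, forall_mem_image.2 hV⟩
  have ht : T.t₁ ∈ M.O := h3 ▸ mem_ball_self (half_pos T.r_pos)
  set V₁ := sSup (M.V '' M.O)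
  have h4 : ∀ t ∈ M.O, M.V t ≤ V₁ := fun t h => le_csSup hb (mem_image_of_mem _ h)
  have h5 : 0 < V₁ := (M.V_pos _ ht).trans_le (h4 _ ht)
  have h6 := mR_pos (F.p + 1)
  set x := min e (1 / 2) / 2 with hx
  have x0 : 0 < x := by positivity
  have x1 : 2 * x ≤ e ∧ 2 * x ≤ 1 / 2 :=
    ⟨by linarith [min_le_left e (1 / 2)], by linarith [min_le_right e (1 / 2)]⟩
  obtain ⟨_, ⟨t, h7, rfl⟩, h8⟩ := exists_lt_of_lt_csSup (⟨_, mem_image_of_mem M.V ht⟩)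
    (show (1 - x) * V₁ < V₁ by nlinarith)
  have hκ : 0 < V₁ * mR (F.p + 1) / (F.p + 2) := by positivity
  refine ⟨_, hκ, (((hU n Γ E C μ F T M V₁ K e hμ h1 h2 h3 h4 he).and
    (hL n Γ E C μ F T M _ K x hμ h1 h2 h3 (by nlinarith) ⟨t, h7, h8⟩ x0 hS)).and
    (hX _ hκ)).mono fun P h S hG hR => ?_⟩
  have h9 : ∀ y, 2 * x ≤ y → LoT P S F (V₁ * mR (F.p + 1) / (F.p + 2)) y := fun y hy s hs => by
    refine le_trans ?_ (h.1.2 S hG hR s hs)
    have h0 := mul_pos (mul_pos (md_pos P F.d F.p hκ) P.q_pos) (P.lo_pos.trans_le hs.1)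
    have e1 : md P F.d F.p ((1 - x) * V₁ * mR (F.p + 1) / (F.p + 2)) * P.q * s =
        (1 - x) * (md P F.d F.p (V₁ * mR (F.p + 1) / (F.p + 2)) * P.q * s) := by
      unfold md
      ring
    rw [e1, ← mul_assoc (1 - x)]
    exact mul_le_mul_of_nonneg_right (by nlinarith) h0.le
  exact ⟨h9 _ x1.2, h.2 _ S hG hR (h.1.1 S hG hR) (h9 _ x1.1)⟩

theorem st8_of (hM : StModT) (hU : StUT) (hL : StLT) (hC : StUC) (hX : StX1) : St8' := by
  intro n Γ E _ _ _ _ _ _ _ _ C μ F T hμ hS K R ε j hε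
  choose κ hκ h using fun i => one_tube hM hU hL hX (T i) hμ (hS i) K R hε
  obtain ⟨C₁, hC⟩ := hC n Γ E C μ hμ
  have k0 := hκ 0
  obtain ⟨Z₀, f, h⟩ := ((Ev.all h j).and (hC K)).and ((ev_Z (2 / κ 0)).and (ev_Z (8 * R)))
  refine ⟨max Z₀ 100, fun Z hZ => ?_⟩
  have z1 : (100 : ℝ) ≤ Z := by exact_mod_cast le_of_max_le_right hZ
  have e0 : (0 : ℝ) < ((Z : ℝ) ^ 2)⁻¹ / 2 := by positivity
  obtain ⟨m, hm⟩ := pow_unbounded_of_one_lt (2 * C₁ * ((Z : ℝ) ^ 7) ^ F.d / κ 0)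
    (lt_add_of_pos_right 1 e0)
  set lo := max (f (Z ^ 7)) (Z * Z ^ 7)
  have l0 : 0 < lo := lt_max_of_lt_right (by positivity)
  have l1 : lo ≤ Z ^ 2 * lo := le_mul_of_one_le_left l0.le (one_le_pow₀ (by linarith))
  let P : Par := ⟨Z, Z ^ 7, lo, Z ^ 2 * lo * 2 ^ m, _, le_of_max_le_right hZ, le_rfl,
    le_max_right _ _, l1.trans (le_mul_of_one_le_right (by positivity) (one_le_pow₀ one_le_two)),
    le_rfl⟩
  obtain ⟨⟨h1, h2⟩, h3, h4⟩ := h P (le_of_max_le_left hZ) (le_max_left _ _)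
  refine ⟨P, rfl, fun S hG hR => ?_⟩
  have h5 := (h1 0 j.zero_le S hG hR).1
  have g0 := mul_pos (md_pos P F.d F.p k0) P.q_pos
  have h6 : ∀ s ∈ Icc P.lo P.hi, md P F.d F.p (κ 0) * P.q / 2 * s ≤ P.GG S s := fun s hs =>
    le_of_eq_of_le (by ring) (h5 s hs)
  obtain ⟨s, s1, s2, s3⟩ := exists_scale (G := P.GG S) (a := Z ^ 2 * lo) (by positivity)
    (half_pos g0) e0.le hm fun s s1 s2 => ⟨h6 s ⟨l1.trans s1, s2⟩,
      (h2 S hG hR s ⟨l1.trans s1, s2⟩).trans_eq (by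
        have e : P.t ^ (n + 2) = (P.β * Z ^ 7) ^ F.d * P.t ^ (F.p + 2) := by
          rw [show n + 2 = F.d + (F.p + 2) by have := F.dim; omega, pow_add]
          rfl
        rw [e, md, mul_pow]
        field_simp)⟩
  have s0 : 0 < s := l0.trans_le (l1.trans s1)
  have hs : s ∈ Icc P.lo P.hi := ⟨l1.trans s1, by linarith [show 2 * s ≤ P.hi from s2]⟩
  have p0 : 0 < P.GG S s := (mul_pos (half_pos g0) s0).trans_le (h6 s hs)
  have s4 : 1 ≤ s := P.one_le_Z.trans (P.Z_le_lo.trans hs.1)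
  refine ⟨s, ⟨(le_div_iff₀' (by positivity)).2 s1, s2, ?_, s3.trans_eq (by ring)⟩, p0, hR.g_le, ?_,
    by linarith [P.Z_le_lo], fun i hi => (h1 i hi S hG hR).2 s hs⟩
  · have q0 := P.q_pos
    rw [Par.cb, Par.sw, div_div_eq_mul_div, le_div_iff₀ s0]
    refine le_trans ?_ (mul_le_mul_of_nonneg_right (h6 s hs) q0.le)
    have h7 : 1 ≤ κ 0 / 2 * (P.β ^ F.d * P.t ^ F.p) := by
      have t1 : (P.Z : ℝ) ≤ P.t := (le_mul_of_one_le_right P.Z_pos.le P.one_le_B).trans P.ZB_le_t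
      have t2 := le_mul_of_one_le_left (pow_pos P.t_pos F.p).le (one_le_pow₀ P.one_le_β (n := F.d))
      have t3 := le_self_pow₀ (P.one_le_Z.trans t1) (Nat.one_le_iff_ne_zero.1 F.p_pos)
      rw [div_le_iff₀ k0] at h3
      nlinarith
    refine le_of_le_of_eq (le_mul_of_one_le_left (by positivity) h7) ?_
    rw [md, Par.B]
    ring
  · by_contra! h7
    have h8 : P.GG S s ≤ P.GG S s - P.GG S s / s := Real.iSup_le (fun q => by
      have := h7 _ _ q.2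
      rw [Par.f, div_lt_iff₀ p0] at this
      rw [le_sub_comm, div_le_iff₀ s0]
      linarith) (sub_nonneg.2 (div_le_self p0.le s4))
    linarith [div_pos p0 s0]

end Vale.Agent.P284Y.Y9
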