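import Vale.Agent.P284Y.Y9.Bas
import Vale.Agent.P284Y.A.A10

/-!
# P284Y, row Y9: the lower bound in a tube
-/

open scoped ContDiff Topology ComplexOrder ENNReal Matrix
open Filter Set Function Metric MeasureTheory

noncomputable section

namespace Vale.Agent.P284Y.Y9

open Vale.Agent.P272.K Vale.Agent.P284Z Vale.Agent.P284Z.J Vale.Agent.P284Y.A Vale.Agent.P284Y.Lib

namespace LoT

theorem nsq0 {n : ℕ} (u : Cm n) : 0 ≤ nsq u := Finset.sum_nonneg fun _ _ => sq_nonneg _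

theorem norm_sq_le {n : ℕ} (u : Cm n) : ‖u‖ ^ 2 ≤ nsq u := by
  rw [← Real.le_sqrt (norm_nonneg _) (nsq0 u), pi_norm_le_iff_of_nonneg (Real.sqrt_nonneg _)]
  exact fun i => Real.le_sqrt_of_sq_le (sq_le_nsq' u i)

theorem fr1 {n : ℕ} {R : ℝ} (h : 0 ≤ R) : Fr R (1 : Mx n) := fun u => by
  rw [Matrix.one_mulVec]
  exact ⟨mul_le_of_le_one_left (nsq0 u) (Real.exp_le_one_iff.2 (by linarith)),
    le_mul_of_one_le_left (nsq0 u) (Real.one_le_exp (by linarith))⟩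

theorem exp_le {x c : ℝ} (hc : 0 < c) (h : c⁻¹ ≤ x) : Real.exp (-x) < c := by
  rw [Real.exp_neg]
  exact inv_lt_of_inv_lt₀ hc (by linarith [Real.add_one_le_exp x])

/-- the final computation -/
theorem fin_le {η e V m b t s q c d G : ℝ} {p : ℕ} (h0 : 0 < η) (h1 : η < 1)
    (he : (2 * p + 4 : ℕ) * η ≤ e) (hV : 0 ≤ V) (hm : 0 < m) (hb : 0 < b) (ht : 0 < t) (hs : 0 < s)
    (hq : 0 < q) (hc : 0 ≤ c) (h2 : c ≤ η * s) (h3 : 3 / η ≤ d) (hG : 0 ≤ G)
    (h : (1 - η) * (b * V) * m * (t * s - η * (t * s)) ^ (p + 1 + 1) / (((p + 1 : ℕ) + 1) *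
      ∏ i, (Fin.cons (s / q) fun _ => s + c : Fin (p + 1) → ℝ) i) ≤ (1 + 3 * Real.exp (-d)) * G) :
    (1 - e) * (V * m / (p + 2) * b * t ^ (p + 2) * q * s) ≤ G := by
  have e0 : 0 < 1 - η := sub_pos.2 h1
  have h4 := one_add_mul_le_pow (a := -η) (by linarith) (2 * p + 4)
  have h5 := exp_le (div_pos h0 three_pos) ((inv_div _ _).trans_le h3)
  have h6 : (1 - η) * (s + c) ≤ s := by nlinarith
  have h7 : (1 - η) * (1 + 3 * Real.exp (-d)) ≤ 1 := by nlinarith [Real.exp_pos (-d)]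
  rw [← sub_eq_add_neg] at h4
  refine (mul_le_mul_of_nonneg_right (le_trans (by linarith) h4) (by positivity)).trans ?_
  refine le_trans ?_ ((mul_le_mul_of_nonneg_left h e0.le).trans
    (by rw [← mul_assoc]; exact mul_le_of_le_one_left hG h7))
  rw [Fin.prod_univ_succ]
  simp only [Fin.cons_zero, Fin.cons_succ, Finset.prod_const, Finset.card_univ, Fintype.card_fin]
  rw [← mul_div_assoc, le_div_iff₀ (by positivity), ← one_sub_mul]
  have h8 : 0 < s + c := by positivity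
  generalize 1 - η = x at *
  generalize s + c = σ at *
  calc _ = x ^ (p + 4) * (b * V * m) * t ^ (p + 2) * s ^ 2 * (x * σ) ^ p := by
        push_cast
        field_simp
        ring
    _ ≤ x ^ (p + 4) * (b * V * m) * t ^ (p + 2) * s ^ 2 * s ^ p := by gcongr
    _ = _ := by ring

/-- the error terms -/
theorem err_le {η K K' B β T m s CF n D K₀ C σ X : ℝ} {p : ℕ} (h0 : 0 < η) (hK : K ≤ K')
    (hK' : 0 ≤ K') (hB : 0 < B) (hβ : 0 < β) (hs : 0 < s) (ht : 1 ≤ β * T) (h1 : B ≤ β * T)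
    (h2 : m ≤ β * T) (hF : 0 ≤ CF) (h3 : 4 * CF / η ≤ T) (h4 : n ≤ s) (hC : 0 ≤ C) (h5 : σ ≤ B + C)
    (h6 : K' + p + 4 + D + |K₀| + C ≤ X) (h7 : 2 * X ≤ η * s) :
    K * B + CF * β * (s + n) + m + Real.log ((p + 1 : ℕ) + 1) + D * (β * T) + 1 + K₀ + σ ≤
      η * (β * T * s) := by
  have a1 := Real.log_le_sub_one_of_pos (show 0 < ((p + 1 : ℕ) : ℝ) + 1 by positivity)
  have a2 := mul_le_mul_of_nonneg_right ((div_le_iff₀' h0).1 h3) (mul_pos hβ hs).le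
  have a3 := mul_le_mul_of_nonneg_left (show s + n ≤ 2 * s by linarith) (mul_nonneg hF hβ.le)
  have a4 := mul_le_mul hK h1 hB.le hK'
  have a5 := mul_le_mul_of_nonneg_right (show 2 * _ ≤ η * s by linarith :
    2 * (K' + p + 4 + D + |K₀| + C) ≤ η * s) (zero_le_one.trans ht)
  have a6 := mul_le_mul_of_nonneg_left ht (show 0 ≤ p + 2 + |K₀| + C by positivity)
  push_cast at a1 ⊢
  linarith [le_abs_self K₀]

variable {n : ℕ} {Γ E : Type} [Group Γ] [TopologicalSpace E] [MulAction Γ E] {C : Cov n Γ E}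
  {F : Fol C} {T : Tube F} {t : Cm F.p}

/-- the barrier given by a Seshadri function -/
theorem bar {τ r K : ℝ} (S : Sesh T t τ) (hτ : 0 < τ) (hr : 0 < r) (hK : 1 ≤ K) :
    ∃ A ≥ (0 : ℝ), ∀ s, A ≤ s → ∃ u : E → ℝ, (∀ y, C.SmAt u y) ∧
      (∀ γ a, ∀ z ∈ C.B 4 a, (C.om 1 u γ a z).PosSemidef) ∧ (∀ y, u y ≤ 0) ∧
      (∀ y, r ≤ ‖T.sh y - t‖ → -(τ * A) ≤ u y) ∧
      ∀ y ∈ T.U, nsq (T.sh y - t) ≤ K * Real.exp (-s) → u y ≤ -(τ * (s - A)) := by
  have k0 := S.κ_pos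
  have k1 : 0 < min S.κ' (S.κ * r ^ 2) := lt_min S.κ'_pos (by positivity)
  have r0 := S.r_pos
  set k := min S.κ' (S.κ * r ^ 2)
  have a1 : 0 ≤ k⁻¹ + 1 := by positivity
  have a2 : 0 ≤ S.κ * K := by positivity
  have a3 : 0 ≤ (S.r ^ 2 / K)⁻¹ := by positivity
  have l2 : Real.log 2 ≤ 1 := by linarith [Real.log_le_sub_one_of_pos two_pos]
  refine ⟨k⁻¹ + 1 + S.κ * K + (S.r ^ 2 / K)⁻¹, by positivity, fun s hs => ?_⟩
  have e0 := Real.exp_pos (-s)
  have h0 : ∀ y, 0 < S.P y + Real.exp (-s) := fun y => add_pos_of_nonneg_of_pos (S.nonneg y) e0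
  refine ⟨fun y => τ * Real.log (S.P y + Real.exp (-s)) + -(τ * Real.log 2),
    fun y γ a z hz e => (S.sm_log (h0 y) τ γ a z hz e).add contDiffAt_const, fun γ a z hz => ?_,
    fun y => ?_, fun y hy => ?_, fun y hy h => ?_⟩
  · have h1 := S.psd hτ e0.le γ a hz (h0 _)
    rw [Cov.om] at h1 ⊢
    simp only [← add_assoc]
    rwa [C2.cHess_add (((contDiffAt_const.mul (C.ρ_sm a z hz)).add
      (S.sm_log (h0 _) τ γ a z hz rfl)).of_le (by norm_cast)) contDiffAt_const, C2.cHess_const,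
      add_zero]
  · have h1 : Real.exp (-s) ≤ 1 := Real.exp_le_one_iff.2 (by linarith)
    have h2 := Real.log_le_log (h0 y) (show _ ≤ 2 by linarith [S.le_one y])
    nlinarith
  · have h1 : k ≤ S.P y := by
      by_cases h : y ∈ T.U ∧ ‖T.sh y - t‖ < S.r
      · rw [S.inn y h.1 h.2]
        exact (min_le_right _ _).trans (mul_le_mul_of_nonneg_left
          ((pow_le_pow_left₀ hr.le hy 2).trans (norm_sq_le _)) k0.le)
      · exact (min_le_left _ _).trans (S.out y h)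
    have h2 := (Real.le_log_iff_exp_le (h0 y)).2 ((exp_le k1 le_rfl).le.trans (by linarith))
    nlinarith
  · have K0 : 0 < K := one_pos.trans_le hK
    have h1 : ‖T.sh y - t‖ < S.r := by
      refine lt_of_pow_lt_pow_left₀ 2 r0.le (((norm_sq_le _).trans h).trans_lt ?_)
      rw [← lt_div_iff₀' K0]
      exact exp_le (by positivity) (by linarith)
    have h2 : Real.log (S.P y + Real.exp (-s)) ≤ S.κ * K + -s := by
      rw [Real.log_le_iff_le_exp (h0 y), Real.exp_add, S.inn y hy h1]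
      have := mul_le_mul_of_nonneg_left h k0.le
      nlinarith [Real.add_one_le_exp (S.κ * K)]
    have h3 := Real.log_nonneg one_le_two
    nlinarith

theorem nsq_le (u : Cm n) : nsq u ≤ n * ‖u‖ ^ 2 := by
  simpa [nsq] using Finset.sum_le_card_nsmul Finset.univ (fun i => ‖u i‖ ^ 2) (‖u‖ ^ 2)
    fun i _ => pow_le_pow_left₀ (norm_nonneg _) (norm_le_pi_norm u i) 2

theorem exp_sq (x : ℝ) : Real.exp (x / 2) ^ 2 = Real.exp x := by
  rw [← Real.exp_nat_mul]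
  congr 1
  push_cast
  ring

/-- the probe -/
abbrev pb (P : Par) (γ : Γ) (a : C.I) (x : Cm n) (s : ℝ) : Pb C := ⟨γ, a, x, 1, s, 0, P.sw s⟩

variable {P : Par} {γ : Γ} {a : C.I} {x : Cm n} {s K : ℝ}

theorem pb_ok (hx : x ∈ C.B 1 a) (hs : s ∈ Icc P.lo P.hi) (γ : Γ) : (pb P γ a x s).Ok P := by
  have s0 := P.lo_pos.trans_le hs.1
  have h1 := P.le_sw s0.le
  exact ⟨C.B_mono (by norm_num) a hx, fr1 (by positivity), hs.1, hs.2,
    by simp [(Real.exp_pos _).le], by linarith, by nlinarith [P.one_le_Z]⟩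

variable [MeasurableSpace E] {μ : Measure (E × ℂ)} {S : MAS (P.Q C) μ}

theorem G_le (h : R41 P S K) (hx : x ∈ C.B 1 a) (hs : s ∈ Icc P.lo P.hi) :
    S.G ((pb P γ a x s).W P (P.t * s)) ≤ P.GG S s := by
  refine le_trans (le_of_eq ?_) (h.g_le s hs a x (C.B_mono (by norm_num) a hx))
  rw [← (h.act γ 1 0 _ norm_one (h.densW _ _ (pb_ok hx hs γ))).2.2]
  refine congrArg S.G (funext fun y => ?_)
  have := h.sym (pb P 1 a x s) γ 1 0 y (pb_ok hx hs 1) norm_one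
  simp only [mul_one, mul_zero, add_zero] at this
  exact congrArg (Real.exp (P.t * s) * ·) this

variable [T2Space E] [BorelSpace E]

/-- the well spreads along the fibres -/
theorem well (hB : StSB) (hG : Gen S) (h : R41 P S K) (hx : x ∈ C.B 1 a) (hs : s ∈ Icc P.lo P.hi)
    {CF c S₀ : ℝ} (h10 : T.Prop10 γ a x CF c S₀) (hS : S₀ ≤ s + n) {y : E × ℂ} (hy : y.1 ∈ T.U)
    (h1 : ‖y.2‖ ^ 2 ≤ Real.exp (-P.sw s))
    (h2 : ‖T.sh y.1 - T.sh (C.pt γ a x)‖ ≤ c * Real.exp (-(s + n) / 2)) :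
    S.φ ((pb P γ a x s).W P (P.t * s)) y ≤ -(P.t * s) + (K * P.B + CF * P.β * (s + n)) := by
  have hb := pb_ok hx hs γ
  have hd := h.densW _ (P.t * s) hb
  have h3 := h10 P.β (fun v => S.φ _ (v, y.2)) (P.t * s - K * P.B) (s + n) P.β_pos.le
    ((hB n Γ E C _ _ μ S _ hG P.β_pos P.m_pos hd).2 _ _)
    (.of_cont ((hG.cont _ hd).comp (by fun_prop)).continuousOn) hS (fun z hz => ?_) y.1 hy h2
  · linarith
  refine (h.dom₀ hb (by linarith [mul_pos P.t_pos hb.s_pos]) hd le_rfl (R41.box11 _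
    ⟨⟨((Real.exp (s / 2) : ℝ) : ℂ) • (z - x), ?_, ?_⟩, ?_⟩)).trans_eq (by ring)
  · have h4 := pow_le_pow_left₀ (norm_nonneg _) (mem_closedBall_iff_norm.1 hz) 2
    have h5 : Real.exp s * Real.exp (-(s + n)) * Real.exp n = 1 := by
      rw [← Real.exp_add, ← Real.exp_add, ← Real.exp_zero]
      congr 1
      ring
    rw [exp_sq] at h4
    rw [nsq_smul', exp_sq, one_pow, ← h5, mul_assoc]
    refine mul_le_mul_of_nonneg_left ((nsq_le _).trans ?_) (Real.exp_pos _).le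
    rw [mul_comm]
    exact mul_le_mul h4 (by linarith [Real.add_one_le_exp (n : ℝ)]) n.cast_nonneg (Real.exp_pos _).le
  · simp only [Pb.z, Matrix.one_mulVec, smul_smul, ← Complex.ofReal_mul, ← Real.exp_add]
    simp
  · rw [sub_zero, one_mul, ← neg_div]
    exact le_of_pow_le_pow_left₀ two_ne_zero (Real.exp_pos _).le (h1.trans_eq (exp_sq _).symm)

/-- no well far from the fibre -/
theorem far (hB : StSB) (hG : Gen S) (h : R41 P S K) (hx : x ∈ C.B 1 a) (hs : s ∈ Icc P.lo P.hi)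
    {KT A : ℝ} (hK : 0 < KT) (h1 : KT ≤ s) (h2 : 1 + 2 * A ≤ s) (hT : ∀ v, nsq v ≤ KT⁻¹ →
      C.pt γ a (x + v) ∈ T.U ∧ nsq (T.sh (C.pt γ a (x + v)) - t) ≤ KT * nsq v) {u : E → ℝ}
    (u1 : ∀ y, C.SmAt u y) (u2 : ∀ γ a, ∀ z ∈ C.B 4 a, (C.om 1 u γ a z).PosSemidef)
    (u3 : ∀ y, u y ≤ 0)
    (u4 : ∀ y ∈ T.U, nsq (T.sh y - t) ≤ KT * Real.exp (-s) → u y ≤ -(4 * P.TT * (s - A)))
    (y : E × ℂ) : P.β / 2 * u y.1 - (n + 3) ≤ S.φ ((pb P γ a x s).W P (P.t * s)) y := by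
  have hb := pb_ok hx hs γ
  refine (hB n Γ E C _ _ μ S _ hG P.β_pos P.m_pos (h.densW _ _ hb)).1 u u1 u2 u3 (fun y => ?_) y
  by_cases h0 : (pb P γ a x s).p P y = 0
  · simp [Pb.W, h0, (Real.exp_pos _).le]
  obtain ⟨⟨v, v1, v2⟩, -⟩ := h.supp _ hb y h0
  have v3 : nsq (((Real.exp (-(s / 2)) : ℝ) : ℂ) • v) ≤ Real.exp (-s) := by
    rw [nsq_smul', ← neg_div, exp_sq]
    exact mul_le_of_le_one_right (Real.exp_pos _).le (by simpa using v1)
  obtain ⟨h3, h4⟩ := hT _ (v3.trans (exp_le (inv_pos.2 hK) (by rwa [inv_inv])).le)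
  simp only [Pb.z, Matrix.one_mulVec] at v2
  have h5 := mul_le_mul_of_nonneg_left
    (u4 _ h3 (h4.trans (mul_le_mul_of_nonneg_left v3 hK.le))) (half_pos P.β_pos).le
  refine (mul_le_mul_of_nonneg_left (h.sup _ hb y).2 (Real.exp_pos _).le).trans ?_
  rw [← Real.exp_add, Real.exp_le_exp, v2]
  have h6 := (div_le_self P.B_pos.le P.one_le_Z).trans P.B_le_t
  have h7 := mul_le_mul_of_nonneg_left h2 P.t_pos.le
  rw [Par.t] at *
  linarith

end LoT

open LoT in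
/-- **Y9 in a tube, lower bound** -/
theorem stLT_of (hL : StModL) (hP : StPM) (hLo : StLo) (hT : StTK) (hB : StSB) : StLT := by
  intro n Γ E _ _ _ _ _ _ _ C μ F T M V₀ K e hμ hU hsh hO V0 hV he hS
  have hW : IsOpen (M.O ∩ M.V ⁻¹' Ioi V₀) := M.V_cont.isOpen_inter_preimage M.opnO isOpen_Ioi
  obtain ⟨t, ht, hS⟩ := Measure.exists_mem_of_measure_ne_zero_of_ae
    (hW.measure_ne_zero volume hV) (ae_restrict_of_ae hS)
  obtain ⟨r₀, r0, hr⟩ := nhds_basis_closedBall.mem_iff.1 (hW.mem_nhds ht)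
  obtain ⟨r, r0, r1, hr⟩ : ∃ r > (0 : ℝ), r ≤ 1 ∧ closedBall t r ⊆ M.O ∩ M.V ⁻¹' Ioi V₀ :=
    ⟨min r₀ 1, lt_min r0 one_pos, min_le_right _ _,
      (closedBall_subset_closedBall (min_le_left _ _)).trans hr⟩
  have t1 : t ∈ ball T.t₁ (T.r / 2) := hO ▸ ht.1
  have t2 : t ∈ ball T.t₁ T.r := ball_subset_ball (half_le_self T.r_pos.le) t1
  obtain ⟨γ, a, x, hx, e1⟩ := C.exists_pt (T.sec t)
  have x1 : C.pt γ a x ∈ T.U := e1 ▸ T.sec_mem t2
  have x2 : T.sh (C.pt γ a x) = t := e1 ▸ T.sh_sec t2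
  obtain ⟨CF, c, S₀, c1, c2, c3, h10⟩ := a10 n Γ E C F T γ a x (C.B14 hx) x1
  obtain ⟨KT, k1, hT⟩ := hT n Γ E C F T
  replace hT := (hT γ a x (C.B_mono (by norm_num) a hx) x1
    (x2 ▸ (mem_ball_iff_norm.1 t1).le)).2
  obtain ⟨η, η0, η1, η2⟩ : ∃ η > (0 : ℝ), η < 1 ∧ (2 * F.p + 4 : ℕ) * η ≤ e := by
    have : (4 : ℝ) ≤ (2 * F.p + 4 : ℕ) := by exact_mod_cast Nat.le_add_left _ _
    refine ⟨min e 1 / (2 * F.p + 4 : ℕ), by positivity, ?_, ?_⟩
    · rw [div_lt_one (by linarith)]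
      linarith [min_le_right e 1]
    · rw [mul_div_cancel₀ _ (by linarith)]
      exact min_le_left _ _
  obtain ⟨K₀, hLo⟩ := hLo (F.p + 1) η (Nat.le_add_left _ _) η0 η1.le
  choose! A A0 hA using fun τ (h : 0 < τ) => bar (hS t2 τ h).some h (half_pos r0) k1
  set K' := max K 11
  have K0 : 11 ≤ K' := le_max_right _ _
  have K1 : K ≤ K' := le_max_left _ _
  set R := ((r / 2) ^ 2)⁻¹
  have R0 : 0 < R := by positivity
  set C₁ := n + (c ^ 2)⁻¹ with hC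
  have C0 : 0 ≤ (c ^ 2)⁻¹ := by positivity
  have n0 : (0 : ℝ) ≤ n := n.cast_nonneg
  have p0 : (0 : ℝ) ≤ F.p := F.p.cast_nonneg
  have K2 := abs_nonneg K₀
  refine (((ev_Z (4 * CF / η)).and (ev_Z (3 / η))).and (ev_lo fun T => 2 * (2 * K' + F.p + n + 8 +
    2 * R + |K₀| + C₁ + S₀ + KT + 2 * A (4 * T)) / η)).mono fun P ⟨⟨z1, z2⟩, z3⟩ S hG h s hs => ?_
  have T0 := mul_pos four_pos P.TT_pos
  replace A0 := A0 _ T0
  set A₁ := A (4 * P.TT)
  have s0 := P.lo_pos.trans_le hs.1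
  have s1 := (div_le_iff₀' η0).1 (z3.trans hs.1)
  have s2 := mul_le_of_le_one_left s0.le η1.le
  obtain ⟨u, u1, u2, u3, u4, u5⟩ := hA _ T0 s (by linarith)
  obtain ⟨M', m1, m2, m3, -, m4⟩ := hL n _ Γ E C μ M t 1 (by simp)
  obtain ⟨X, X1, X2, X3, X4, -, X5⟩ := hP n _ Γ E C μ M' P.β P.m 0 hμ P.β_pos P.β_le_m hG.pg
  simp only [m1, m2, m3, m4, Matrix.one_mulVec, Matrix.conjTranspose_one, sub_zero, hsh]
    at X1 X2 X3 X4
  have hb := pb_ok hx hs γ
  have β0 := P.β_pos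
  have t0 := P.t_pos
  have t3 := Par'.one_le_t P
  have t4 := P.B_le_t
  have B0 := P.B_pos
  have w1 := P.le_sw s0.le
  have w2 : P.sw s ≤ P.B :=
    (le_mul_of_one_le_left (s0.le.trans w1) (one_le_pow₀ P.one_le_Z)).trans (P.sw_le_B hs.2)
  have tl : ∀ v ∈ closedBall (0 : Cm (F.p + 1)) r, t + Fin.tail v ∈ M.O ∩ M.V ⁻¹' Ioi V₀ :=
    fun v hv => hr (mem_closedBall_iff_norm.2 (by
      rw [add_sub_cancel_left, pi_norm_le_iff_of_nonneg r0.le]
      exact fun i => (norm_le_pi_norm v i.succ).trans (mem_closedBall_zero_iff.1 hv)))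
  have hσ : ∀ i, s ≤ (Fin.cons (P.sw s) fun _ => s + C₁ : Fin (F.p + 1) → ℝ) i ∧
      (Fin.cons (P.sw s) fun _ => s + C₁ : Fin (F.p + 1) → ℝ) i ≤ P.B + C₁ :=
    Fin.cases ⟨w1, by simp only [Fin.cons_zero]; linarith⟩
      fun _ => by simp only [Fin.cons_succ]; constructor <;> linarith
  have d1 : P.t ≤ (2 * A₁ + n + 3 + 2 * R + K') * P.t := le_mul_of_one_le_left t0.le (by linarith)
  have key := hLo _ _ _ _ S X _ r (P.t * s) (η * (P.t * s)) (K * P.B + CF * P.β * (s + n))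
    ((2 * A₁ + n + 3 + 2 * R + K') * P.t) (P.β ^ n / P.β ^ F.p * V₀)
    (Fin.cons (P.sw s) fun _ => s + C₁) hG (h.dens _ hb).1 r0 r1 (X3 ▸ fun v hv => (tl v hv).1)
    (by positivity) (fun v hv => X4 ▸ mul_le_mul_of_nonneg_left
      (tl v (ball_subset_closedBall hv)).2.le (by positivity))
    (fun i => ⟨s0.trans_le (hσ i).1, (exp_le (pow_pos (half_pos r0) 2)
      (by linarith [(hσ i).1])).trans (by gcongr; linarith)⟩)
    (t3.trans d1) (by have := h.K_ge; positivity) (fun y hy h1 _ => ?_) (fun y hy h1 => ?_)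
    (fun i => ?_) (by positivity) (mul_le_of_le_one_left (by positivity) η1.le)
  · rw [show P.β ^ n / P.β ^ F.p = P.β ^ F.d by
      rw [div_eq_iff (pow_pos β0 _).ne', ← pow_add, F.dim]] at key
    exact (fin_le η0 η1 η2 V0 (mR_pos _) (pow_pos β0 _) t0 s0 P.q_pos (by positivity) (by linarith)
      ((z2.trans (Par'.Z_le_t P)).trans d1) (hG.G_nonneg _ (h.densW _ _ hb)) key).trans
      (G_le h hx hs)
  · rw [X2] at h1
    by_cases h2 : r / 2 ≤ ‖y.2‖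
    · have h3 := h.i61.low _ _ R ⟨hb, rfl, rfl⟩ le_rfl R0.le y ((exp_le (by positivity)
        le_rfl).le.trans (pow_le_pow_left₀ (half_pos r0).le h2 2))
      refine le_trans ?_ h3
      linarith [mul_le_mul_of_nonneg_left t4 (show 0 ≤ 2 * R + K' by linarith),
        mul_nonneg (show 0 ≤ 2 * A₁ + n + 3 by linarith) t0.le]
    · have h3 : r / 2 ≤ ‖T.sh y.1 - t‖ := not_lt.1 fun h3 => h1.not_gt ((pi_norm_lt_iff
        (half_pos r0)).2 (Fin.cases (not_le.1 h2) fun i => (norm_le_pi_norm _ i).trans_lt h3))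
      refine le_trans ?_ (far hB hG h hx hs (one_pos.trans_le k1) (by linarith) (by linarith)
        (fun v hv => x2 ▸ ⟨(hT v hv).2.1, (hT v hv).2.2.1⟩) u1 u2 u3 u5 y)
      have h4 := mul_le_mul_of_nonneg_left (u4 _ h3) (half_pos β0).le
      have h5 := mul_le_mul_of_nonneg_left t3 (show 0 ≤ n + 3 + 2 * R + K' by linarith)
      rw [Par.t] at h5 ⊢
      linarith
  · rw [X2] at h1
    rw [X1, hU] at hy
    refine well hB hG h hx hs h10 (by linarith) hy.1.1 (h1 0) ?_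
    rw [x2, pi_norm_le_iff_of_nonneg (by positivity)]
    refine fun i => le_of_pow_le_pow_left₀ two_ne_zero (by positivity) ((h1 i.succ).trans ?_)
    rw [mul_pow, exp_sq, Fin.cons_succ, hC, ← add_assoc, neg_add, Real.exp_add, mul_comm]
    exact mul_le_mul_of_nonneg_right (exp_le (by positivity) le_rfl).le (Real.exp_pos _).le
  · exact err_le η0 K1 (by linarith) B0 β0 s0 t3 t4 (X5.trans_le P.m_le_t) c1
      (z1.trans P.Z_le_TT) (by linarith) (by positivity) (hσ i).2 (by linarith) s1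

end Vale.Agent.P284Y.Y9
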