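import Vale.Agent.P284Y.Y9.Spec

/-!
# P284Y, row Y9: the lower bound for a model
-/

open scoped ContDiff Topology ComplexOrder ENNReal Matrix
open Filter Set Function Metric MeasureTheory

noncomputable section

namespace Vale.Agent.P284Y.Y9

open Vale.Agent.P272.K Vale.Agent.P284Z Vale.Agent.P284Z.J Vale.Agent.P284Y.A Vale.Agent.P284Y.Lib

variable {N k : ℕ} {M : Type} [TopologicalSpace M] [MeasurableSpace M] [BorelSpace M] {Q : Pat N M}
  {μ : Measure M} {S : MAS Q μ}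

/-- the mass of the model on a polydisc is bounded by the mass of the solution -/
theorem lo_mass (hS : Gen S) (X : PM Q μ k) {ν : M → ℝ} (hν : Q.Dens ν) {r lam d V₀ : ℝ}
    {s : Fin k → ℝ} (a : Fin k → ℕ) (hr : 0 < r) (hr1 : r ≤ 1) (hO : closedBall 0 r ⊆ X.O)
    (hV : ∀ v ∈ ball 0 r, V₀ ≤ X.V v) (hs : ∀ i, Real.exp (-s i) < r ^ 2) (hd : 1 ≤ d) (hl : 0 ≤ lam)
    (h1 : ∀ y ∈ X.U, r / 2 ≤ ‖X.π y‖ → ‖X.π y‖ < r → -d ≤ S.φ ν y)
    (h2 : ∀ y ∈ X.U, (∀ i, ‖X.π y i‖ ^ 2 ≤ Real.exp (-s i)) →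
      S.φ ν y < -lam - X.m - Real.log (k + 1) - d) :
    ENNReal.ofReal V₀ * ∫⁻ v in {v | ∀ i, ‖v i‖ ^ 2 ≤ Real.exp (-s i)}, mad (tm a lam) v ≤
      ENNReal.ofReal ((1 + 3 * Real.exp (-d)) * S.ms ν ν) := by
  set P : Set (Cm k) := {v | ∀ i, ‖v i‖ ^ 2 ≤ Real.exp (-s i)} with hP
  have hPb : P ⊆ ball 0 r := fun v hv => mem_ball_zero_iff.2 ((pi_norm_lt_iff hr).2 fun i =>
    lt_of_pow_lt_pow_left₀ 2 hr.le ((hv i).trans_lt (hs i)))
  have hPm : MeasurableSet P := by
    simp only [hP, ofPred_forall]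
    exact (isClosed_iInter fun i => isClosed_le (by fun_prop) (by fun_prop)).measurableSet
  have hm : Measurable (mad (tm a lam)) :=
    ENNReal.measurable_ofReal.comp (cont_det_tm a lam).measurable
  obtain ⟨sp, ma⟩ := X.sp (tm a lam) (-Real.log (k + 1)) (tm_smooth a lam) (tm_psd a lam)
  have hb : ∀ y ∈ X.U ∩ X.π ⁻¹' ball 0 r, tm a lam (X.π y) + X.e y + -Real.log (k + 1) ≤ 0 :=
    fun y hy => by
      have h3 := tm_le (a := a) (z := X.π y) (neg_nonpos.2 hl) fun i => (pow_le_one₀ (norm_nonneg _)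
        ((norm_le_pi_norm _ i).trans ((mem_ball_zero_iff.1 hy.2).le.trans hr1))).trans_eq
          Real.exp_zero.symm
      linarith [X.e_le y hy.1]
  have h := hS.mt ν 0 (X.U ∩ X.π ⁻¹' ball 0 r) {y ∈ X.U | X.π y ∈ closedBall 0 (r / 2)}
    (fun y => tm a lam (X.π y) + X.e y + -Real.log (k + 1))
    (X.U.indicator fun y => ENNReal.ofReal (X.D y) * P.indicator (mad (tm a lam)) (X.π y)) 0 (2 * d) d
    hν hS.pg.dens_zero (X.cont.isOpen_inter_preimage X.opn isOpen_ball)
    (X.cpt _ (isCompact_closedBall _ _) ((closedBall_subset_closedBall (half_le_self hr.le)).trans hO))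
    (fun y hy => ⟨hy.1, closedBall_subset_ball (half_lt_self hr) hy.2⟩) (fun y hy => sp y hy.1) hb
    (by linarith)
    (fun y hy => ⟨hy.1.1, mem_closedBall_zero_iff.2 (le_of_not_gt fun h3 => by
      have h4 := hy.2
      rw [add_zero] at h4
      linarith [h1 y hy.1.1 h3.le (mem_ball_zero_iff.1 hy.1.2), hb y hy.1])⟩)
    (fun y hy _ => ⟨rfl, by
      rw [indicator_of_mem hy.1]
      refine (mul_le_mul_right (indicator_le_self _ _ _) _).trans ?_
      rw [mad, ← ENNReal.ofReal_mul (X.D0 y hy.1)]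
      exact ENNReal.ofReal_le_ofReal (ma y hy.1).1⟩)
    (fun y hy h3 => by
      rw [indicator_of_mem hy.1, indicator_of_notMem fun h4 => ?_, mul_zero]
      · exact zero_le
      rw [add_zero] at h3
      linarith [h2 y hy.1 h4, tm_ge a lam (X.π y),
        X.e_ge y hy.1 ((mem_ball_zero_iff.1 hy.2).le.trans hr1)])
    fun y hy => by
      by_cases h3 : y ∈ X.U
      · rw [indicator_of_mem h3, indicator_of_notMem fun h4 => hy ⟨h3, hPb h4⟩, mul_zero]
      · exact indicator_of_notMem h3 _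
  rw [lintegral_indicator X.opn.measurableSet, X.vol _ (hm.indicator hPm), add_zero,
    show d - 2 * d = -d by ring, zero_sub] at h
  refine le_trans ?_ (h.trans_eq (by congr 1; ring))
  rw [← lintegral_const_mul' _ _ ENNReal.ofReal_ne_top]
  refine le_trans (setLIntegral_mono' hPm fun v hv => ?_)
    (lintegral_mono_set (hPb.trans (ball_subset_closedBall.trans hO)))
  rw [indicator_of_mem hv]
  exact mul_le_mul_left (ENNReal.ofReal_le_ofReal (hV v (hPb hv))) _

/-- **Y9, lower bound** -/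
theorem stLo : StLo := by
  intro k η hk hη hη1
  obtain ⟨K₀, hK₀, hK⟩ := tm_disc k hη
  refine ⟨K₀, fun N M _ _ _ _ Q μ S X p r Λ δ δ₁ d V₀ s hS hp hr hr1 hO hV0 hV hs hd hδ₁ h1 h2 h3 hδ
    hΛ => ?_⟩
  have dn : ∀ lam, Q.Dens (Real.exp lam • p) := fun lam =>
    hS.pg.dens_smul _ _ (Real.exp_pos _).le hp
  have hs0 : 0 < ∏ i, s i := Finset.prod_pos fun i _ => (hs i).1
  have hm := mR_pos k
  have key : ∀ lam ∈ Icc δ Λ, (1 - η) * V₀ * mR k / (∏ i, s i) * (lam - δ) ^ k ≤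
      (1 + 3 * Real.exp (-d)) * S.msl 0 p lam := fun lam hl => by
    set l := lam - δ₁ - X.m - Real.log (k + 1) - d - 1 with hl'
    have g1 : ∀ i, (lam - δ) / s i + 1 ≤ (l - K₀) / s i := fun i => by
      rw [div_add_one (hs i).1.ne']
      exact div_le_div_of_nonneg_right (by linarith [h3 i]) (hs i).1.le
    have g0 : ∀ i, 0 ≤ (lam - δ) / s i := fun i => div_nonneg (sub_nonneg.2 hl.1) (hs i).1.le
    have g2 := hS.mono _ _ (dn lam) (dn Λ) fun y =>
      mul_le_mul_of_nonneg_right (Real.exp_le_exp.2 hl.2) (hp.nonneg y)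
    have g3 := hS.cmp _ _ (Λ - lam) (dn lam) (dn Λ) (sub_nonneg.2 hl.2) fun y => by
      have := Real.one_le_exp (sub_nonneg.2 hl.2)
      simp only [Pi.smul_apply, smul_eq_mul, mul_add, ← mul_assoc, ← Real.exp_add, sub_add_cancel]
      linarith
    have g4 := (mul_le_mul_right (hK (fun i => ⌊(l - K₀) / s i⌋₊)
      (fun i => Nat.le_floor (by rw [Nat.cast_one]; linarith [g1 i, g0 i])) l s fun i => by
        have := (le_div_iff₀ (hs i).1).1 (Nat.floor_le (a := (l - K₀) / s i)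
          (by linarith [g1 i, g0 i]))
        linarith) _).trans (lo_mass hS X (dn lam) _ hr hr1 hO hV (fun i => (hs i).2) hd
      (by linarith [h3 ⟨0, hk⟩, (hs ⟨0, hk⟩).1, hl.1])
      (fun y hy e1 e2 => (h1 y hy e1 e2).trans (g2 y))
      fun y hy e1 => by linarith [h2 y hy e1, g3 y])
    have g5 := hS.ms_nonneg (Real.exp lam • p) _ (dn lam)
    rw [← ENNReal.ofReal_mul hV0, ENNReal.ofReal_le_ofReal_iff (by positivity)] at g4
    rw [MAS.msl, zero_add]
    refine le_trans ?_ g4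
    have g6 : (lam - δ) ^ k / ∏ i, s i ≤ ∏ i, (⌊(l - K₀) / s i⌋₊ : ℝ) := by
      rw [show (lam - δ) ^ k = ∏ _i : Fin k, (lam - δ) by simp, ← Finset.prod_div_distrib]
      exact Finset.prod_le_prod (fun i _ => g0 i) fun i _ => by
        linarith [g1 i, Nat.lt_floor_add_one ((l - K₀) / s i)]
    have g7 := mul_le_mul_of_nonneg_left g6
      (mul_nonneg (mul_nonneg (sub_nonneg.2 hη1) hV0) hm.le)
    exact le_of_eq_of_le (by ring) (g7.trans_eq (by ring))
  have hd' : ∀ lam, HasDerivAt (fun lam => (1 + 3 * Real.exp (-d)) * S.G (0 + Real.exp lam • p) -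
      (1 - η) * V₀ * mR k / (∏ i, s i) * ((lam - δ) ^ (k + 1) / (k + 1)))
      ((1 + 3 * Real.exp (-d)) * S.msl 0 p lam -
        (1 - η) * V₀ * mR k / (∏ i, s i) * (lam - δ) ^ k) lam := fun lam => by
    refine ((hS.deriv 0 p lam hS.pg.dens_zero hp).const_mul _).fun_sub (HasDerivAt.const_mul _ ?_)
    convert (((hasDerivAt_id' lam).sub_const δ).fun_pow (k + 1)).div_const ((k : ℝ) + 1) using 1
    push_cast
    field_simp
  have h := monotoneOn_of_deriv_nonneg (convex_Icc δ Λ)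
    (fun lam _ => (hd' lam).continuousAt.continuousWithinAt)
    (fun lam _ => (hd' lam).differentiableAt.differentiableWithinAt)
    (fun lam hl => by rw [(hd' lam).deriv]; exact sub_nonneg.2 (key lam (interior_subset hl)))
    (left_mem_Icc.2 hΛ) (right_mem_Icc.2 hΛ) hΛ
  have g := mul_nonneg (show 0 ≤ 1 + 3 * Real.exp (-d) by positivity) (hS.G_nonneg _ (dn δ))
  simp only [zero_add, sub_self, zero_pow k.succ_ne_zero, zero_div, mul_zero, sub_zero] at h
  refine le_trans (le_of_eq ?_) (sub_nonneg.1 (g.trans h))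
  field_simp

end Vale.Agent.P284Y.Y9
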