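import Vale.Agent.P284Y.Y9.Spec
import Vale.Agent.P284Y.Gen.PGBm
import Vale.Agent.P284Z.K.Bas
import Vale.Agent.P284Z.J.G1

/-!
# P284Y, row Y9: the model of a chart, unitary changes of the coordinates on the base
-/

open scoped ContDiff Topology ComplexOrder ENNReal Matrix
open Filter Set Function Metric MeasureTheory

noncomputable section

namespace Vale.Agent.P284Y.Y9

open Vale.Agent.P272.K Vale.Agent.P284Z Vale.Agent.P284Z.J Vale.Agent.P284Y.A Vale.Agent.P284Y.Lib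

namespace MC

variable {n p : ℕ}

theorem coA_pb {S G : Mx n} (h : (pb S G).det ≠ 0) : coA S (pb S G) = G⁻¹ := by
  rw [pb, Matrix.det_mul, Matrix.det_mul] at h
  rw [coA, pb, Matrix.mul_inv_rev, Matrix.mul_inv_rev,
    Matrix.mul_nonsing_inv_cancel_left _ _ (right_ne_zero_of_mul h).isUnit,
    Matrix.nonsing_inv_mul_cancel_right _ _ (left_ne_zero_of_mul (left_ne_zero_of_mul h)).isUnit]

theorem det_inv {G : Mx n} (h : G.PosDef) : 0 < G.det.re ∧ G⁻¹.det.re = G.det.re⁻¹ := by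
  obtain ⟨h1, h2⟩ := Complex.pos_iff.1 h.det_pos
  refine ⟨h1, ?_⟩
  rw [Matrix.det_nonsing_inv, Ring.inverse_eq_inv', show G.det = (G.det.re : ℂ) from
    Complex.ext rfl h2.symm, ← Complex.ofReal_inv, Complex.ofReal_re, Complex.ofReal_re]

theorem coA_mul (W : Mx p) (S : Matrix (Fin p) (Fin n) ℂ) (G : Mx n) :
    coA (W * S) G = W.map (starRingEnd ℂ) * coA S G * (W.map (starRingEnd ℂ))ᴴ := by
  have e : (W.map (starRingEnd ℂ))ᴴ = W.transpose := by
    ext i j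
    simp
  simp only [e, coA, Matrix.map_mul, Matrix.transpose_mul, Matrix.mul_assoc]

theorem conj_unit {W : Mx p} (h : W * Wᴴ = 1) :
    W.map (starRingEnd ℂ) * (W.map (starRingEnd ℂ))ᴴ = 1 := by
  have e : (W.map (starRingEnd ℂ))ᴴ = Wᴴ.map (starRingEnd ℂ) := by
    ext i j
    simp
  rw [e, ← Matrix.map_mul, h, Matrix.map_one _ (map_zero _) (map_one _)]

end MC

open MC in
theorem stModC : StModC := by
  classical
  intro n Γ E _ _ _ _ _ _ _ C μ a hμ
  have h74 : (7 / 2 : ℝ) < 4 := by norm_num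
  have hB : C.B (7 / 2) a ⊆ C.B 4 a := C.B_mono h74.le a
  have hU := C.isOpen_image_pt 1 (C.isOpen_B (7 / 2) a) hB
  have hc : ∀ z ∈ C.B 4 a, ContinuousAt (cHess (C.ρ a)) z := fun z hz =>
    K.cont_cHess (C.ρ_sm a z hz)
  obtain ⟨c, hc1, hc2⟩ := K.exists_dom (C.isCompact_cB (7 / 2) a) (A := fun _ => 1)
    (B := fun z => (cHess (C.ρ a) z)⁻¹) continuousOn_const (fun z hz =>
      ((continuousAt_matrix_inv _ (by
        rw [Ring.inverse_eq_inv']
        exact continuousAt_inv₀ (C.ρ_pos a z (C.cB_sub_B h74 a hz)).det_pos.ne')).comp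
        (hc z (C.cB_sub_B h74 a hz))).continuousWithinAt)
    (fun _ _ => Matrix.isHermitian_one) fun z hz => (C.ρ_pos a z (C.cB_sub_B h74 a hz)).inv
  have hco : ContinuousOn (C.co 1 a) (C.pt 1 a '' C.B (7 / 2) a) := by
    rintro _ ⟨z, hz, rfl⟩
    exact (C.continuousAt_co (hB hz) 1).continuousWithinAt
  have hD : ContinuousOn (fun y => (cHess (C.ρ a) (C.co 1 a y)).det.re⁻¹)
      (C.pt 1 a '' C.B (7 / 2) a) := by
    refine ContinuousOn.comp (g := fun z => (cHess (C.ρ a) z).det.re⁻¹) (t := C.B 4 a)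
      (fun z hz => ?_) hco ?_
    · exact ((Complex.continuous_re.continuousAt.comp (continuous_id.matrix_det.continuousAt.comp
        (hc z hz))).inv₀ (det_inv (C.ρ_pos a z hz)).1.ne').continuousWithinAt
    · rintro _ ⟨z, hz, rfl⟩
      rw [C.co_pt (hB hz)]
      exact hB hz
  refine ⟨⟨C.pt 1 a '' C.B (7 / 2) a, C.co 1 a, C.B (7 / 2) a,
    fun y => (cHess (C.ρ a) (C.co 1 a y)).det.re⁻¹, fun _ => 1, c, hc1, hU, C.isOpen_B _ a, ?_, ?_,
    fun K hK hKO => ?_, hD, continuousOn_const, fun _ _ => one_pos, ?_, fun f hf => ?_⟩,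
    rfl, rfl, rfl, fun _ _ => le_rfl⟩
  · rintro γ b z hz ⟨w, hw, e⟩
    exact C.holOn_co 1 a γ b z hz (e ▸ C.pt_mem (hB hw) 1)
  · rintro _ ⟨z, hz, rfl⟩
    rwa [C.co_pt (hB hz)]
  · have e : {y ∈ C.pt 1 a '' C.B (7 / 2) a | C.co 1 a y ∈ K} = C.pt 1 a '' K := by
      ext y
      constructor
      · rintro ⟨⟨z, hz, rfl⟩, h⟩
        exact ⟨z, by rwa [C.co_pt (hB hz)] at h, rfl⟩
      · rintro ⟨z, hz, rfl⟩
        exact ⟨⟨z, hKO hz, rfl⟩, by rwa [C.co_pt (hB (hKO hz))]⟩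
    rw [e]
    exact C.isCompact_image_pt 1 hK (hKO.trans hB)
  · rintro γ b z hz ⟨w, hw, e⟩
    obtain ⟨o, h1⟩ := C.Ov_of_eq hz (hB hw) e.symm
    have h2 := JGx.rho_ch jb o
    have h3 := (C.ρ_pos b z hz).det_pos.ne'
    rw [h2] at h3
    rw [funext (C.co_pt_eq γ 1 b a), h2, coA_pb h3, h1, ← e, C.co_pt (hB hw)]
    exact ⟨(det_inv (C.ρ_pos a w (hB hw))).2.symm, hc2 w (C.B_sub_cB _ a hw)⟩
  · have hm := hU.measurableSet
    have h1 := hμ 1 a ((C.pt 1 a '' C.B (7 / 2) a).indicator fun y => ENNReal.ofReal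
      ((C.pt 1 a '' C.B (7 / 2) a).piecewise (fun y => (cHess (C.ρ a) (C.co 1 a y)).det.re⁻¹) 0 y) *
        f ((C.pt 1 a '' C.B (7 / 2) a).piecewise (C.co 1 a) 0 y))
      (((hD.measurable_piecewise continuousOn_const hm).ennreal_ofReal.mul
        (hf.comp (hco.measurable_piecewise continuousOn_const hm))).indicator hm)
    rw [lintegral_indicator hm, Measure.restrict_restrict_of_subset (image_mono hB)] at h1
    refine ((setLIntegral_congr_fun hm fun y hy => ?_).trans h1).trans ?_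
    · simp only [piecewise_eq_of_mem _ _ _ hy]
    rw [← Measure.restrict_restrict_of_subset hB,
      ← lintegral_indicator (C.isOpen_B (7 / 2) a).measurableSet]
    refine setLIntegral_congr_fun (C.isOpen_B 4 a).measurableSet fun z hz => ?_
    by_cases h : z ∈ C.B (7 / 2) a
    · have h2 : C.pt 1 a z ∈ C.pt 1 a '' C.B (7 / 2) a := mem_image_of_mem _ h
      have h3 := (det_inv (C.ρ_pos a z hz)).1
      simp only [indicator_of_mem h, indicator_of_mem h2, piecewise_eq_of_mem _ _ _ h2, C.co_pt hz]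
      rw [mul_right_comm, ← ENNReal.ofReal_mul (inv_pos.2 h3).le, inv_mul_cancel₀ h3.ne']
    · have h2 : C.pt 1 a z ∉ C.pt 1 a '' C.B (7 / 2) a := fun ⟨w, hw, e⟩ =>
        h (C.injOn_pt 1 a (hB hw) hz e ▸ hw)
      simp only [indicator_of_notMem h, indicator_of_notMem h2, zero_mul]

open MC in
theorem stModL : StModL := by
  intro n p Γ E _ _ _ _ C μ M t₀ W hW
  have hW' : W * Wᴴ = 1 := mul_eq_one_comm.1 hW
  have e1 : ∀ t, t₀ + Wᴴ *ᵥ (W *ᵥ (t - t₀)) = t := fun t => by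
    rw [Matrix.mulVec_mulVec, hW, Matrix.one_mulVec, add_sub_cancel]
  have e2 : ∀ v, W *ᵥ (t₀ + Wᴴ *ᵥ v - t₀) = v := fun v => by
    rw [add_sub_cancel_left, Matrix.mulVec_mulVec, hW', Matrix.one_mulVec]
  have e3 : (fun t : Cm p => W *ᵥ (t - t₀)) = fun t => -(W *ᵥ t₀) + W *ᵥ t := funext fun t => by
    rw [Matrix.mulVec_sub, neg_add_eq_sub]
  have c1 : Continuous fun v : Cm p => t₀ + Wᴴ *ᵥ v :=
    continuous_const.add (PGa.sm_mulVec Wᴴ).continuous
  have c2 : Continuous fun t : Cm p => W *ᵥ (t - t₀) :=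
    (PGa.sm_mulVec W).continuous.comp (continuous_id.sub continuous_const)
  have hO := M.opnO.preimage c1
  refine ⟨⟨M.U, fun y => W *ᵥ (M.sh y - t₀), {v | t₀ + Wᴴ *ᵥ v ∈ M.O}, M.D,
    fun v => M.V (t₀ + Wᴴ *ᵥ v), M.c, M.one_le, M.opn, hO, fun γ a z hz h => ?_, fun y hy => ?_,
    fun K hK hKO => ?_, M.D_cont, M.V_cont.comp c1.continuousOn fun _ h => h,
    fun v hv => M.V_pos _ hv, fun γ a z hz h => ?_, fun f hf => ?_⟩, rfl, rfl, rfl, rfl, rfl⟩
  · exact ((LinearMap.toContinuousLinearMap W.mulVecLin).analyticAt _).comp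
      ((M.hol γ a z hz h).sub analyticAt_const)
  · exact mem_of_eq_of_mem (s := M.O) (e1 _) (M.mem y hy)
  · have e : {y ∈ M.U | W *ᵥ (M.sh y - t₀) ∈ K} =
        {y ∈ M.U | M.sh y ∈ (fun v => t₀ + Wᴴ *ᵥ v) '' K} := by
      ext y
      refine and_congr_right fun _ => ⟨fun h => ⟨_, h, e1 _⟩, fun ⟨v, hv, e⟩ => ?_⟩
      rwa [← e, e2]
    rw [e]
    exact M.cpt _ (hK.image c1) (image_subset_iff.2 hKO)
  · obtain ⟨h1, h2⟩ := M.D_eq γ a z hz h
    have h3 := jm_comp (t := fun t => W *ᵥ (t - t₀)) (M.hol γ a z hz h).differentiableAt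
      (by rw [e3]; exact (PGa.der_aff _ W _).differentiableAt)
    rw [e3, PGa.jm_aff] at h3
    have h4 := h2.mul_mul_conjTranspose_same (W.map (starRingEnd ℂ))
    rw [Matrix.mul_sub, Matrix.sub_mul, Matrix.mul_one, conj_unit hW', Matrix.mul_smul,
      Matrix.smul_mul] at h4
    rw [h3, coA_mul, Matrix.det_mul, Matrix.det_mul, mul_right_comm, ← Matrix.det_mul,
      conj_unit hW', Matrix.det_one, one_mul]
    exact ⟨h1, h4⟩
  · have h1 : ‖Wᴴ.det‖ ^ 2 = 1 := by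
      have h2 := congrArg (fun A => ‖Matrix.det A‖) hW
      simpa [sq] using h2
    have h2 := cov (Θ := fun v => t₀ + Wᴴ *ᵥ v) hO.measurableSet
      (fun z _ => (PGa.der_aff t₀ Wᴴ z).differentiableAt)
      (fun u _ v _ e => by rw [← e2 u, ← e2 v]; exact congrArg (fun x => W *ᵥ (x - t₀)) e)
      fun t => ENNReal.ofReal (M.V t) * f (W *ᵥ (t - t₀))
    rw [image_preimage_eq (f := fun v => t₀ + Wᴴ *ᵥ v) _ fun t => ⟨_, e1 t⟩] at h2
    simp only [PGa.jm_aff, h1, ENNReal.ofReal_one, one_mul, e2] at h2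
    exact (M.vol _ (hf.comp c2.measurable)).trans h2

end Vale.Agent.P284Y.Y9
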