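import Vale.Agent.P284Y.Y9.Spec
import Vale.Agent.P284Y.Y.Cov

/-!
# P284Y, row Y9: the model on `E × ℂ`
-/

open scoped ContDiff Topology ComplexOrder ENNReal Matrix
open Filter Set Function Metric MeasureTheory

noncomputable section

namespace Vale.Agent.P284Y.Y9

open Vale.Agent.P272.K Vale.Agent.P284Z Vale.Agent.P284Z.J Vale.Agent.P284Y.Y

namespace Pm

theorem det_pb_add {N k : ℕ} {G : Mx N} (hG : G.det ≠ 0) (S : Matrix (Fin k) (Fin N) ℂ) (H : Mx k)
    {β : ℂ} (hβ : β ≠ 0) (hA : (coA S G).det ≠ 0) :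
    (β • G + pb S H).det * β ^ k =
      β ^ N * G.det * ((coA S G).det * (H + β • (coA S G)⁻¹).det) := by
  have h1 : β • G + pb S H =
      (β • G) * (1 + (β⁻¹ • (G⁻¹ * S.transpose)) * (H * S.map (starRingEnd ℂ))) := by
    rw [Matrix.mul_add, Matrix.mul_one, ← Matrix.mul_assoc, Matrix.smul_mul, Matrix.mul_smul,
      smul_smul, mul_inv_cancel₀ hβ, one_smul, Matrix.mul_nonsing_inv_cancel_left _ _ hG.isUnit,
      pb, Matrix.mul_assoc]
  have h2 : (H + β • (coA S G)⁻¹) * coA S G =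
      β • (1 + (H * S.map (starRingEnd ℂ)) * (β⁻¹ • (G⁻¹ * S.transpose))) := by
    rw [Matrix.add_mul, Matrix.smul_mul, Matrix.nonsing_inv_mul _ hA.isUnit, smul_add,
      Matrix.mul_smul, smul_smul, mul_inv_cancel₀ hβ, one_smul, add_comm, coA]
    simp only [Matrix.mul_assoc]
  rw [h1, mul_comm (coA S G).det, ← Matrix.det_mul (H + _), h2, Matrix.det_mul,
    Matrix.det_one_add_mul_comm, Matrix.det_smul, Matrix.det_smul, Fintype.card_fin,
    Fintype.card_fin]
  ring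

theorem dpos {k : ℕ} {A : Mx k} (h : A.PosDef) : 0 < A.det.re := (Complex.pos_iff.1 h.det_pos).1

theorem inv_le {k : ℕ} {A : Mx k} {c : ℝ} (hc : 0 < c) (h : ((c : ℂ) • A - 1).PosSemidef) :
    A.PosDef ∧ ((c : ℂ) • (1 : Mx k) - A⁻¹).PosSemidef := by
  have c0 : (c : ℂ) ≠ 0 := by exact_mod_cast hc.ne'
  have ci : (0 : ℂ) < (c : ℂ)⁻¹ := by exact_mod_cast inv_pos.2 hc
  have h1 : A.PosDef := by
    have := (Matrix.PosDef.one.add_posSemidef h).smul ci
    rwa [add_sub_cancel, smul_smul, inv_mul_cancel₀ c0, one_smul] at this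
  have h2 : A⁻¹ᴴ = A⁻¹ := h1.inv.isHermitian.eq
  have hu : IsUnit A.det := h1.det_pos.ne'.isUnit
  have h3 := ((Matrix.posSemidef_conjTranspose_mul_self ((c : ℂ) • (1 : Mx k) - A⁻¹)).add
    (h.conjTranspose_mul_mul_same A⁻¹)).smul ci.le
  refine ⟨h1, ?_⟩
  convert h3 using 1
  rw [Matrix.conjTranspose_sub, Matrix.conjTranspose_smul, Matrix.conjTranspose_one, h2,
    Complex.star_def, Complex.conj_ofReal, eq_inv_smul_iff₀ c0]
  simp only [Matrix.mul_sub, Matrix.sub_mul, Matrix.mul_smul, Matrix.smul_mul, Matrix.one_mul,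
    Matrix.mul_one, Matrix.nonsing_inv_mul _ hu, smul_sub]
  abel

theorem det_bd {N k : ℕ} {G : Mx N} (hG : G.PosDef) (S : Matrix (Fin k) (Fin N) ℂ) {H : Mx k}
    (hH : H.PosSemidef) {β c : ℝ} (hβ : 0 < β) (hc : 0 < c)
    (h : ((c : ℂ) • coA S G - 1).PosSemidef) :
    β ^ N / β ^ k * G.det.re * (coA S G).det.re * H.det.re ≤ ((β : ℂ) • G + pb S H).det.re ∧
    ((β : ℂ) • G + pb S H).det.re ≤
      β ^ N / β ^ k * G.det.re * (coA S G).det.re * (H + ((β * c : ℝ) : ℂ) • (1 : Mx k)).det.re := by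
  obtain ⟨h1, h2⟩ := inv_le hc h
  have b0 : (0 : ℂ) < (β : ℂ) := by exact_mod_cast hβ
  have h3 := det_pb_add hG.det_pos.ne' S H b0.ne' h1.det_pos.ne'
  have h4 : ((β : ℂ) • (coA S G)⁻¹).PosSemidef := h1.inv.posSemidef.smul b0.le
  have h5 : ((β : ℂ) • G + pb S H).det.re =
      β ^ N / β ^ k * G.det.re * (coA S G).det.re * (H + (β : ℂ) • (coA S G)⁻¹).det.re := by
    rw [← eq_div_iff (pow_ne_zero _ b0.ne')] at h3
    rw [h3, det_im hG.posSemidef, det_im h1.posSemidef, det_im (hH.add h4)]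
    norm_cast
    ring
  have h6 : 0 ≤ β ^ N / β ^ k * G.det.re * (coA S G).det.re := by
    have := dpos hG
    have := dpos h1
    positivity
  rw [h5]
  refine ⟨mul_le_mul_of_nonneg_left (det_mono hH (by rwa [add_sub_cancel_left])) h6,
    mul_le_mul_of_nonneg_left (det_mono (hH.add h4) ?_) h6⟩
  rw [add_sub_add_left_eq_sub, Complex.ofReal_mul, ← smul_smul, ← smul_sub]
  exact h2.smul b0.le

variable {n p : ℕ}

/-- the rectangular block matrix with blocks `1` and `S` -/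
def bq (S : Matrix (Fin p) (Fin n) ℂ) : Matrix (Fin (p + 1)) (Fin (n + 1)) ℂ :=
  Matrix.of (Fin.cons (Fin.cons 1 0) fun i => Fin.cons 0 (S i))

theorem coA_bq (S : Matrix (Fin p) (Fin n) ℂ) {G : Mx n} (hG : G.det ≠ 0) :
    coA (bq S) (bk 1 G) = bk 1 (coA S G) := by
  rw [coA, bk_inv one_ne_zero hG]
  refine bk_ext ?_ ?_ ?_ ?_ <;> simp [bq, coA, Matrix.mul_apply, Fin.sum_univ_succ]

theorem jm_cons {s : Cm n → Cm p} {v : Cm (n + 1)} (τ : ℂ) (hs : AnalyticAt ℂ s (Fin.tail v)) :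
    jm (fun u : Cm (n + 1) => (Fin.cons (u 0 - τ) (s (Fin.tail u)) : Cm (p + 1))) v =
      bq (jm s (Fin.tail v)) := by
  have h1 := hs.differentiableAt.hasFDerivAt.comp v (tl n).hasFDerivAt
  have h2 : HasFDerivAt (fun u : Cm (n + 1) => (Fin.cons (u 0 - τ) (s (Fin.tail u)) : Cm (p + 1)))
      (ContinuousLinearMap.pi (Fin.cons (ContinuousLinearMap.proj 0) fun i =>
        (ContinuousLinearMap.proj i).comp ((fderiv ℂ s (Fin.tail v)).comp (tl n)))) v :=
    hasFDerivAt_pi.2 fun i => Fin.cases ((hasFDerivAt_apply 0 v).sub_const τ)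
      (fun i => hasFDerivAt_pi'.1 h1 i) i
  have e0 : tl n (Pi.single 0 1) = 0 := by
    ext i
    simp [tl]
  have e1 : ∀ j, tl n (Pi.single (Fin.succ j) 1) = Pi.single j 1 := fun j => by
    ext i
    simp [tl, Pi.single_apply]
  ext b j
  rw [jm_apply, h2.fderiv]
  refine Fin.cases ?_ (fun b => ?_) b <;> refine Fin.cases ?_ (fun j => ?_) j <;>
    simp [bq, e0, e1, jm_apply]

variable {Γ E : Type} [Group Γ] [TopologicalSpace E] [MulAction Γ E] {C : Cov n Γ E}

theorem om_eq {β m τ K} {s : E → Cm p} {u : Cm (p + 1) → ℝ} (hu : ContDiff ℝ ∞ u) (i : Γ × C.I)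
    {v : Cm (n + 1)} (hv : v ∈ (QY C β m).U i)
    (hs : AnalyticAt ℂ (fun w => s (C.pt i.1 i.2 w)) (Fin.tail v)) :
    ContDiffAt ℝ ∞ (fun w => (fun y : E × ℂ => u (Fin.cons (y.2 - τ) (s y.1)) +
      -((m - β) * ‖y.2 - τ‖ ^ 2) + K) ((QY C β m).pt i w)) v ∧
    (QY C β m).om (fun y => u (Fin.cons (y.2 - τ) (s y.1)) + -((m - β) * ‖y.2 - τ‖ ^ 2) + K) i v =
      (β : ℂ) • bk 1 (cHess (C.ρ i.2) (Fin.tail v)) +
        pb (bq (jm (fun w => s (C.pt i.1 i.2 w)) (Fin.tail v)))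
          (cHess u (Fin.cons (v 0 - τ) (s (C.pt i.1 i.2 (Fin.tail v))))) := by
  have h0 : AnalyticAt ℂ (fun w : Cm (n + 1) =>
      (Fin.cons (w 0 - τ) (s (C.pt i.1 i.2 (Fin.tail w))) : Cm (p + 1))) v :=
    an_cons ((analyticAt_pi_iff.1 analyticAt_id 0).sub analyticAt_const) (hs.comp (an_tail v))
  have h1 : ContDiffAt ℝ ∞ (fun w : Cm (n + 1) =>
      u (Fin.cons (w 0 - τ) (s (C.pt i.1 i.2 (Fin.tail w))))) v :=
    hu.contDiffAt.comp v (h0.contDiffAt.restrict_scalars ℝ)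
  have h2 : ContDiffAt ℝ ∞ (fun w : Cm (n + 1) => (m - β) * ‖w 0 - τ‖ ^ 2) v :=
    contDiffAt_const.mul (sm_w τ).contDiffAt
  have h3 := (h1.add h2.neg).add (contDiffAt_const (c := K))
  refine ⟨h3, (C2.cHess_add ((ρY_sm C i.2 hv).of_le two_le) (h3.of_le two_le)).trans ?_⟩
  rw [ρY_hess C i.2 hv, C2.cHess_add ((h1.add h2.neg).of_le two_le) contDiffAt_const,
    C2.cHess_const, C2.cHess_add (h1.of_le two_le) (h2.neg.of_le two_le),
    C2.cHess_neg (h2.of_le two_le), C2.cHess_const_mul _ ((sm_w τ).contDiffAt.of_le two_le),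
    hess_w, hess_comp h0 (hu.contDiffAt.of_le two_le), jm_cons τ hs, add_zero, add_left_comm,
    ← sub_eq_add_neg, bk_smul, bk_smul, bk_sub, add_comm (pb _ _)]
  simp

end Pm

open Pm in
/-- the model on `E × ℂ` -/
theorem stPM : StPM := by
  intro n p Γ E _ _ _ _ _ _ _ C μ M β m τ _ hβ hm pg
  have m0 : 0 < m := hβ.trans_le hm
  have c0 : 0 < M.c := one_pos.trans_le M.one_le
  have hsh : ContinuousOn M.sh M.U := fun y hy => (M.hol.continuousAt C hy).continuousWithinAt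
  have hD : ∀ y ∈ M.U, 0 < M.D y := fun y hy => by
    obtain ⟨γ, a, z, hz, rfl⟩ := C.exists_pt y
    obtain ⟨h1, h2⟩ := M.D_eq γ a z (C.B14 hz) hy
    exact (dpos (inv_le c0 h2).1).trans_eq h1.symm
  refine ⟨⟨M.U ×ˢ univ, fun y => Fin.cons (y.2 - τ) (M.sh y.1), fun y => -((m - β) * ‖y.2 - τ‖ ^ 2),
    {v | Fin.tail v ∈ M.O}, fun y => M.D y.1 / (β ^ p * m),
    fun v => β ^ n / β ^ p * M.V (Fin.tail v), β * M.c, m, by positivity, m0.le,
    M.opn.prod isOpen_univ, M.opnO.preimage sm_tail.continuous, fun y hy =>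
      (cont_cons (continuousAt_snd.sub continuousAt_const)
        ((M.hol.continuousAt C hy.1).comp continuousAt_fst)).continuousWithinAt,
    fun K hK hO => ?_, fun y _ => neg_nonpos.2 (mul_nonneg (by linarith) (sq_nonneg _)),
    fun y _ h => ?_, fun y hy => div_nonneg (hD _ hy.1).le (by positivity),
    fun u K hu hp => ⟨fun y hy => ⟨?_, ?_⟩, fun y hy => ?_⟩, fun f hf => ?_⟩,
    rfl, rfl, rfl, rfl, rfl, rfl⟩
  · have h1 := (M.cpt _ (hK.image sm_tail.continuous) (image_subset_iff.2 hO)).prod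
      (hK.image (f := fun v => v 0 + τ) (by fun_prop))
    refine h1.of_isClosed_subset ?_ fun y hy => ⟨⟨hy.1.1, _, hy.2, rfl⟩, _, hy.2, by simp⟩
    have h2 : ContinuousOn (fun y : E × ℂ => (Fin.cons (y.2 - τ) (M.sh y.1) : Cm (p + 1)))
        ({y ∈ M.U | M.sh y ∈ Fin.tail '' K} ×ˢ ((fun v => v 0 + τ) '' K)) := fun y hy =>
      (cont_cons (continuousAt_snd.sub continuousAt_const)
        ((M.hol.continuousAt C hy.1.1).comp continuousAt_fst)).continuousWithinAt
    convert h2.preimage_isClosed_of_isClosed h1.isClosed hK.isClosed using 1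
    exact Subset.antisymm (fun y hy => ⟨⟨⟨hy.1.1, _, hy.2, rfl⟩, _, hy.2, by simp⟩, hy.2⟩)
      fun y hy => ⟨⟨hy.1.1.1, trivial⟩, hy.2⟩
  · have h1 := pow_le_one₀ (n := 2) (norm_nonneg _) ((norm_cons_le zero_le_one).1 h).1
    nlinarith [sq_nonneg ‖y.2 - τ‖]
  · rintro i v hv rfl
    exact (om_eq hu i hv (M.hol _ _ _ hv hy.1)).1
  · rintro i v hv rfl
    rw [(om_eq hu i hv (M.hol _ _ _ hv hy.1)).2]
    exact ((bk_pos one_pos (C.ρ_pos _ _ hv)).posSemidef.smul (by exact_mod_cast hβ.le)).add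
      (pb_psd _ (hp _))
  · obtain ⟨x, w⟩ := y
    obtain ⟨γ, a, z, hz, rfl⟩ := C.exists_pt x
    have hz := C.B14 hz
    have hv : (Fin.cons w z : Cm (n + 1)) ∈ (QY C β m).U (γ, a) := hz
    obtain ⟨h1, h2⟩ := om_eq (τ := τ) (K := K) hu (γ, a) hv (M.hol _ _ _ hz hy.1)
    obtain ⟨h3, h4⟩ := M.D_eq γ a z hz hy.1
    have hG := C.ρ_pos a z hz
    have h5 := pg.ma_pt (fun y => u (Fin.cons (y.2 - τ) (M.sh y.1)) +
      -((m - β) * ‖y.2 - τ‖ ^ 2) + K) (γ, a) _ hv (h1.of_le two_le)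
    have h6 := det_bd (bk_pos one_pos hG) (bq (jm (fun w => M.sh (C.pt γ a w)) z))
      (hp (Fin.cons (w - τ) (M.sh (C.pt γ a z)))) hβ c0 (by
        rw [Complex.ofReal_one, coA_bq _ hG.det_pos.ne', bk_smul, ← bk_one, bk_sub]
        have := bk_psd (sub_nonneg.2 M.one_le) h4
        simpa using this)
    have h7 := dpos hG
    rw [h2, QY_vol C _ hv] at h5
    rw [Complex.ofReal_one, coA_bq _ hG.det_pos.ne', bk_det, bk_det, one_mul, one_mul, ← h3] at h6
    refine ⟨(le_of_eq_of_le ?_ (div_le_div_of_nonneg_right h6.1 (by positivity))).trans_eq h5.symm,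
      h5.trans_le ((div_le_div_of_nonneg_right h6.2 (by positivity)).trans_eq ?_)⟩ <;>
    · simp only [Fin.tail_cons]
      field_simp
      ring
  · classical
    have hU := M.opn.measurableSet
    have hO := M.opnO.measurableSet
    have d1 := M.D_cont.measurable_piecewise (continuousOn_const (c := 0)) hU
    have s1 := hsh.measurable_piecewise (continuousOn_const (c := 0)) hU
    have f1 : Measurable fun q : Cm p × ℂ => f (Fin.cons q.2 q.1) :=
      hf.comp (Y.hc p).continuous.measurable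
    have g1 : Measurable ((M.U ×ˢ univ).indicator fun y : E × ℂ =>
        ENNReal.ofReal (M.U.piecewise M.D (fun _ => 0) y.1) *
          f (Fin.cons (y.2 - τ) (M.U.piecewise M.sh (fun _ => 0) y.1))) :=
      ((d1.comp measurable_fst).ennreal_ofReal.mul (f1.comp ((s1.comp measurable_fst).prodMk
        (measurable_snd.sub_const τ)))).indicator (hU.prod .univ)
    have h1 : ∫⁻ y in M.U ×ˢ univ, ENNReal.ofReal (M.D y.1) * f (Fin.cons (y.2 - τ) (M.sh y.1))
        ∂(μ.prod volume) =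
        ∫⁻ y in M.U, ENNReal.ofReal (M.D y) * (∫⁻ w, f (Fin.cons w (M.sh y))) ∂μ := by
      rw [setLIntegral_congr_fun (hU.prod .univ) (g := fun y : E × ℂ =>
        ENNReal.ofReal (M.U.piecewise M.D (fun _ => 0) y.1) *
          f (Fin.cons (y.2 - τ) (M.U.piecewise M.sh (fun _ => 0) y.1))) fun y hy => by
          simp only [piecewise_eq_of_mem _ _ _ hy.1], ← lintegral_indicator (hU.prod .univ),
        lintegral_prod _ g1.aemeasurable, ← lintegral_indicator hU]
      refine lintegral_congr fun x => ?_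
      by_cases hx : x ∈ M.U
      · simp only [indicator, mem_prod, hx, mem_univ, and_self, if_true, piecewise_eq_of_mem _ _ _ hx]
        rw [lintegral_const_mul' _ _ ENNReal.ofReal_ne_top,
          lintegral_sub_right_eq_self (fun w => f (Fin.cons w (M.sh x))) τ]
      · simp [indicator, hx]
    have h2 := lint_cons (s := M.O) (fun q => ENNReal.ofReal (M.V q.2) * f (Fin.cons q.1 q.2))
      ((M.V_cont.aemeasurable hO).ennreal_ofReal.comp_snd.mul
        (f1.comp measurable_swap).aemeasurable)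
    simp only [Fin.cons_self_tail, lintegral_const_mul' _ _ ENNReal.ofReal_ne_top] at h2
    rw [M.vol _ f1.lintegral_prod_right', ← h2] at h1
    simp only [div_eq_inv_mul (M.D _), ENNReal.ofReal_mul (by positivity : 0 ≤ (β ^ p * m)⁻¹),
      ENNReal.ofReal_mul (by positivity : 0 ≤ β ^ n / β ^ p), mul_assoc,
      lintegral_const_mul' _ _ ENNReal.ofReal_ne_top]
    rw [μY, Measure.restrict_smul, lintegral_smul_measure, h1, smul_eq_mul, ← mul_assoc,
      ← ENNReal.ofReal_mul (by positivity)]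
    congr 2
    field_simp

end Vale.Agent.P284Y.Y9
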