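import Vale.Agent.P284Y.Y9.Spec
import Vale.Agent.P284Y.Y.S41c0
import Vale.Agent.P284Y.Y.Cov
import Vale.Agent.P284Y.Gen.G1

/-!
# P284Y, row Y9: barriers which come from `E`, and slices
-/

set_option linter.all false

open scoped ContDiff Topology ComplexOrder ENNReal Matrix
open Filter Set Function Metric MeasureTheory

noncomputable section

namespace Vale.Agent.P284Y.Y9

open Vale.Agent.P272.K Vale.Agent.P284Z Vale.Agent.P284Z.J Vale.Agent.P284Y.Y Real

theorem stSB : StSB := by
  intro n Γ E _ _ _ _ _ _ C β m μ S ν hG hβ hm hν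
  have hP := hG.pg
  refine ⟨fun u hu hp h0 hb y => ?_, fun w Ω γ a => ?_⟩
  · have s1 : ∀ y, (QY C β m).SmAt (fun x => β * u x.1) y := fun y i v hv _ =>
      contDiffAt_const.mul ((hu _ i.1 i.2 _ hv rfl).comp v sm_tail.contDiffAt)
    have p1 : ∀ y, (QY C β m).PsdAt (fun x => β * u x.1) y := fun y (i : Γ × C.I) v hv _ => by
      have h1 : ContDiffAt ℝ 2 (fun z => 1 * C.ρ i.2 z + u (C.pt i.1 i.2 z)) (Fin.tail v) :=
        ((contDiffAt_const.mul (C.ρ_sm _ _ hv)).add (hu _ i.1 i.2 _ hv rfl)).of_le two_le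
      have h2 : ContDiffAt ℝ 2 (fun v : Cm (n + 1) =>
          1 * C.ρ i.2 (Fin.tail v) + u (C.pt i.1 i.2 (Fin.tail v))) v :=
        h1.comp v (sm_tail.contDiffAt.of_le two_le)
      have h3 := (sm_w 0).contDiffAt (x := v) |>.of_le two_le
      have e : (QY C β m).om (fun x => β * u x.1) i v = cHess (fun v : Cm (n + 1) =>
          β * (1 * C.ρ i.2 (Fin.tail v) + u (C.pt i.1 i.2 (Fin.tail v))) + m * ‖v 0 - 0‖ ^ 2) v := by
        unfold Pat.om
        congr 1
        funext v
        simp only [QY, sub_zero]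
        ring
      rw [e, C2.cHess_add (contDiffAt_const.mul h2) (contDiffAt_const.mul h3),
        C2.cHess_const_mul _ h2, C2.cHess_const_mul _ h3, hess_tail h1, hess_w, bk_smul, bk_smul,
        bk_add]
      simpa [Cov.om] using bk_psd hm.le ((hp i.1 i.2 _ hv).smul (a := (β : ℂ)) (by exact_mod_cast hβ.le))
    have s0 : ∀ y, (QY C β m).SmAt (fun _ => 0) y := fun _ _ _ _ _ => contDiffAt_const
    have p0 : ∀ y, (QY C β m).PsdAt (fun _ => 0) y := fun y i v hv _ => by
      simpa [Pat.om] using (S.ok.ρ_pos i v hv).posSemidef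
    have m0 : ∀ y, (QY C β m).MA (fun _ => 0) y = 1 := fun y => by
      change (QY C β m).MA 0 y = 1
      simpa [hG.zero] using hG.ma 0 hP.dens_zero y
    have e : (fun x : E × ℂ => β / 2 * u x.1 - (n + 3)) =
        fun x => ((1 - 1 / 2) * (fun _ => 0) x + 1 / 2 * (β * u x.1)) + -(n + 3) := by
      funext x
      ring
    have s2 : ∀ y, (QY C β m).SmAt (fun x => β / 2 * u x.1 - (n + 3)) y := fun y i v hv _ =>
      (contDiffAt_const.mul ((hu _ i.1 i.2 _ hv rfl).comp v sm_tail.contDiffAt)).sub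
        contDiffAt_const
    have n0 : (0 : ℝ) ≤ n := n.cast_nonneg
    have le : ∀ x : E × ℂ, β / 2 * u x.1 ≤ 0 := fun x =>
      mul_nonpos_of_nonneg_of_nonpos (half_pos hβ).le (h0 _)
    refine hG.vc ν univ (fun x => β / 2 * u x.1 - (n + 3)) hν isOpen_univ
      ((continuous_iff_continuousAt.2 fun y =>
        hP.cont _ y (s2 y)).upperSemicontinuous.upperSemicontinuousOn _) (by simp)
      (fun ε hε => ⟨∅, isCompact_empty, fun x _ => by linarith [le x]⟩) (fun x _ _ => ?_) y trivial
    obtain ⟨c1, c2, -⟩ := hP.ma_cvx _ _ (1 / 2) x (by norm_num) (by norm_num) (s0 x) (s1 x) (p0 x)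
      (p1 x)
    refine hP.tch _ _ _ x (s2 x) (e ▸ fun i z hz h => ?_) rfl (Eventually.of_forall fun _ => le_rfl)
      ?_
    · simpa only [Pat.om, ← add_assoc, GN.hess_add_const] using c1 i z hz h
    · rw [e, hP.ma_congr _ _ _ x (Eventually.of_forall fun _ => rfl)]
      refine le_trans ?_ c2
      have h1 : exp (β / 2 * u x.1) * (1 + ν x) ≤ 2 := by
        have := mul_le_mul_of_nonneg_left (hb x) (exp_pos (β / 2 * u x.1)).le
        rw [← exp_add, add_neg_cancel, exp_zero] at this
        linarith [exp_le_one_iff.2 (le x)]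
      have h2 : exp (-(n + 3 : ℝ)) ≤ (1 / 2) ^ (n + 3) := by
        rw [show -(n + 3 : ℝ) = (n + 3 : ℕ) * (-1 : ℝ) by push_cast; ring, exp_nat_mul]
        exact pow_le_pow_left₀ (exp_pos _).le exp_neg_one_lt_half.le _
      have h3 := mul_le_mul h2 h1 (mul_nonneg (exp_pos _).le (by linarith [hν.nonneg x]))
        (by positivity)
      rw [m0, mul_one, show (1 - 1 / 2 : ℝ) = 1 / 2 by norm_num]
      simp only [mul_zero, zero_add]
      rw [exp_add, ← mul_assoc (1 / 2), show 1 / 2 * β = β / 2 by ring, mul_comm (exp _), mul_assoc]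
      refine h3.trans ?_
      rw [show n + 3 = n + 1 + 2 from rfl, pow_add]
      nlinarith [pow_pos (show (0 : ℝ) < 1 / 2 by norm_num) (n + 1)]
  · have h := (Y2.psh_pt (S := S) hν (γ, a)).comp (Y2.lb_pt hν _) (S.ok.opn _) (C.isOpen_B 4 a)
      (g := fun z => Fin.cons w z) (fun z _ => (an_cons analyticAt_const
        analyticAt_id).differentiableAt.differentiableWithinAt) fun z hz => hz
    refine ((h.add (psh_const (-(m * ‖w‖ ^ 2)) _) (.of_cont fun z hz => ((Y2.sm_pt (S := S) hν
      (i := (γ, a)) (v := Fin.cons w z) hz).continuousAt.comp (cont_cons continuousAt_const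
        continuousAt_id)).continuousWithinAt) (.of_cont continuousOn_const)).mono
          (sep_subset _ _)).congr fun z _ => ?_
    simp [QY]
    ring

end Vale.Agent.P284Y.Y9
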