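import Vale.Agent.P284Y.Y9.Spec

/-!
# P284Y, row Y9: uniform constants of a tube
-/

open scoped ContDiff Topology ComplexOrder ENNReal Matrix
open Filter Set Function Metric MeasureTheory

noncomputable section

namespace Vale.Agent.P284Y.Y9

open Vale.Agent.P272.K Vale.Agent.P284Z Vale.Agent.P284Z.J Vale.Agent.P284Y.A Vale.Agent.P284Y.Lib

namespace TK

variable {n p : ℕ}

theorem nsq_le (x : Cm p) : nsq x ≤ p * ‖x‖ ^ 2 := by
  have := Finset.sum_le_card_nsmul Finset.univ (fun b => ‖x b‖ ^ 2) (‖x‖ ^ 2) fun b _ =>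
    pow_le_pow_left₀ (norm_nonneg _) (norm_le_pi_norm x b) 2
  simpa [nsq] using this

theorem nsq_smul (c : ℂ) (x : Cm p) : nsq (c • x) = ‖c‖ ^ 2 * nsq x := by
  simp [nsq, Finset.mul_sum, mul_pow]

theorem nsq_pos {x : Cm p} (h : x ≠ 0) : 0 < nsq x :=
  lt_of_lt_of_le (pow_pos (norm_pos_iff.2 h) 2) (sq_le_nsq x)

theorem adj_ne {s : Cm n → Cm p} {z : Cm n} (h : Surjective (fderiv ℂ s z)) {w : Cm p}
    (hw : w ≠ 0) : (jm s z)ᴴ *ᵥ w ≠ 0 := fun h0 => by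
  obtain ⟨u, hu⟩ := h w
  rw [← jm_mulVec] at hu
  refine hw (dotProduct_star_self_eq_zero.1 ?_)
  have h1 : star w ᵥ* jm s z = 0 := by
    have := congrArg star h0
    rwa [Matrix.star_mulVec, Matrix.conjTranspose_conjTranspose, star_zero] at this
  calc star w ⬝ᵥ w = star w ⬝ᵥ (jm s z *ᵥ u) := by rw [hu]
    _ = 0 := by rw [Matrix.dotProduct_mulVec, h1, zero_dotProduct]

/-- the bounds with the constant `t⁻¹` -/
def Good (s : Cm n → Cm p) (P : Cm n → Prop) (t : ℝ) (x : Cm n) : Prop :=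
  (∀ w, t * nsq w ≤ nsq ((jm s x)ᴴ *ᵥ w) ∧ t * nsq ((jm s x)ᴴ *ᵥ w) ≤ nsq w) ∧
  ∀ v, nsq v ≤ t → P (x + v) ∧ t * nsq (s (x + v) - s x) ≤ nsq v ∧
    t * nsq (s (x + v) - s x - jm s x *ᵥ v) ≤ nsq v ^ 2

theorem loc₁ {s : Cm n → Cm p} {z : Cm n} (hs : AnalyticAt ℂ s z)
    (h : Surjective (fderiv ℂ s z)) : ∀ᶠ e : ℝ × Cm n in 𝓝 (0, z), ∀ w,
      e.1 * nsq w ≤ nsq ((jm s e.2)ᴴ *ᵥ w) ∧ e.1 * nsq ((jm s e.2)ᴴ *ᵥ w) ≤ nsq w := by
  have hj : ContinuousAt (jm s) z := continuousAt_pi.2 fun b => continuousAt_pi.2 fun j =>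
    (continuous_apply b).continuousAt.comp (hs.fderiv.continuousAt.clm_apply continuousAt_const)
  have key := (isCompact_sphere (0 : Cm p) 1).eventually_forall_of_forall_eventually
    (x₀ := ((0 : ℝ), z)) (P := fun e w => e.1 * nsq w < nsq ((jm s e.2)ᴴ *ᵥ w) ∧
      e.1 * nsq ((jm s e.2)ᴴ *ᵥ w) < nsq w) fun w hw => by
    have hw0 : w ≠ 0 := ne_zero_of_mem_unit_sphere ⟨w, hw⟩
    have c1 : ContinuousAt (fun q : (ℝ × Cm n) × Cm p => nsq ((jm s q.1.2)ᴴ *ᵥ q.2))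
        ((0, z), w) := by
      have c0 : Continuous fun q : Matrix (Fin p) (Fin n) ℂ × Cm p => nsq (q.1ᴴ *ᵥ q.2) :=
        cont_nsq.comp (continuous_fst.matrix_conjTranspose.matrix_mulVec continuous_snd)
      exact c0.continuousAt.comp (f := fun q : (ℝ × Cm n) × Cm p => (jm s q.1.2, q.2))
        ((hj.comp_of_eq continuous_fst.snd.continuousAt rfl).prodMk continuousAt_snd)
    have c2 : ContinuousAt (fun q : (ℝ × Cm n) × Cm p => nsq q.2) ((0, z), w) :=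
      (cont_nsq.comp continuous_snd).continuousAt
    have c3 : ContinuousAt (fun q : (ℝ × Cm n) × Cm p => q.1.1) ((0, z), w) :=
      continuous_fst.fst.continuousAt
    exact ((c3.mul c2).eventually_lt c1 (by simpa using nsq_pos (adj_ne h hw0))).and
      ((c3.mul c1).eventually_lt c2 (by simpa using nsq_pos hw0))
  refine key.mono fun e he w => ?_
  by_cases hw : w = 0
  · simp [hw, nsq]
  have hn : (‖w‖ : ℂ) ≠ 0 := by simpa using hw
  obtain ⟨h1, h2⟩ := he ((‖w‖ : ℂ)⁻¹ • w) (by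
    simp [norm_smul, inv_mul_cancel₀ (norm_ne_zero_iff.2 hw)])
  rw [Matrix.mulVec_smul, nsq_smul, nsq_smul] at h1 h2
  have h3 : 0 < ‖(‖w‖ : ℂ)⁻¹‖ ^ 2 := pow_pos (norm_pos_iff.2 (inv_ne_zero hn)) 2
  constructor <;> refine le_of_mul_le_mul_left ?_ h3 <;> linarith

theorem loc₂ {s : Cm n → Cm p} {z : Cm n} {P : Cm n → Prop} (hs : AnalyticAt ℂ s z)
    (hP : ∀ᶠ w in 𝓝 z, P w) : ∀ᶠ e : ℝ × Cm n in 𝓝 (0, z), ∀ v, nsq v ≤ e.1 → P (e.2 + v) ∧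
      e.1 * nsq (s (e.2 + v) - s e.2) ≤ nsq v ∧
      e.1 * nsq (s (e.2 + v) - s e.2 - jm s e.2 *ᵥ v) ≤ nsq v ^ 2 := by
  obtain ⟨L, U, hU, hL⟩ := (hs.contDiffAt (n := 1)).exists_lipschitzOnWith
  obtain ⟨L', U', hU', hL'⟩ := (hs.fderiv.contDiffAt (n := 1)).exists_lipschitzOnWith
  obtain ⟨ε, hε, hb⟩ := Metric.eventually_nhds_iff_ball.1
    ((hP.and hs.eventually_analyticAt).and (inter_mem hU hU'))
  have c : ∀ M : ℝ, ∀ᶠ t in 𝓝 (0 : ℝ), t * M < 1 := fun M =>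
    (continuous_id.mul continuous_const).continuousAt.eventually_lt continuousAt_const (by simp)
  rw [nhds_prod_eq]
  filter_upwards [prod_mem_prod (((c (p * L ^ 2)).and (c (p * L' ^ 2))).and
    (Iio_mem_nhds (pow_pos (half_pos hε) 2))) (ball_mem_nhds z (half_pos hε))]
  rintro ⟨t, x⟩ ⟨⟨⟨h1, h2⟩, h3⟩, hx⟩ v hv
  have hv1 := sq_le_nsq v
  have hv0 := J.nsq_nonneg v
  have ht : 0 ≤ t := hv0.trans hv
  have hv2 : ‖v‖ < ε / 2 := lt_of_pow_lt_pow_left₀ 2 (half_pos hε).le (hv1.trans_lt (hv.trans_lt h3))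
  have sub : closedBall x ‖v‖ ⊆ ball z ε := closedBall_subset_ball' (by
    have := mem_ball.1 hx
    simp only at this
    linarith)
  have m0 : x ∈ closedBall x ‖v‖ := mem_closedBall_self (norm_nonneg v)
  have m1 : x + v ∈ closedBall x ‖v‖ := by simp
  have a1 : ‖s (x + v) - s x‖ ≤ L * ‖v‖ := by
    simpa using hL.norm_sub_le (hb _ (sub m1)).2.1 (hb _ (sub m0)).2.1
  have a2 : ‖s (x + v) - s x - jm s x *ᵥ v‖ ≤ L' * ‖v‖ * ‖v‖ := by
    have := (convex_closedBall x ‖v‖).norm_image_sub_le_of_norm_fderiv_le' (𝕜 := ℂ) (f := s)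
      (φ := fderiv ℂ s x) (C := L' * ‖v‖) (fun y hy => (hb y (sub hy)).1.2.differentiableAt)
      (fun y hy => (hL'.norm_sub_le (hb _ (sub hy)).2.2 (hb _ (sub m0)).2.2).trans
        (mul_le_mul_of_nonneg_left (mem_closedBall_iff_norm.1 hy) L'.coe_nonneg)) m0 m1
    rwa [add_sub_cancel_left, ← jm_mulVec] at this
  refine ⟨(hb _ (sub m1)).1.1, ?_, ?_⟩
  · calc t * nsq (s (x + v) - s x) ≤ t * (p * (L * ‖v‖) ^ 2) := by
          gcongr
          exact (nsq_le _).trans (by gcongr)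
      _ = t * (p * L ^ 2) * ‖v‖ ^ 2 := by ring
      _ ≤ 1 * nsq v := by gcongr
      _ = _ := one_mul _
  · calc t * nsq (s (x + v) - s x - jm s x *ᵥ v) ≤ t * (p * (L' * ‖v‖ * ‖v‖) ^ 2) := by
          gcongr
          exact (nsq_le _).trans (by gcongr)
      _ = t * (p * L' ^ 2) * (‖v‖ ^ 2) ^ 2 := by ring
      _ ≤ 1 * nsq v ^ 2 := by gcongr
      _ = _ := one_mul _

end TK

open TK in
theorem stTK : StTK := by
  intro n Γ E _ _ _ _ C F T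
  have hK := T.cpt (T.r / 2) (half_lt_self T.r_pos)
  have h34 : (3 : ℝ) < 4 := by norm_num
  have hfin := C.proper _ (hK.union (isCompact_iUnion fun a =>
    C.isCompact_image_pt 1 (C.isCompact_cB 3 a) (C.cB_sub_B h34 a)))
  have one : ∀ γ a, ∀ᶠ t in 𝓝 (0 : ℝ),
      ∀ x ∈ C.cB 3 a ∩ C.pt γ a ⁻¹' {y ∈ T.U | ‖T.sh y - T.t₁‖ ≤ T.r / 2},
        Good (fun z => T.sh (C.pt γ a z)) (fun z => z ∈ C.B 4 a ∧ C.pt γ a z ∈ T.U) t x := by
    intro γ a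
    refine ((C.isCompact_cB 3 a).of_isClosed_subset
      (((C.continuousOn_pt γ a).mono (C.cB_sub_B h34 a)).preimage_isClosed_of_isClosed
        (C.isCompact_cB 3 a).isClosed hK.isClosed)
      inter_subset_left).eventually_forall_of_forall_eventually fun z hz => ?_
    have hz4 := C.cB_sub_B h34 a hz.1
    have hs := T.hol γ a z hz4 hz.2.1
    exact (loc₁ hs (T.surj γ a z hz4 hz.2.1)).and
      (loc₂ hs ((C.isOpen_preimage_pt γ a T.opn).mem_nhds ⟨hz4, hz.2.1⟩))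
  have h := (eventually_all_finite hfin).2 fun γ _ => eventually_all.2 fun a => one γ a
  obtain ⟨t, h1, h0, h2⟩ :=
    ((h.filter_mono nhdsWithin_le_nhds).and (Ioc_mem_nhdsGT (zero_lt_one' ℝ))).exists
  refine ⟨t⁻¹, (one_le_inv₀ h0).2 h2, fun γ a x hx hU hr => ?_⟩
  obtain ⟨g1, g2⟩ := h1 γ ⟨C.pt 1 a x, Or.inr (mem_iUnion.2 ⟨a, x, C.B_sub_cB 3 a hx, rfl⟩), by
    rw [← C.pt_eq]
    exact Or.inl ⟨hU, hr⟩⟩ a x ⟨C.B_sub_cB 3 a hx, hU, hr⟩
  rw [inv_inv]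
  refine ⟨fun w => ⟨(g1 w).1, (le_inv_mul_iff₀ h0).2 (g1 w).2⟩, fun v hv => ?_⟩
  obtain ⟨g3, g4, g5⟩ := g2 v hv
  exact ⟨g3.1, g3.2, (le_inv_mul_iff₀ h0).2 g4, (le_inv_mul_iff₀ h0).2 g5⟩

end Vale.Agent.P284Y.Y9
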