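import Vale.Agent.P284Y.Y9.Bas

/-!
# P284Y, row Y9: the upper bound in the charts
-/

open scoped ContDiff Topology ComplexOrder ENNReal Matrix
open Filter Set Function Metric MeasureTheory

noncomputable section

namespace Vale.Agent.P284Y.Y9

open Vale.Agent.P272.K Vale.Agent.P284Z Vale.Agent.P284Z.J Vale.Agent.P284Y.A Vale.Agent.P284Y.Lib

namespace UC

theorem exp_half (s : ℝ) : Real.exp (-(s / 2)) ^ 2 = Real.exp (-s) := by
  rw [← Real.exp_nat_mul]
  congr 1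
  push_cast
  ring

/-- the arithmetic -/
theorem arith (P : Par) (n : ℕ) {s : ℝ} (hs : P.lo ≤ s) :
    1 + P.t * s + (1 + 1) * (P.β ^ n / P.β ^ n * 1 * mR (n + 1) / (n + 2)) * (P.t * s) ^ (n + 2) /
      (P.sw s * ∏ _ : Fin n, s) ≤ (2 + mR (n + 1)) * P.t ^ (n + 2) * P.q * s := by
  have s1 : 1 ≤ s := P.one_le_Z.trans (P.Z_le_lo.trans hs)
  have s0 : 0 < s := one_pos.trans_le s1
  have q0 := P.q_pos
  have t0 := P.t_pos
  have t1 := Par'.one_le_t P
  have m0 := mR_pos (n + 1)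
  have h1 : P.t * s ≤ P.t ^ (n + 2) * P.q * s := by
    refine mul_le_mul_of_nonneg_right ?_ s0.le
    have h2 : 1 ≤ P.t ^ n * P.B := one_le_mul_of_one_le_of_one_le (one_le_pow₀ t1) P.one_le_B
    refine (le_mul_of_one_le_right t0.le h2).trans_eq ?_
    rw [Par.B]
    ring
  have h2 : 1 ≤ P.t * s := one_le_mul_of_one_le_of_one_le t1 s1
  have h3 : (1 + 1) * (P.β ^ n / P.β ^ n * 1 * mR (n + 1) / (n + 2)) * (P.t * s) ^ (n + 2) /
      (P.sw s * ∏ _ : Fin n, s) = 2 / (n + 2) * (mR (n + 1) * (P.t ^ (n + 2) * P.q * s)) := by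
    rw [div_self (pow_pos P.β_pos n).ne', Finset.prod_const, Finset.card_univ, Fintype.card_fin,
      Par.sw]
    field_simp
    ring
  have h4 : (2 : ℝ) / (n + 2) ≤ 1 := (div_le_one (by positivity)).2 (by linarith [n.cast_nonneg (α := ℝ)])
  have h5 := mul_le_of_le_one_left (by positivity : 0 ≤ mR (n + 1) * (P.t ^ (n + 2) * P.q * s)) h4
  rw [h3]
  linarith

end UC

theorem stUC_of (hC : StModC) (hL : StModL) (hU : StUM) : StUC := by
  intro n Γ E _ _ _ _ _ _ _ _ C μ hμ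
  choose M h1 h2 h3 h4 using fun a => hC n Γ E C μ a hμ
  obtain ⟨r, hr, h5⟩ := C.exists_r
  obtain ⟨Z₀, h⟩ := hU n (∑ a, (M a).c) (r / 2) 1 (half_pos hr) one_pos
  refine ⟨2 + mR (n + 1), fun K => ev_nat (Z₀ := Z₀) fun P hP S hG hR s hs => ?_⟩
  have s0 : 0 < s := P.lo_pos.trans_le hs.1
  have w0 : 0 < P.sw s := s0.trans_le (P.le_sw s0.le)
  have w1 : P.sw s ≤ 4 * P.Z * P.sw s := le_mul_of_one_le_left w0.le (by linarith [P.one_le_Z])
  have q0 := P.q_pos
  have t0 := P.t_pos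
  have m0 := mR_pos (n + 1)
  refine Real.iSup_le (fun ⟨⟨a, x⟩, hx⟩ => ?_) (by positivity)
  obtain ⟨M', e1, e2, e3, e4, e5⟩ := hL n n Γ E C μ (M a) x 1 (by simp)
  have hb : (Pb.mk 1 a x 1 s 0 (P.sw s) : Pb C).Ok P :=
    ⟨C.B_mono (by norm_num) a hx, fun u => by
      rw [Matrix.one_mulVec]
      have u0 : 0 ≤ nsq u := Finset.sum_nonneg fun _ _ => sq_nonneg _
      exact ⟨mul_le_of_le_one_left u0 (Real.exp_le_one_iff.2 (by linarith)),
        le_mul_of_one_le_left u0 (Real.one_le_exp (by linarith))⟩,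
      hs.1, hs.2, by simp [(Real.exp_pos _).le], half_le_self w0.le, w1⟩
  refine (h P hP n Γ E C μ M' S _ 1 s (P.sw s) 0 (fun _ => s) hμ hG ?_ ?_ zero_le_one ?_
    (hR.dens _ hb).1 (hR.dens _ hb).2.le hs (half_le_self w0.le) w1
    (fun _ => ⟨half_le_self s0.le, by linarith⟩) fun y hy => ?_).trans (UC.arith P n hs.1)
  · exact e4 ▸ Finset.single_le_sum (f := fun a => (M a).c)
      (fun a _ => zero_le_one.trans (M a).one_le) (Finset.mem_univ a)
  · intro v hv
    rw [e3, h3, mem_ofPred_eq, Matrix.conjTranspose_one, Matrix.one_mulVec]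
    refine C.closedBall_sub (C.B_sub_cB _ a hx) (t := r / 2) (by linarith [h5 a]) ?_
    simpa using hv
  · intro v hv
    rw [e3] at hv
    rw [e5]
    exact h4 a _ hv
  · obtain ⟨⟨u, u1, u2⟩, u3⟩ := hR.supp _ hb y hy
    have u4 := hR.mem _ hb u (u1.trans (by simpa using (half_pos s0).le))
    refine ⟨e1 ▸ h1 a ▸ ⟨_, u4, u2.symm⟩, ?_, fun i => ?_⟩
    · rw [← UC.exp_half]
      exact pow_le_pow_left₀ (norm_nonneg _) (by simpa using u3) 2
    · refine (sq_le_nsq' _ i).trans ?_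
      rw [e2, h2]
      simp only [u2, Matrix.one_mulVec]
      rw [C.co_pt (C.B_mono (by norm_num) a u4), Pb.z, add_sub_cancel_left, Matrix.one_mulVec,
        nsq_smul', UC.exp_half]
      exact mul_le_of_le_one_right (Real.exp_pos _).le (by simpa using u1)

end Vale.Agent.P284Y.Y9
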