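import Vale.Agent.P284Y.Y9.Bas

/-!
# P284Y, row Y9: the upper bound for a model
-/

open scoped ContDiff Topology ComplexOrder ENNReal Matrix
open Filter Set Function Metric MeasureTheory

noncomputable section

namespace Vale.Agent.P284Y.Y9

open Vale.Agent.P272.K Vale.Agent.P284Z Vale.Agent.P284Z.J Vale.Agent.P284Y.A Vale.Agent.P284Y.Lib

theorem exists_eta (k : ℕ) {e : ℝ} (he : 0 < e) : ∃ η > (0 : ℝ), η ≤ 1 ∧ (1 + η) ^ k ≤ 1 + e := by
  have h := Real.log_pos (lt_add_of_pos_right 1 he)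
  have h0 : 0 < min 1 (Real.log (1 + e) / (k + 1)) := by positivity
  refine ⟨_, h0, min_le_left _ _, (pow_le_pow_left₀ (by positivity)
    ((add_comm _ _).trans_le (Real.add_one_le_exp _)) k).trans ?_⟩
  rw [← Real.exp_nat_mul, ← Real.le_log_iff_exp_le (by positivity)]
  refine (mul_le_mul_of_nonneg_left (min_le_right _ _) k.cast_nonneg).trans ?_
  rw [← mul_div_assoc, div_le_iff₀ (by positivity)]
  nlinarith

theorem stUM_of (hP : StPM) (hU : StUp) : StUM := by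
  intro p c r e r0 e0
  obtain ⟨η, η0, η1, η2⟩ := exists_eta (p + 1 + (p + 2)) e0
  obtain ⟨ρ, ρ0, ρ1, ρ2⟩ : ∃ ρ, 0 < ρ ∧ ρ ≤ 1 ∧ ρ ≤ r :=
    ⟨min 1 r, by positivity, min_le_left _ _, min_le_right _ _⟩
  set l := Real.log (4 / ρ ^ 2) with hl
  have l0 : 0 ≤ l := Real.log_nonneg ((one_le_div (by positivity)).2 (by nlinarith))
  have l1 : 0 ≤ Real.log (((p + 1 : ℕ) : ℝ) + 1) := Real.log_nonneg (by simp; positivity)
  set A := c * (p + 1 : ℕ) / η with hA
  refine ⟨⌈(A + 4 * l + Real.log ((p + 1 : ℕ) + 1) + 4) / η⌉₊, fun P hZ n Γ E _ _ _ _ _ _ _ C μ M S ν V₁ s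
    s' τ σ hμ hG hc hO V0 hV hν h1 hs s1 s2 hσ supp => ?_⟩
  obtain ⟨X, x1, x2, x3, x4, x5, x6⟩ := hP n p Γ E C μ M P.β P.m τ hμ P.β_pos P.β_le_m hG.pg
  have zs := P.Z_le_lo.trans hs.1
  have s0 := P.Z_pos.trans_le zs
  have z1 := (div_le_iff₀' η0).1 ((Nat.ceil_le.1 hZ).trans zs)
  have t1 := Par'.one_le_t P
  have β0 := P.β_pos
  have A0 : 0 ≤ A := by have := M.one_le.trans hc; positivity
  have st : s ≤ P.t := hs.2.trans ((Par'.hi_le_B P).trans P.B_le_t)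
  have b1 : ∀ i : Fin (p + 1), s / 2 ≤ (Fin.cons s' σ : Fin (p + 1) → ℝ) i ∧
      (Fin.cons s' σ : Fin (p + 1) → ℝ) i ≤ 2 * P.t := by
    refine Fin.cases ⟨?_, ?_⟩ fun i => ⟨(hσ i).1, (hσ i).2.trans (by linarith)⟩
    · exact le_trans (by linarith [P.le_sw s0.le]) s1
    · refine s2.trans (le_trans ?_ (mul_le_mul_of_nonneg_left ((P.sw_le_B hs.2).trans P.B_le_t)
        zero_le_two))
      rw [← mul_assoc]
      refine mul_le_mul_of_nonneg_right ?_ (s0.le.trans (P.le_sw s0.le))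
      nlinarith [P.pow_le (show 2 ≤ 8 by norm_num), P.Z_ge']
  have ηs : η * s ≤ s := mul_le_of_le_one_left s0.le η1
  have ts := mul_pos P.t_pos s0
  have h := hU (n + 1) (p + 1) (E × ℂ) _ _ S X ν ρ η (P.m + P.β * A + 1 + 4 * P.t * l) (P.t * s)
    (η * (P.t * s)) (P.β ^ n / P.β ^ p * V₁) (Fin.cons s' σ) hG hν h1 ρ0 ρ1
    (fun v hv => x3 ▸ hO (mem_closedBall_zero_iff.2 ((pi_norm_le_iff_of_nonneg r0.le).2 fun i =>
      (norm_le_pi_norm v i.succ).trans ((mem_closedBall_zero_iff.1 hv).trans ρ2))))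
    (by positivity) (fun v hv => x4 ▸ mul_le_mul_of_nonneg_left (hV _ (x3 ▸ hv :)) (by positivity))
    η0 ts.le (fun i => ⟨(half_pos s0).trans_le (b1 i).1, ?_⟩) (fun y hy => ?_) ?_ (fun i => ?_)
    (fun i => ?_) (by positivity)
  · refine h.trans (add_le_add_right ?_ _)
    have s3 : 0 < s' * ∏ i, σ i := mul_pos ((half_pos s0).trans_le (b1 0).1)
      (Finset.prod_pos fun i _ => (half_pos s0).trans_le (hσ i).1)
    have m0 := mR_pos (p + 1)
    rw [Fin.prod_univ_succ, Fin.cons_zero]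
    simp only [Fin.cons_succ]
    refine le_of_eq_of_le (b := (1 + η) ^ (p + 1 + (p + 2)) * (P.β ^ n / P.β ^ p * V₁ * mR (p + 1) /
      (p + 2)) * (P.t * s) ^ (p + 2) / (s' * ∏ i, σ i)) ?_ (by gcongr)
    rw [← one_add_mul, mul_pow (1 + η), pow_add (1 + η) (p + 1)]
    push_cast
    field_simp
    ring
  · rw [← Real.lt_log_iff_exp_lt (by positivity)]
    rw [Real.log_div four_ne_zero (by positivity)] at hl
    linarith [(b1 i).1, Real.log_pos (show (1 : ℝ) < 4 by norm_num)]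
  · obtain ⟨u1, u2, u3⟩ := supp y hy
    exact ⟨x1 ▸ ⟨u1, trivial⟩, x2 ▸ Fin.cases u2 u3⟩
  · have h2 : M.c * (p + 1 : ℕ) ≤ η * A := by
      rw [hA, mul_div_cancel₀ _ η0.ne']
      gcongr
    have h3 := mul_le_mul_of_nonneg_left h2 β0.le
    have h4 : 0 ≤ η * (4 * P.t * l) := by positivity
    rw [x5, x6]
    linarith
  · have h2 : (P.t * s + η * (P.t * s)) / (Fin.cons s' σ : Fin (p + 1) → ℝ) i ≤ 4 * P.t := by
      rw [div_le_iff₀ ((half_pos s0).trans_le (b1 i).1)]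
      nlinarith [mul_le_mul_of_nonneg_left (b1 i).1 P.t_pos.le, mul_le_mul_of_nonneg_left ηs P.t_pos.le]
    have h3 := mul_le_mul_of_nonneg_right h2 l0
    rw [x6]
    linarith [mul_nonneg β0.le A0]
  · have h2 := mul_le_mul_of_nonneg_left z1 P.t_pos.le
    have h3 := mul_le_mul_of_nonneg_right (P.β_le_B.trans P.B_le_t) A0
    have h4 := le_mul_of_one_le_left l1 t1
    linarith [(b1 i).2, P.m_le_t]

end Vale.Agent.P284Y.Y9
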