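import Vale.Agent.P284Y.Y9.Bas
import Vale.Agent.P284Y.Y.S41c

/-!
# P284Y, row Y9: the upper bound in a tube
-/

open scoped ContDiff Topology ComplexOrder ENNReal Matrix
open Filter Set Function Metric MeasureTheory Real

noncomputable section

namespace Vale.Agent.P284Y.Y9

open Vale.Agent.P272.K Vale.Agent.P284Z Vale.Agent.P284Z.J Vale.Agent.P284Y.A Vale.Agent.P284Y.Lib

theorem inv_le_exp {y : ℝ} (h : |y| ≤ 1 / 2) : 1 ≤ (1 - y) * exp (y + 2 * y ^ 2) := by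
  have h1 := abs_le.1 h
  have h2 := mul_le_mul_of_nonneg_left (add_one_le_exp (y + 2 * y ^ 2)) (by linarith : 0 ≤ 1 - y)
  nlinarith [mul_nonneg (sq_nonneg y) (by linarith : 0 ≤ 1 - 2 * y)]

theorem half_sq (s : ℝ) : exp (-(s / 2)) ^ 2 = exp (-s) := by
  rw [← exp_nat_mul]
  congr 1
  push_cast
  ring

theorem coord {n p : ℕ} {W : Mx p} {J : Matrix (Fin p) (Fin n) ℂ} {ξ : Mx n} {u v : Cm n}
    {f : Cm p} {i : Fin p} {A σ s ρ : ℝ} (A0 : 0 < A) (w2 : ∀ v, nsq (W *ᵥ v) = nsq v)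
    (w3 : exp (-(2 * ρ)) * A⁻¹ ≤ σ) (w5 : ‖(W *ᵥ (J *ᵥ (ξ *ᵥ u))) i‖ ^ 2 ≤ σ * nsq u)
    (u1 : nsq u ≤ 1) (hv : v = ((exp (-(s / 2)) : ℝ) : ℂ) • ξ *ᵥ u) (v1 : nsq v ≤ exp (-s + 2 * ρ))
    (b4 : nsq (f - J *ᵥ v) ≤ A * nsq v ^ 2) (ρ1 : ρ ≤ s / 8) (h5 : exp (-(s / 4)) * A ^ 2 ≤ 1) :
    ‖(W *ᵥ f) i‖ ^ 2 ≤ exp (-(s - (log σ + log 4))) := by
  have σ0 : 0 < σ := lt_of_lt_of_le (by positivity) w3
  rw [neg_sub, sub_eq_add_neg _ s, exp_add, exp_add, exp_log σ0, exp_log (by norm_num)]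
  have c1 : ‖(W *ᵥ (J *ᵥ v)) i‖ ^ 2 ≤ σ * exp (-s) := by
    rw [hv, Matrix.mulVec_smul, Matrix.mulVec_smul, Pi.smul_apply, smul_eq_mul, Y2.norm_e,
      mul_pow, half_sq, mul_comm]
    exact mul_le_mul_of_nonneg_right (w5.trans (mul_le_of_le_one_right σ0.le u1)) (exp_pos _).le
  have c2 : ‖(W *ᵥ (f - J *ᵥ v)) i‖ ^ 2 ≤ σ * exp (-s) := by
    refine ((sq_le_nsq' _ i).trans_eq (w2 _)).trans (b4.trans (le_trans ?_
      (mul_le_mul_of_nonneg_right w3 (exp_pos _).le)))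
    rw [mul_right_comm, ← div_eq_mul_inv, le_div_iff₀ A0, ← exp_add]
    have h4 : nsq v ^ 2 ≤ exp (-(s / 4)) * exp (-(2 * ρ) + -s) := by
      refine (pow_le_pow_left₀ (G44.nsq_nn v) v1 2).trans ?_
      rw [← exp_nat_mul, ← exp_add]
      exact exp_le_exp.2 (by push_cast; linarith)
    linarith [mul_le_mul_of_nonneg_right h4 (sq_nonneg A),
      mul_le_mul_of_nonneg_right h5 (exp_pos (-(2 * ρ) + -s)).le]
  have c3 : (W *ᵥ f) i = (W *ᵥ (J *ᵥ v)) i + (W *ᵥ (f - J *ᵥ v)) i := by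
    rw [← Pi.add_apply, ← Matrix.mulVec_add, add_sub_cancel]
  rw [c3]
  linarith [pow_le_pow_left₀ (norm_nonneg _)
    (norm_add_le ((W *ᵥ (J *ᵥ v)) i) ((W *ᵥ (f - J *ᵥ v)) i)) 2,
    sq_nonneg (‖(W *ᵥ (J *ᵥ v)) i‖ - ‖(W *ᵥ (f - J *ᵥ v)) i‖)]

theorem prod_ge {n p : ℕ} (pn : (p : ℝ) ≤ n) {l : Fin p → ℝ} {s ρ c ε : ℝ} (s0 : 0 < s)
    (ε0 : 0 < ε) (c2 : 2 ≤ c) (ρ1 : ρ ≤ s / 8) (z2 : 8 * c ≤ s)
    (z3 : 4 * n * c / log (1 + ε) ≤ s) (l4 : log 4 ≤ 2) (hσ : ∀ i, |l i + log 4| ≤ 2 * ρ + c) :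
    s ^ p ≤ (∏ i, (s - (l i + log 4))) * (exp ((∑ i, l i) / s + 8 * n * (ρ / s) ^ 2) * (1 + ε)) := by
  have p0 : ∀ i, 0 < s - (l i + log 4) := fun i => by linarith [(abs_le.1 (hσ i)).2]
  have hσ' : ∀ i, |(l i + log 4) / s| ≤ 1 / 2 := fun i => by
    rw [abs_div, abs_of_pos s0, div_le_iff₀ s0]
    linarith [hσ i]
  have lp := log_pos (lt_add_of_pos_right 1 ε0)
  have k0 : ∑ i, ((l i + log 4) / s + 2 * ((l i + log 4) / s) ^ 2) ≤
      (∑ i, l i) / s + 8 * n * (ρ / s) ^ 2 + log (1 + ε) := by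
    have k2 : ∀ i, (l i + log 4) / s + 2 * ((l i + log 4) / s) ^ 2 ≤
        l i / s + (8 * (ρ / s) ^ 2 + 4 * c / s) := fun i => by
      have k3 : (l i + log 4) ^ 2 ≤ 4 * ρ ^ 2 + c * s :=
        (sq_le_sq' (abs_le.1 (hσ i)).1 (abs_le.1 (hσ i)).2).trans (by nlinarith)
      have k4 := div_le_div_of_nonneg_right k3 (sq_nonneg s)
      have k5 := div_le_div_of_nonneg_right (show log 4 ≤ 2 * c by linarith) s0.le
      rw [add_div, sq s, mul_div_mul_right _ _ s0.ne', ← sq, ← div_pow, mul_div_assoc,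
        ← div_pow] at k4
      rw [add_div (l i)] at k4 ⊢
      rw [mul_div_assoc] at k5 ⊢
      linarith
    refine (Finset.sum_le_sum fun i _ => k2 i).trans ?_
    rw [Finset.sum_add_distrib, ← Finset.sum_div, Finset.sum_const, Finset.card_univ,
      Fintype.card_fin, nsmul_eq_mul, add_assoc]
    refine add_le_add le_rfl ((mul_le_mul_of_nonneg_right pn (by positivity)).trans ?_)
    have k6 : 4 * n * c / s ≤ log (1 + ε) := by rwa [div_le_comm₀ s0 lp]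
    rw [mul_add, ← mul_div_assoc]
    linarith [show (n : ℝ) * (4 * c) / s = 4 * n * c / s by ring]
  rw [← exp_log (show 0 < 1 + ε by linarith), ← exp_add]
  refine le_trans ?_ (mul_le_mul_of_nonneg_left (exp_le_exp.2 k0)
    (Finset.prod_nonneg fun i _ => (p0 i).le))
  rw [exp_sum, ← Finset.prod_mul_distrib, ← Fin.prod_const]
  refine Finset.prod_le_prod (fun _ _ => s0.le) fun i _ => ?_
  have k7 := mul_le_mul_of_nonneg_left (inv_le_exp (hσ' i)) s0.le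
  rwa [mul_one, ← mul_assoc, mul_sub, mul_one, mul_div_cancel₀ _ s0.ne'] at k7

theorem fin_alg (P : Par) {d p : ℕ} {V s s' Q x ε e : ℝ} (V0 : 0 ≤ V) (h : 0 < s') (pp : 0 < Q)
    (ε0 : 0 < ε) (ε3 : (1 + ε) ^ 2 ≤ 1 + e) (k1 : s ^ p ≤ Q * (exp x * (1 + ε))) :
    (1 + ε) * (P.β ^ d * V * mR (p + 1) / (p + 2)) * (P.t * s) ^ (p + 2) / (s' * Q) ≤
      (1 + e) * (md P d p (V * mR (p + 1) / (p + 2)) * s ^ 2 / s') * exp x := by
  have m0 := mR_pos (p + 1)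
  have b0 := P.β_pos
  have t0 := P.t_pos
  rw [div_le_iff₀ (mul_pos h pp)]
  set X := md P d p (V * mR (p + 1) / (p + 2)) * s ^ 2 with hX
  have X0 : 0 ≤ X := by rw [hX, md]; positivity
  calc _ = (1 + ε) * X * s ^ p := by rw [hX, md]; ring
    _ ≤ (1 + ε) * X * _ := mul_le_mul_of_nonneg_left k1 (by positivity)
    _ = (1 + ε) ^ 2 * (X * exp x * Q) := by ring
    _ ≤ (1 + e) * _ := mul_le_mul_of_nonneg_right ε3 (by positivity)
    _ = _ := by field_simp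

theorem ball_W {p : ℕ} {W : Mx p} {r : ℝ} (r0 : 0 < r) (w1 : Wᴴ * W = 1)
    (w2 : ∀ v, nsq (W *ᵥ v) = nsq v) {v : Cm p} (hv : ‖v‖ ≤ r / (8 * (p + 1))) :
    ‖Wᴴ *ᵥ v‖ ≤ r / 8 := by
  have h4 : nsq (Wᴴ *ᵥ v) = nsq v := by
    rw [← w2, Matrix.mulVec_mulVec, mul_eq_one_comm.1 w1, Matrix.one_mulVec]
  refine le_of_sq_le_sq ((G44.nsq_lo _).trans (h4.trans_le ((G44.nsq_up _).trans
    ((mul_le_mul_of_nonneg_left (pow_le_pow_left₀ (norm_nonneg _) hv 2) p.cast_nonneg).trans ?_))))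
    (by positivity)
  rw [← div_div, div_pow, ← mul_div_assoc, div_le_iff₀ (by positivity), mul_comm]
  gcongr
  nlinarith [p.cast_nonneg (α := ℝ)]

theorem stUT_of (hL : StModL) (hS : StSvd) (hT : StTK) (hU : StUM) : StUT := by
  intro n Γ E _ _ _ _ _ _ _ C μ F T M V₁ K e hμ h1 h2 h3 hV he
  obtain ⟨A, A1, hA⟩ := hT n Γ E C F T
  have r0 := T.r_pos
  have A0 := one_pos.trans_le A1
  obtain ⟨ε, ε0, ε1, ε2⟩ : ∃ ε > (0 : ℝ), ε ≤ 1 / 3 ∧ 3 * ε ≤ e :=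
    ⟨min e 1 / 3, by positivity, by linarith [min_le_right e 1], by linarith [min_le_left e 1]⟩
  have ε3 : (1 + ε) ^ 2 ≤ 1 + e := by nlinarith
  obtain ⟨Z₀, h⟩ := hU F.p M.c (T.r / (8 * (F.p + 1))) ε (by positivity) ε0
  have V0 : 0 ≤ V₁ := (M.V_pos _ (h3 ▸ mem_ball_self (half_pos r0))).le.trans
    (hV _ (h3 ▸ mem_ball_self (half_pos r0)))
  set c := log A + 2 with hc
  have c2 : 2 ≤ c := by linarith [log_nonneg A1]
  refine (((ev_nat (Z₀ := Z₀) fun _ h => h).and (ev_Z (64 * A / T.r ^ 2 + A ^ 2))).and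
    ((ev_Z (8 * c)).and (ev_Z (4 * n * c / log (1 + ε))))).mono
    fun P ⟨⟨z0, z1⟩, z2, z3⟩ S hG hR b g ρ hb hy hξ ρ0 ρ1 => ?_
  have s0 := hb.s_pos
  have s1 : (P.Z : ℝ) ≤ b.s := P.Z_le_lo.trans hb.lo
  have s2 : exp (-(b.s / 4)) * P.Z ≤ 1 := le_trans (mul_le_mul_of_nonneg_left
    (P.Z_le_pow (by norm_num)) (exp_pos _).le) (G44.small P hb.lo)
  set b' : Pb C := { b with γ := g * b.γ, w := 1 * b.w + 0 }
  have hb' : b'.Ok P := ⟨hb.x_mem, hb.fr, hb.lo, hb.hi, by simpa [b'] using hb.w_le, hb.lo', hb.hi'⟩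
  have e0 : S.G (b.W P (P.t * b.s)) = S.G (exp (P.t * b.s) • b'.p P) := by
    refine Eq.trans (congrArg S.G (funext fun y => ?_))
      (hR.act g 1 0 _ norm_one (hR.densW b' (P.t * b.s) hb')).2.2
    exact congrArg (exp (P.t * b.s) * ·) (hR.sym b g 1 0 y hb norm_one).symm
  have hy2 : ‖T.sh (b.y g) - T.t₁‖ < T.r / 8 := hy.2
  obtain ⟨a1, a2⟩ := hA (g * b.γ) b.a b.x hb.x_mem hy.1 (hy2.le.trans (by linarith))
  obtain ⟨W, σ, w1, w2, w3, w4, w5⟩ := sv_bd hS A1 a1 hξ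
  obtain ⟨M', e1, e2, e3, e4, e5⟩ := hL n F.p Γ E C μ M (T.sh (b.y g)) W w1
  have l4 : log 4 ≤ 2 := by
    rw [show (4 : ℝ) = 2 ^ 2 by norm_num, log_pow]
    push_cast
    linarith [log_two_lt_d9]
  have l0 : 0 ≤ log 4 := log_nonneg (by norm_num)
  have hσ : ∀ i, |log (σ i) + log 4| ≤ 2 * ρ + c := fun i =>
    (abs_add_le _ _).trans (by rw [abs_of_nonneg l0]; linarith [(w3 i).2])
  rw [e0]
  refine (h P z0 n Γ E C μ M' S _ V₁ b.s b.s' b'.w (fun i => b.s - (log (σ i) + log 4)) hμ hG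
    e4.le (fun v hv => ?_) V0 (fun v hv => ?_) (hR.dens _ hb').1 (hR.dens _ hb').2.le
    ⟨hb.lo, hb.hi⟩ hb.lo' hb.hi' (fun i => ?_) fun y hy => ?_).trans ?_
  · rw [e3, h3]
    have h5 := ball_W r0 w1 w2 (mem_closedBall_zero_iff.1 hv)
    refine mem_ball_iff_norm.2 ?_
    rw [add_sub_right_comm]
    linarith [norm_add_le (T.sh (b.y g) - T.t₁) (Wᴴ *ᵥ v)]
  · rw [e5]
    exact hV _ (by rwa [e3] at hv)
  · have := abs_le.1 (hσ i)
    constructor <;> linarith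
  · obtain ⟨⟨u, u1, u2⟩, u3⟩ := hR.supp _ hb' y hy
    rw [one_pow] at u1
    set v := ((exp (-(b.s / 2)) : ℝ) : ℂ) • b.ξ *ᵥ u with hv
    have v0 := G44.nsq_nn v
    have v1 : nsq v ≤ exp (-b.s + 2 * ρ) := by
      rw [hv, nsq_smul', half_sq, exp_add]
      exact mul_le_mul_of_nonneg_left ((hξ u).2.trans (mul_le_of_le_one_right (exp_pos _).le u1))
        (exp_pos _).le
    have v2 : nsq v * P.Z ≤ 1 := le_trans (mul_le_mul_of_nonneg_right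
      (v1.trans (exp_le_exp.2 (by linarith))) P.Z_pos.le) s2
    have q0 : 0 ≤ 64 * A / T.r ^ 2 := by positivity
    obtain ⟨b1, b2, b3, b4⟩ := a2 v (by
      rw [← one_div, le_div_iff₀ A0]
      nlinarith)
    change y.1 = C.pt (g * b.γ) b.a (b.x + v) at u2
    refine ⟨?_, ?_, fun i => ?_⟩
    · rw [e1, h1, u2]
      refine ⟨b2, mem_ball_iff_norm.2 ?_⟩
      have h4 : ‖T.sh (C.pt (g * b.γ) b.a (b.x + v)) - T.sh (b.y g)‖ ≤ T.r / 8 :=
        le_of_sq_le_sq ((G44.nsq_lo _).trans (b3.trans (by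
          have h5 : nsq v * (64 * A / T.r ^ 2) ≤ 1 := by nlinarith [sq_nonneg A]
          rw [← mul_div_assoc, div_le_one (by positivity)] at h5
          linarith))) (by positivity)
      linarith [norm_sub_le_norm_sub_add_norm_sub (T.sh (C.pt (g * b.γ) b.a (b.x + v)))
        (T.sh (b.y g)) T.t₁]
    · rw [← half_sq]
      exact pow_le_pow_left₀ (norm_nonneg _) (u3.trans_eq (one_mul _)) 2
    · rw [e2, h2, u2]
      exact coord A0 w2 (w3 i).1 (w5 u i) u1 hv v1 b4 ρ1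
        ((mul_le_mul_of_nonneg_left (by linarith) (exp_pos _).le).trans s2)
  · have s' := hb.s'_pos
    have p0 : ∀ i, 0 < b.s - (log (σ i) + log 4) := fun i => by linarith [(abs_le.1 (hσ i)).2]
    have pn : (F.p : ℝ) ≤ n := by exact_mod_cast (by have := F.dim; omega)
    have k1 := prod_ge pn s0 ε0 c2 ρ1 (z2.trans s1) (z3.trans s1) l4 hσ
    rw [← w4] at k1
    change _ ≤ _ * (exp (b.ld g T.sh / _ + _) * _) at k1
    have pp := Finset.prod_pos fun i (_ : i ∈ Finset.univ) => p0 i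
    rw [show P.β ^ n / P.β ^ F.p = P.β ^ F.d by
      rw [div_eq_iff (pow_pos P.β_pos _).ne', ← pow_add, F.dim]]
    exact add_le_add le_rfl (fin_alg P V0 s' pp ε0 ε3 k1)

end Vale.Agent.P284Y.Y9
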