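import Vale.Agent.P284Y.Y9.Spec

/-!
# P284Y, row Y9: the upper bound for the energy
-/

open scoped ContDiff Topology ComplexOrder ENNReal Matrix
open Filter Set Function Metric MeasureTheory

noncomputable section

namespace Vale.Agent.P284Y.Y9

open Vale.Agent.P272.K Vale.Agent.P284Z Vale.Agent.P284Z.J Vale.Agent.P284Y.Lib Real

theorem up_mass {N k : ℕ} {M : Type} [TopologicalSpace M] [MeasurableSpace M] [BorelSpace M]
    {Q : Pat N M} {μ : Measure M} {S : MAS Q μ} (X : PM Q μ k) {ν : M → ℝ} {r e K Λ δ V₁ lam : ℝ}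
    {s : Fin k → ℝ} (hG : Gen S) (hν : Q.Dens ν) (h1 : ∫ y, ν y ∂μ ≤ 1) (hr : 0 < r) (hr1 : r ≤ 1)
    (hO : closedBall 0 r ⊆ X.O) (hV : 0 ≤ V₁) (hV' : ∀ v ∈ X.O, X.V v ≤ V₁) (he : 0 < e)
    (hs : ∀ i, 0 < s i ∧ exp (-s i) < r ^ 2)
    (hsup : ∀ y, ν y ≠ 0 → y ∈ X.U ∧ ∀ i, ‖X.π y i‖ ^ 2 ≤ exp (-s i))
    (hK : X.c * k + e ≤ e * (K - X.m)) (hK' : ∀ i, X.m + (Λ + δ) / s i * log (4 / r ^ 2) ≤ K)
    (hδ : ∀ i, K + log (k + 1) + s i ≤ δ) (l0 : 0 ≤ lam) (l1 : lam ≤ Λ) :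
    S.msl 0 ν lam ≤ 1 + V₁ * (1 + e) ^ k * mR k * (lam + δ) ^ k / ∏ i, s i := by
  have K0 : 0 < K - X.m := pos_of_mul_pos_right
    (lt_of_lt_of_le (by linarith [mul_nonneg X.c0 (k.cast_nonneg (α := ℝ))]) hK) he.le
  have g0 : 0 ≤ log (k + 1) := log_nonneg (by linarith [k.cast_nonneg (α := ℝ)])
  obtain ⟨l, hl⟩ : ∃ l, l = lam + K + log (k + 1) := ⟨_, rfl⟩
  have l2 : 0 < l := by linarith [X.m0]
  obtain ⟨a, a1, a2, a3⟩ : ∃ a : Fin k → ℕ, (∀ i, 1 ≤ a i) ∧ (∀ i, l ≤ a i * s i) ∧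
      ∀ i, a i ≤ (lam + δ) / s i := by
    refine ⟨fun i => ⌈l / s i⌉₊, fun i => Nat.ceil_pos.2 (div_pos l2 (hs i).1),
      fun i => (div_le_iff₀ (hs i).1).1 (Nat.le_ceil _), fun i =>
      (Nat.ceil_lt_add_one (div_pos l2 (hs i).1).le).le.trans ?_⟩
    rw [div_add_one (hs i).1.ne', div_le_div_iff_of_pos_right (hs i).1]
    linarith [hδ i]
  obtain ⟨b1, b2⟩ := X.sp (tm a l) K (tm_smooth a l) (tm_psd a l)
  have hd := hG.pg.dens_smul _ _ (exp_pos lam).le hν
  have h2 : ∀ y ∈ X.U, X.π y ∈ ball 0 r → tm a l (X.π y) + X.e y + K < S.φ (exp lam • ν) y →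
      tm a l (X.π y) < -(K - X.m) := fun y hy h3 h4 => by
    linarith [S.nonpos _ hd y, X.e_ge y hy ((mem_ball_zero_iff.1 h3).le.trans hr1)]
  have h3 := hG.mup _ _ {y ∈ X.U | X.π y ∈ ball 0 r} {y ∈ X.U | X.π y ∈ closedBall 0 (r / 2)}
    (fun y => tm a l (X.π y) + X.e y + K) lam hd hd le_rfl
    (X.cont.isOpen_inter_preimage X.opn isOpen_ball) (X.cpt _ (isCompact_closedBall _ _)
      ((closedBall_subset_closedBall (half_le_self hr.le)).trans hO))
    (fun y hy => ⟨hy.1, closedBall_subset_ball (half_lt_self hr) hy.2⟩) (fun y hy => b1 y hy.1)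
    (fun y hy => by
      obtain ⟨h4, h5⟩ := hsup y (right_ne_zero_of_mul hy)
      exact ⟨h4, mem_ball_zero_iff.2 ((pi_norm_lt_iff hr).2 fun i =>
        lt_of_pow_lt_pow_left₀ 2 hr.le ((h5 i).trans_lt (hs i).2))⟩)
    (fun y hy => ⟨hy.1.1, mem_closedBall_zero_iff.2 ((pi_norm_le_iff_of_nonneg
      (half_pos hr).le).2 fun i => le_of_not_gt fun h4 => by
        have h5 := ((pow_le_pow_left₀ (half_pos hr).le h4.le _).trans
          (pow_le_exp_tm a l _ i)).trans_lt (exp_lt_exp.2 (h2 y hy.1.1 hy.1.2 hy.2))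
        have h6 : 0 ≤ log (4 / r ^ 2) := log_nonneg ((one_le_div (by positivity)).2 (by nlinarith))
        rw [pow_mul, show (r / 2) ^ 2 = exp (-log (4 / r ^ 2)) by
          rw [exp_neg, exp_log (by positivity)]; field_simp; norm_num, ← exp_nat_mul,
          exp_lt_exp] at h5
        linarith [hK' i, mul_le_mul_of_nonneg_right ((a3 i).trans (div_le_div_of_nonneg_right
          (add_le_add_left l1 δ) (hs i).1.le)) h6])⟩)
    fun y hy => by
      obtain ⟨h4, h5⟩ := hsup y (right_ne_zero_of_mul hy)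
      have h6 := tm_le (a := a) (lam := l) (z := X.π y) le_rfl fun i => by
        rw [pow_mul]
        refine (pow_le_pow_left₀ (sq_nonneg _) (h5 i) _).trans ?_
        rw [← exp_nat_mul, exp_le_exp]
        linarith [a2 i]
      linarith [X.e_le y h4]
  have m1 : MeasurableSet {z | tm a l z < -(K - X.m)} :=
    (isOpen_lt (tm_smooth a l).continuous continuous_const).measurableSet
  have m2 : Measurable fun z => ENNReal.ofReal
      (cHess (tm a l) z + (X.c : ℂ) • (1 : Mx k)).det.re := (Complex.continuous_re.comp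
    ((continuous_matrix fun i j => continuous_iff_continuousAt.2 fun _ => (INT.smooth_cHess
      (tm_smooth a l).contDiffAt i j).continuousAt).add continuous_const).matrix_det).measurable.ennreal_ofReal
  have h4 : ∫⁻ y in {y ∈ {y ∈ X.U | X.π y ∈ ball 0 r} | tm a l (X.π y) + X.e y + K <
      S.φ (exp lam • ν) y}, ENNReal.ofReal (Q.MA (fun y => tm a l (X.π y) + X.e y + K) y) ∂μ ≤
      ENNReal.ofReal V₁ * ENNReal.ofReal ((1 + e) ^ k * mR k * ∏ i, (a i : ℝ)) := by
    have m3 := (X.cont.isOpen_inter_preimage X.opn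
      (isOpen_lt (tm_smooth a l).continuous (continuous_const (y := -(K - X.m))))).measurableSet
    refine ((lintegral_mono_set (t := X.U ∩ X.π ⁻¹' {z | tm a l z < -(K - X.m)})
      fun y hy => ⟨hy.1.1, h2 y hy.1.1 hy.1.2 hy.2⟩).trans ?_).trans
      ((X.vol _ (m2.indicator m1)).trans_le (((setLIntegral_mono' X.opnO.measurableSet
        fun v hv => mul_le_mul_left (ENNReal.ofReal_le_ofReal (hV' v hv)) _).trans
        (setLIntegral_le_lintegral _ _)).trans ?_))
    · rw [← lintegral_indicator m3, ← lintegral_indicator X.opn.measurableSet]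
      refine lintegral_mono fun y => ?_
      by_cases hy : y ∈ X.U ∩ X.π ⁻¹' {z | tm a l z < -(K - X.m)}
      · rw [indicator_of_mem hy, indicator_of_mem hy.1, indicator_of_mem (mem_preimage.1 hy.2),
          ← ENNReal.ofReal_mul (X.D0 y hy.1)]
        exact ENNReal.ofReal_le_ofReal (b2 y hy.1).2
      · rw [indicator_of_notMem hy]
        exact zero_le
    · rw [lintegral_const_mul' _ _ ENNReal.ofReal_ne_top, lintegral_indicator m1]
      exact mul_le_mul_right (tm_deep a1 l X.c0 he K0.le hK) _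
  have h5 : (0 : ℝ) ≤ (1 + e) ^ k * mR k := mul_nonneg (by positivity) (mR_pos k).le
  have h6 : ∏ i, (a i : ℝ) ≤ (lam + δ) ^ k / ∏ i, s i := by
    simpa using Finset.prod_le_prod (s := Finset.univ) (fun i _ => (a i).cast_nonneg) fun i _ => a3 i
  have h7 : exp (-lam) * ∫ y, (exp lam • ν) y ∂μ ≤ 1 := by
    simp only [Pi.smul_apply, smul_eq_mul, integral_const_mul]
    rwa [← mul_assoc, ← exp_add, neg_add_cancel, exp_zero, one_mul]
  have h8 := h3.trans (add_le_add h4 (ENNReal.ofReal_le_ofReal h7))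
  rw [← ENNReal.ofReal_mul hV, ← ENNReal.ofReal_add (by positivity) zero_le_one,
    ENNReal.ofReal_le_ofReal_iff (by positivity)] at h8
  rw [MAS.msl, zero_add, mul_div_assoc]
  linarith [mul_le_mul_of_nonneg_left (mul_le_mul_of_nonneg_left h6 h5) hV]

theorem stUp : StUp := by
  intro N k M _ _ _ _ Q μ S X ν r e K Λ δ V₁ s hG hν h1 hr hr1 hO hV hV' he hΛ hs hsup hK hK' hδ δ0
  have p0 : 0 < ∏ i, s i := Finset.prod_pos fun i _ => (hs i).1
  have c0 : 0 ≤ V₁ * (1 + e) ^ k * mR k := mul_nonneg (by positivity) (mR_pos k).le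
  have d1 := fun lam => hG.deriv 0 ν lam hG.pg.dens_zero hν
  have d2 : ∀ lam, HasDerivAt (fun lam => 1 + lam + V₁ * (1 + e) ^ k * mR k * (lam + δ) ^ (k + 1) /
      ((k + 1) * ∏ i, s i)) (1 + V₁ * (1 + e) ^ k * mR k * (lam + δ) ^ k / ∏ i, s i) lam :=
    fun lam => by
    refine (((hasDerivAt_id' lam).const_add 1).add (((((hasDerivAt_id' lam).add_const δ).fun_pow
      (k + 1)).const_mul (V₁ * (1 + e) ^ k * mR k)).div_const
        ((k + 1) * ∏ i, s i))).congr_deriv ?_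
    simp only [Nat.add_sub_cancel, Nat.cast_add, Nat.cast_one]
    field_simp
  have h2 := image_le_of_deriv_right_le_deriv_boundary (a := 0) (b := Λ)
    (fun x _ => (d1 x).continuousAt.continuousWithinAt) (fun x _ => (d1 x).hasDerivWithinAt) ?_
    (fun x _ => (d2 x).continuousAt.continuousWithinAt) (fun x _ => (d2 x).hasDerivWithinAt)
    (fun x hx => up_mass X hG hν h1 hr hr1 hO hV hV' he hs hsup hK hK' hδ hx.1 hx.2.le)
    ⟨hΛ, le_rfl⟩
  · rwa [zero_add] at h2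
  have h3 := hG.G_le 0 _ ν hG.pg.dens_zero hν hν (zero_add ν).ge
  have h4 := hG.ms_le 0 ν 0 hG.pg.dens_zero hν fun y _ => S.nonpos _ hG.pg.dens_zero y
  have h5 : 0 ≤ V₁ * (1 + e) ^ k * mR k * (0 + δ) ^ (k + 1) / ((k + 1) * ∏ i, s i) := by positivity
  rw [exp_zero, one_mul] at h4
  rw [S.G0] at h3
  simp only [exp_zero, one_smul, zero_add ν]
  linarith

end Vale.Agent.P284Y.Y9
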