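import Vale.Agent.P284Y.Y9.Bas

/-!
# P284Y, row X1: pinning
-/

open scoped ContDiff Topology ComplexOrder ENNReal Matrix
open Filter Set Function Metric MeasureTheory

noncomputable section

namespace Vale.Agent.P284Y.Y9

open Vale.Agent.P272.K Vale.Agent.P284Z Vale.Agent.P284Z.J Vale.Agent.P284Y.A Vale.Agent.P284Y.Lib

theorem num1 {e x G y : ℝ} (e0 : 0 ≤ e) (e1 : e ≤ 1 / 2) (x0 : 0 ≤ x) (h : (1 - e) * x ≤ G)
    (hy : |y| ≤ 1) : (1 + e) * x * Real.exp y ≤ G * (1 + y + y ^ 2 + 12 * e) := by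
  have h1 := (abs_le.1 (Real.abs_exp_sub_one_sub_id_le hy)).2
  have h2 := abs_le.1 hy
  have h3 : 0 ≤ G := le_trans (by nlinarith) h
  have h4 : (1 + e) * x ≤ G * (1 + 4 * e) := by nlinarith [mul_nonneg (mul_nonneg e0 x0) (sub_nonneg.2 e1)]
  have h5 : Real.exp y ≤ 3 := by nlinarith
  refine (mul_le_mul_of_nonneg_right h4 (Real.exp_pos y).le).trans ?_
  rw [mul_assoc]
  exact mul_le_mul_of_nonneg_left (by nlinarith) h3

theorem num2 {h : ℝ → ℝ} {r D L G E₁ E₂ : ℝ} (r1 : 1 ≤ r) (e1 : 0 ≤ E₁) (e2 : 0 ≤ E₂)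
    (cv : ∀ x t, 0 ≤ x → x ≤ r + 1 → 0 ≤ t → t ≤ 1 → h (t * x) ≤ (1 - t) * h 0 + t * h x + E₂)
    (up : ∀ x ∈ Icc r (r + 1), h x ≤ L + D) (mv : G ≤ h 1 + E₁) (low : L ≤ h 0 ∨ L ≤ G) :
    G - h 0 ≤ D / r + 2 * E₁ + 2 * E₂ := by
  have r0 : 0 < r := one_pos.trans_le r1
  rw [← sub_le_iff_le_add, ← sub_le_iff_le_add, le_div_iff₀ r0]
  rcases low with o | o
  · have h1 := mul_le_mul_of_nonneg_left
      (cv r r⁻¹ r0.le (by linarith) (by positivity) (inv_le_one_of_one_le₀ r1)) r0.le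
    rw [inv_mul_cancel₀ r0.ne', mul_add, mul_add, ← mul_assoc, ← mul_assoc, mul_sub,
      mul_inv_cancel₀ r0.ne'] at h1
    nlinarith [up r ⟨le_rfl, by linarith⟩]
  · have r2 : 0 < r + 1 := by linarith
    have h1 := mul_le_mul_of_nonneg_left
      (cv (r + 1) (r + 1)⁻¹ r2.le le_rfl (by positivity) (inv_le_one_of_one_le₀ (by linarith))) r2.le
    rw [inv_mul_cancel₀ r2.ne', mul_add, mul_add, ← mul_assoc, ← mul_assoc, mul_sub,
      mul_inv_cancel₀ r2.ne'] at h1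
    nlinarith [up (r + 1) ⟨by linarith, le_rfl⟩]

theorem num3 (P : Par) {κ e K G s s' a : ℝ} {d p : ℕ} (hκ : 0 < κ) (he : 0 < e) (e1 : e ≤ 1 / 2)
    (hp : 1 ≤ p) (z1 : 16 / (e * κ) ≤ P.Z) (z2 : 16 * K ^ 2 / e ≤ P.Z) (z3 : 400 / e ≤ P.Z)
    (hs : P.lo ≤ s) (s1 : 0 < s') (s2 : s' ≤ 4 * P.Z * P.sw s)
    (hG : (1 - e) * (md P d p κ * P.q * s) ≤ G) (ha : a = G * P.sw s / s' / s) :
    0 < a ∧ (1 - e) * (md P d p κ * s ^ 2 / s') ≤ a * s ∧ 1 + P.t * s ≤ e * (a * s) ∧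
      K * P.B * (K * (G + 1)) / (P.t * s) + 1 ≤ e * a ∧ (G + 1) * Real.exp (-(s / 2)) ≤ e * a := by
  have Z0 := P.Z_pos
  have q0 := P.q_pos
  have t1 := Par'.one_le_t P
  have zs : (P.Z : ℝ) ≤ s := P.Z_le_lo.trans hs
  have s0 : 0 < s := Z0.trans_le zs
  have o1 : 1 ≤ s := P.one_le_Z.trans zs
  rw [div_le_iff₀ (by positivity)] at z1 z2 z3
  have h1 : κ * P.t ^ 3 ≤ md P d p κ := by
    rw [md, mul_assoc]
    exact mul_le_mul_of_nonneg_left ((pow_le_pow_right₀ t1 (by omega)).trans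
      (le_mul_of_one_le_left (by positivity) (one_le_pow₀ P.one_le_β))) hκ.le
  have h2 : κ / 2 * P.t ^ 2 * P.Z * s ≤ G := by
    refine le_trans ?_ hG
    calc _ ≤ κ / 2 * P.t ^ 2 * P.B * s := by gcongr; exact Par'.Z_le_B P
      _ = 1 / 2 * (κ * P.t ^ 3 * P.q * s) := by rw [Par.B]; ring
      _ ≤ _ := mul_le_mul (by linarith) (by gcongr) (by positivity) (by linarith)
  have g0 : 0 < G := lt_of_lt_of_le (by positivity) h2
  have h3 : G ≤ 4 * P.Z * s * a := by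
    rw [ha, show 4 * P.Z * s * (G * P.sw s / s' / s) = G * (4 * P.Z * P.sw s) / s' by field_simp,
      le_div_iff₀ s1]
    exact mul_le_mul_of_nonneg_left s2 g0.le
  have h4 : κ / 8 * P.t ^ 2 ≤ a := le_of_mul_le_mul_left
    (le_of_eq_of_le (by ring) (h2.trans h3)) (show 0 < 4 * P.Z * s by positivity)
  have a0 : 0 < a := lt_of_lt_of_le (by positivity) h4
  have h5 : 2 * P.t ≤ e * a := by
    have := mul_le_mul_of_nonneg_right (Par'.Z_le_t P) (mul_pos he hκ).le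
    nlinarith [mul_le_mul_of_nonneg_left h4 he.le]
  have h6 : G + 1 ≤ 8 * P.Z * s * a := by
    have h7 : 1 ≤ P.t ^ 2 * s := one_le_mul_of_one_le_of_one_le (one_le_pow₀ t1) o1
    have h8 : 32 ≤ κ * P.Z := by nlinarith [mul_pos hκ Z0]
    nlinarith
  refine ⟨a0, ?_, by nlinarith, ?_, ?_⟩
  · rw [ha, div_mul_cancel₀ _ s0.ne', ← mul_div_assoc, Par.sw]
    refine div_le_div_of_nonneg_right (le_of_eq_of_le ?_
      (mul_le_mul_of_nonneg_right hG (div_pos s0 q0).le)) s1.le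
    field_simp
  · have h7 : P.q * P.Z * P.Z ≤ 1 := by
      rw [← P.q_mul, mul_assoc, ← sq]
      exact mul_le_mul_of_nonneg_left (P.pow_le (by norm_num)) q0.le
    have h8 : K * P.B * (K * (G + 1)) / (P.t * s) = K ^ 2 * P.q * (G + 1) / s := by
      rw [Par.B]
      field_simp
    have h9 : K ^ 2 * P.q * (G + 1) / s ≤ e * a / 2 := by
      rw [div_le_iff₀ s0]
      calc _ ≤ K ^ 2 * P.q * (8 * P.Z * s * a) := by gcongr
        _ = 16 * K ^ 2 * (P.q * P.Z) * (a / 2 * s) := by ring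
        _ ≤ P.Z * e * (P.q * P.Z) * (a / 2 * s) := by gcongr
        _ = P.q * P.Z * P.Z * (e * a / 2 * s) := by ring
        _ ≤ _ := mul_le_of_le_one_left (by positivity) h7
    linarith
  · have h7 := Real.pow_div_factorial_le_exp (s / 2) (by positivity) 3
    rw [Real.exp_neg, ← div_eq_mul_inv, div_le_iff₀ (Real.exp_pos _)]
    refine h6.trans (le_trans ?_ (mul_le_mul_of_nonneg_left h7 (by positivity)))
    have h8 : 400 * P.Z ≤ e * s ^ 2 := by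
      calc _ ≤ P.Z * e * P.Z := by gcongr
        _ ≤ s * e * s := by gcongr
        _ = _ := by ring
    have := mul_le_mul_of_nonneg_right h8 (mul_pos s0 a0).le
    simp only [Nat.factorial, Nat.cast_succ, Nat.cast_zero]
    nlinarith [mul_pos Z0 (mul_pos s0 a0)]

theorem num4 {θ s x M c l m n r : ℝ} (θ0 : 0 < θ) (θ1 : θ ≤ 1) (s0 : 0 < s) (n0 : 0 ≤ n)
    (hx : |x| ≤ l) (hM : |M| ≤ n * m) (hl : l + n * m ≤ θ ^ 2 * s)
    (hc : c = n * m + 1 + 8 * n * m ^ 2) (c1 : θ * c ≤ 1) (hr : r ∈ Icc (θ * s) (θ * s + 1)) :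
    |(x - r * M) / s + 8 * n * (θ * m * s / s) ^ 2| ≤ 1 ∧
      (x - r * M) / s + 8 * n * (θ * m * s / s) ^ 2 +
        ((x - r * M) / s + 8 * n * (θ * m * s / s) ^ 2) ^ 2 ≤ -(θ * M) + θ ^ 2 * (c + c ^ 2) := by
  have h1 : |(x - (r - θ * s) * M) / s| ≤ θ ^ 2 := by
    rw [abs_div, abs_of_pos s0, div_le_iff₀ s0]
    refine (abs_sub _ _).trans (le_trans (add_le_add hx ?_) hl)
    rw [abs_mul, abs_of_nonneg (sub_nonneg.2 hr.1)]
    exact (mul_le_of_le_one_left (abs_nonneg _) (by linarith [hr.2])).trans hM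
  have e : (x - r * M) / s + 8 * n * (θ * m * s / s) ^ 2 =
      -(θ * M) + (x - (r - θ * s) * M) / s + θ ^ 2 * (8 * n * m ^ 2) := by
    field_simp
    ring
  rw [e]
  generalize (x - (r - θ * s) * M) / s = u at h1
  have h2 := abs_le.1 h1
  have h3 := abs_le.1 hM
  have h4 : 0 ≤ 8 * n * m ^ 2 := by positivity
  have h5 : θ ^ 2 ≤ θ := by nlinarith
  have h6 : |-(θ * M) + u + θ ^ 2 * (8 * n * m ^ 2)| ≤ θ * c := by
    rw [abs_le, hc]
    constructor <;> nlinarith [mul_le_mul_of_nonneg_right h5 h4]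
  refine ⟨h6.trans c1, ?_⟩
  have h7 := pow_le_pow_left₀ (abs_nonneg _) h6 2
  rw [sq_abs] at h7
  have h8 : 0 ≤ θ ^ 2 * (n * m) := mul_nonneg (sq_nonneg _) ((abs_nonneg _).trans hM)
  rw [hc] at h7 ⊢
  nlinarith

variable {n : ℕ} {Γ E : Type} [Group Γ] [TopologicalSpace E] [MulAction Γ E] {C : Cov n Γ E}

theorem ok_fr {P : Par} {b : Pb C} (h : b.Ok P) {ξ : Mx n} (hξ : Fr (b.s / 8) ξ) :
    ({ b with ξ := ξ } : Pb C).Ok P := ⟨h.x_mem, hξ, h.lo, h.hi, h.w_le, h.lo', h.hi'⟩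

theorem stX1_of (hS : StSvd) (hA : StAd) (hT : StTK) (hC : StCv) : StX1 := by
  intro n Γ E _ _ _ _ _ _ _ C F T K R ε hε
  obtain ⟨KT, k1, hT⟩ := hT n Γ E C F T
  obtain ⟨Z₀, hC⟩ := hC n Γ E C K
  have n0 : (0 : ℝ) ≤ n := n.cast_nonneg
  obtain ⟨R₁, R0, R1, R2⟩ : ∃ R₁, 0 ≤ R₁ ∧ R ≤ R₁ ∧ K + R ≤ R₁ :=
    ⟨|K| + |R|, by positivity, by linarith [le_abs_self R, abs_nonneg K],
      add_le_add (le_abs_self _) (le_abs_self _)⟩
  obtain ⟨δ, δ0, δ1, δ2⟩ : ∃ δ : ℝ, 0 < δ ∧ δ ≤ 1 / 2 ∧ 2 * n * δ ≤ ε / 4 := by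
    refine ⟨min (1 / 2) (ε / (8 * (n + 1))), by positivity, min_le_left _ _,
      (mul_le_mul_of_nonneg_left (min_le_right _ _) (by positivity)).trans ?_⟩
    rw [← mul_div_assoc, div_le_div_iff₀ (by positivity) four_pos]
    nlinarith
  obtain ⟨m₀, hm₀⟩ : ∃ m₀, m₀ = 4 * R₁ - Real.log δ := ⟨_, rfl⟩
  have m0 : 0 < m₀ := by linarith [Real.log_neg δ0 (by linarith)]
  obtain ⟨c, hc⟩ : ∃ c, c = n * m₀ + 1 + 8 * n * m₀ ^ 2 := ⟨_, rfl⟩
  have c0 : 0 < c := by rw [hc]; positivity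
  obtain ⟨θ, θ0, θ1, θ2, θ3, θ4⟩ : ∃ θ : ℝ, 0 < θ ∧ θ ≤ 1 ∧ θ * c ≤ 1 ∧ θ * m₀ ≤ 1 / 8 ∧
      θ * (c + c ^ 2) ≤ ε / 4 := by
    refine ⟨min (min 1 (1 / c)) (min (1 / 8 / m₀) (ε / 4 / (c + c ^ 2))), by positivity,
      (min_le_left _ _).trans (min_le_left _ _), ?_, ?_, ?_⟩ <;>
      rw [← le_div_iff₀ (by positivity)] <;> simp
  obtain ⟨e, e0, e1, e2⟩ : ∃ e : ℝ, 0 < e ∧ e ≤ 1 / 2 ∧ 56 * e ≤ θ * ε :=
    ⟨min (1 / 2) (θ * ε / 56), by positivity, min_le_left _ _,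
      by linarith [min_le_right (1 / 2) (θ * ε / 56)]⟩
  have e3 : 56 * e ≤ ε := e2.trans (mul_le_of_le_one_left hε.le θ1)
  obtain ⟨l, hl⟩ : ∃ l, l = n * (2 * R₁ + Real.log KT) := ⟨_, rfl⟩
  refine ⟨e, e0, fun κ hκ => (((ev_nat hC).and ((ev_Z (16 / (e * κ))).and ((ev_Z (16 * K ^ 2 / e)).and
    (ev_Z (400 / e))))).and ((ev_Z (1 / θ)).and ((ev_Z ((l + n * m₀) / θ ^ 2)).and
    (ev_Z (2 * (R₁ + m₀) / (θ * m₀)))))).mono ?_⟩
  rintro P ⟨⟨hC, z1, z2, z3⟩, z4, z5, z6⟩ μ S hG hR hU hL s hs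
  have zs := P.Z_le_lo.trans hs.1
  have s0 := P.Z_pos.trans_le zs
  replace z4 := (div_le_iff₀' θ0).1 (z4.trans zs)
  replace z5 := (div_le_iff₀' (by positivity)).1 (z5.trans zs)
  replace z6 := (div_le_iff₀' (by positivity)).1 (z6.trans zs)
  have key : ∀ (ν : E × ℂ → ℝ) (g : Γ) (b b' : Pb C), (P.Q C).Dens ν → b.Ok P → b'.Ok P → b.s = s →
      b'.s = s → b'.w = b.w → b'.s' = b.s' → Fr R b.ξ → Fr R b'.ξ → b'.y g = b.y g →
      b.y g ∈ T.core →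
      (S.G ν + (1 - (P.Z : ℝ)⁻¹) * (P.GG S s * P.sw s / b.s') ≤ S.G (ν + b.W P (P.t * s)) ∨
        S.G ν + (1 - (P.Z : ℝ)⁻¹) * (P.GG S s * P.sw s / b.s') ≤ S.G (ν + b'.W P (P.t * s))) →
      (S.G (ν + b'.W P (P.t * s)) - S.G (ν + b.W P (P.t * s))) * s /
        (P.GG S s * P.sw s / b.s') ≤ b'.ld g T.sh - b.ld g T.sh + ε := by
    rintro ν g b b' hν hb hb' rfl e₂ e₃ e₄ f f' e₅ hy low
    obtain ⟨a, ha⟩ : ∃ a, a = P.GG S b.s * P.sw b.s / b.s' / b.s := ⟨_, rfl⟩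
    obtain ⟨a0, a1, a2, a3, a4⟩ := num3 P hκ e0 e1 F.p_pos z1 z2 z3 hs.1 hb.s'_pos hb.hi' (hL _ hs) ha
    have a5 : P.GG S b.s * P.sw b.s / b.s' = a * b.s := by rw [ha, div_mul_cancel₀ _ s0.ne']
    have e₆ : C.pt b'.γ b'.a b'.x = C.pt b.γ b.a b.x :=
      MulAction.injective g (by simpa only [C.smul_pt, Pb.y] using e₅)
    obtain ⟨t1, -⟩ := hT (g * b.γ) b.a b.x hb.x_mem hy.1 (hy.2.le.trans (by linarith [T.r_pos]))
    set A := jm (fun z => T.sh (C.pt (g * b.γ) b.a z)) b.x with hA'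
    set J := jm (C.tr (b.γ⁻¹ * b'.γ) b'.a b.a) b'.x
    have l1 : b'.ld g T.sh = lds (A * (J * b'.ξ)) := by
      rw [← Matrix.mul_assoc, ← jm_ch T.hol g (B34 hb'.x_mem) (B34 hb.x_mem) e₆ hy.1]
      rfl
    have f₁ := hS.mono _ _ _ _ f R1
    obtain ⟨V, m, M, v1, v2, v3, v4, v5, v6⟩ := hA n F.p A b.ξ (J * b'.ξ) R₁ δ R0 f₁
      (hS.mono _ _ _ _ (hS.mul _ _ _ _ _ (hR.jac _ _ _ _ _ hb'.x_mem _ hb.x_mem e₆) f') R2)
      (fun w hw => by
        have h1 := (t1 w).1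
        rw [hw, show nsq (0 : Cm n) = 0 by simp [nsq]] at h1
        have h2 := nonpos_of_mul_nonpos_right h1 (inv_pos.2 (one_pos.trans_le k1))
        exact norm_eq_zero.1 (pow_eq_zero_iff two_ne_zero |>.1
          (le_antisymm ((sq_le_nsq w).trans h2) (sq_nonneg _)))) δ0 δ1
    rw [← hm₀] at v2 v3
    have l2 : |lds (A * b.ξ)| ≤ l := by
      obtain ⟨-, σ, -, -, h1, h2, -⟩ := sv_bd hS k1 t1 f₁
      rw [h2, hl]
      refine (Finset.abs_sum_le_sum_abs _ _).trans ((Finset.sum_le_card_nsmul _ _ _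
        fun i _ => (h1 i).2).trans ?_)
      rw [Finset.card_univ, Fintype.card_fin, nsmul_eq_mul]
      exact mul_le_mul_of_nonneg_right (Nat.cast_le.2 (by have := F.dim; omega))
        (by linarith [Real.log_nonneg k1])
    set b₁ : Pb C := { b with ξ := b.ξ * V }
    have fr : ∀ r ∈ Icc (-1) (θ * b.s + 2), Fr (θ * m₀ * b.s) (b.ξ * V * dg m r) := fun r hr => by
      have h1 : |r| ≤ θ * b.s + 2 := abs_le.2 ⟨by linarith [hr.1], hr.2⟩
      refine hS.mono _ _ _ _ (hS.mul _ _ _ _ _ (hS.mul _ _ _ _ _ f₁ (fr_iso v1))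
        (hS.dg n m r ((θ * b.s + 2) * m₀ / 2) fun i => ?_)) (by linarith)
      rw [abs_mul, mul_div_cancel₀ _ two_ne_zero]
      exact mul_le_mul h1 (v2 i) (abs_nonneg _) (by linarith)
    have ρ1 : θ * m₀ * b.s ≤ b.s / 8 := by linarith [mul_le_mul_of_nonneg_right θ3 s0.le]
    have ok : ∀ r ∈ Icc (-1) (θ * b.s + 2), (pdg b₁ m r).Ok P := fun r hr =>
      ok_fr hb (hS.mono _ _ _ _ (fr r hr) ρ1)
    have ts := mul_pos P.t_pos s0
    have h0 : (pdg b₁ m 0).W P (P.t * b.s) = b.W P (P.t * b.s) := by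
      rw [Pb.W, Pb.W, ← hR.uni b V hb v1, pdg, dg_zero, mul_one]
    have o1 := ok 1 ⟨by norm_num, by linarith⟩
    have mv := hR.move₀ (pdg b₁ m 1) b' (P.t * b.s) ν o1 hb' e₂ (by
      show P.t * b.s / 8 ≤ _; linarith) (by show _ ≤ 2 * (P.t * b.s); linarith) hν fun y hy' => by
        obtain ⟨⟨u, u1, u2⟩, u3⟩ := hy'
        obtain ⟨u', u4, u5⟩ := hR.geo b' (pdg b₁ m 1) 1 1 hb' o1 e₂.symm e₆ le_rfl (fun u hu => by
          rw [one_pow] at hu ⊢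
          rw [Matrix.mulVec_mulVec]
          exact v6 u hu)
          zero_le_one one_le_two u u1
        refine ⟨⟨u', by simpa using u4, u2.trans u5⟩, ?_⟩
        rw [e₃, e₄] at u3
        exact u3.trans (mul_le_mul_of_nonneg_right (by norm_num) (Real.exp_pos _).le)
    have top := hR.top b' (P.t * b.s) hb' (by rw [e₂]; linarith)
    rw [e₂] at top
    have K0 := zero_le_one.trans hR.K_ge
    have m1 : K * P.B * S.G (b'.W P (P.t * b.s)) / (P.t * b.s) + 1 ≤ e * a :=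
      le_trans (by have := P.B_pos; gcongr; exact top) a3
    have h := num2 (h := fun r => S.G (ν + (pdg b₁ m r).W P (P.t * b.s))) (r := θ * b.s)
      (D := a * b.s * (14 * e - θ * M + θ ^ 2 * (c + c ^ 2)))
      (L := S.G ν + (1 - (P.Z : ℝ)⁻¹) * (a * b.s)) (G := S.G (ν + b'.W P (P.t * b.s)))
      (E₁ := e * a) (E₂ := e * a) z4 (by positivity) (by positivity)
      (fun x t x0 x1 t0 t1 => (hC μ S hG hR b₁ m ν x t hν x0 t0 t1
        fun r hr => ok r ⟨hr.1, by linarith [hr.2]⟩).trans (add_le_add_right a4 _))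
      (fun x hx => ?_) (by linarith) (by rwa [h0, ← a5])
    · rw [h0] at h
      rw [a5, mul_div_mul_right _ _ s0.ne', div_le_iff₀ a0, l1]
      refine h.trans (le_of_eq_of_le (b := (14 * e / θ - M + θ * (c + c ^ 2) + 4 * e) * a)
        (by field_simp; ring) (mul_le_mul_of_nonneg_right ?_ a0.le))
      have h1 : 14 * e / θ ≤ ε / 4 := by
        rw [div_le_iff₀ θ0]
        linarith
      have h2 : b.ld g T.sh = lds (A * b.ξ) := rfl
      linarith [(abs_le.1 v5).1]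
    · have hx' : x ∈ Icc (-1) (θ * b.s + 2) := ⟨by linarith [hx.1], by linarith [hx.2]⟩
      have u1 := hU (pdg b₁ m x) g _ (ok x hx') hy (fr x hx') (by positivity) ρ1
      have u2 := hG.sub 0 ν _ hG.pg.dens_zero hν (hR.densW _ (P.t * b.s) (ok x hx')) hν.nonneg
      rw [MAS.I, MAS.I, zero_add, S.G0] at u2
      have u3 : (pdg b₁ m x).ld g T.sh = lds (A * b.ξ) - x * M := v4 x
      obtain ⟨u4, u5⟩ := num4 θ0 θ1 s0 n0 l2 v3 z5 hc θ2 hx
      have u6 := num1 e0.le e1 (by have := md_pos P F.d F.p hκ; have := hb.s'_pos; positivity) a1 u4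
      have u7 : (P.Z : ℝ)⁻¹ ≤ e := by
        rw [inv_le_comm₀ P.Z_pos e0]
        refine le_trans ?_ z3
        rw [← one_div]
        gcongr
        norm_num
      rw [u3] at u1
      have u8 := mul_le_mul_of_nonneg_left u5 (mul_pos a0 s0).le
      have u9 := mul_le_mul_of_nonneg_left u7 (mul_pos a0 s0).le
      change S.G _ ≤ 1 + P.t * b.s + (1 + e) * (md P F.d F.p κ * b.s ^ 2 / b.s') *
        Real.exp (_ / b.s + 8 * n * (_ / b.s) ^ 2) at u1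
      change S.G (ν + (pdg b₁ m x).W P (P.t * b.s)) ≤ _
      change S.G ((pdg b₁ m x).W P (P.t * b.s)) ≤ _ at u1
      linarith
  intro ν g b b' hν hb hb' e₁ e₂ e₃ e₄ f f' e₅ hy low
  rw [MAS.I, le_sub_iff_add_le'] at low
  have h1 := key ν g b b' hν hb hb' e₁ e₂ e₃ e₄ f f' e₅ hy (.inl low)
  have h2 := key ν g b' b hν hb' hb e₂ e₁ e₃.symm e₄.symm f' f e₅.symm (e₅ ▸ hy) (.inr (e₄ ▸ low))
  rw [e₄] at h2
  rw [← neg_sub, neg_mul, neg_div] at h1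
  rw [abs_le]
  constructor <;> linarith

end Vale.Agent.P284Y.Y9
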