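import Vale.Agent.P284Y.Y.R8
import Vale.Agent.P284Y.Y.R41
import Vale.Agent.P284Y.Y9.Par
import Vale.Agent.P284Y.Lib.TM2

/-!
# P284Y, rows Y9 and X1: the pieces (statements)
-/

open scoped ContDiff Topology ComplexOrder ENNReal Matrix
open Filter Set Function Metric MeasureTheory

noncomputable section

namespace Vale.Agent.P284Y.Y9

open Vale.Agent.P272.K Vale.Agent.P284Z Vale.Agent.P284Z.J Vale.Agent.P284Y.A Vale.Agent.P284Y.Lib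

/-! ### linear algebra -/

/-- the dual metric on the base -/
def coA {n p : ℕ} (S : Matrix (Fin p) (Fin n) ℂ) (G : Mx n) : Mx p :=
  S.map (starRingEnd ℂ) * G⁻¹ * S.transpose

/-- `log det (A A*)` -/
def lds {n p : ℕ} (A : Matrix (Fin p) (Fin n) ℂ) : ℝ := Real.log (A * Aᴴ).det.re

/-- `diag (exp (-r m / 2))` -/
def dg {n : ℕ} (m : Fin n → ℝ) (r : ℝ) : Mx n :=
  Matrix.diagonal fun i => ((Real.exp (-(r * m i / 2)) : ℝ) : ℂ)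

/-- **frames, singular values** -/
structure StSvd : Prop where
  adj : ∀ (n : ℕ) (R : ℝ) (ξ : Mx n), Fr R ξ → Fr R ξᴴ
  mul : ∀ (n : ℕ) (R R' : ℝ) (ξ ζ : Mx n), Fr R ξ → Fr R' ζ → Fr (R + R') (ξ * ζ)
  mono : ∀ (n : ℕ) (R R' : ℝ) (ξ : Mx n), Fr R ξ → R ≤ R' → Fr R' ξ
  dg : ∀ (n : ℕ) (m : Fin n → ℝ) (r R : ℝ), (∀ i, |r * m i| ≤ 2 * R) → Fr R (dg m r)
  svd : ∀ (n p : ℕ) (A : Matrix (Fin p) (Fin n) ℂ) (a b : ℝ), 0 < a →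
    (∀ w, a * nsq w ≤ nsq (Aᴴ *ᵥ w) ∧ nsq (Aᴴ *ᵥ w) ≤ b * nsq w) →
    ∃ (W : Mx p) (σ : Fin p → ℝ), Wᴴ * W = 1 ∧ (∀ v, nsq (W *ᵥ v) = nsq v) ∧
      (∀ i, a ≤ σ i ∧ σ i ≤ b) ∧ lds A = ∑ i, Real.log (σ i) ∧
      ∀ u i, ‖(W *ᵥ (A *ᵥ u)) i‖ ^ 2 ≤ σ i * nsq u

/-- **adapted frames** -/
def StAd : Prop :=
  ∀ (n p : ℕ) (A : Matrix (Fin p) (Fin n) ℂ) (ξ ζ : Mx n) (R δ : ℝ), 0 ≤ R → Fr R ξ → Fr R ζ →
    (∀ w, Aᴴ *ᵥ w = 0 → w = 0) → 0 < δ → δ ≤ 1 / 2 →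
    ∃ (V : Mx n) (m : Fin n → ℝ) (M : ℝ), (∀ u, nsq (V *ᵥ u) = nsq u) ∧
      (∀ i, |m i| ≤ 4 * R - Real.log δ) ∧ |M| ≤ n * (4 * R - Real.log δ) ∧
      (∀ r, lds (A * (ξ * V * dg m r)) = lds (A * ξ) - r * M) ∧
      |M - (lds (A * ξ) - lds (A * ζ))| ≤ 2 * n * δ ∧
      ∀ u, nsq u ≤ 1 → ∃ u', nsq u' ≤ 1 ∧ ζ *ᵥ u = (ξ * V * dg m 1) *ᵥ u'

/-! ### models -/

section
variable {n : ℕ} {Γ E : Type} [Group Γ] [TopologicalSpace E] [MulAction Γ E] [MeasurableSpace E]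

/-- a proper submersion `sh : U → O`; `V` is the volume of the fibres -/
structure Mdl (C : Cov n Γ E) (μ : Measure E) (p : ℕ) where
  U : Set E
  sh : E → Cm p
  O : Set (Cm p)
  D : E → ℝ
  V : Cm p → ℝ
  c : ℝ
  one_le : 1 ≤ c
  opn : IsOpen U
  opnO : IsOpen O
  hol : C.HolOn sh U
  mem : ∀ y ∈ U, sh y ∈ O
  cpt : ∀ K, IsCompact K → K ⊆ O → IsCompact {y ∈ U | sh y ∈ K}
  D_cont : ContinuousOn D U
  V_cont : ContinuousOn V O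
  V_pos : ∀ t ∈ O, 0 < V t
  D_eq : ∀ γ a, ∀ z ∈ C.B 4 a, C.pt γ a z ∈ U →
    D (C.pt γ a z) = (coA (jm (fun w => sh (C.pt γ a w)) z) (cHess (C.ρ a) z)).det.re ∧
    ((c : ℂ) • coA (jm (fun w => sh (C.pt γ a w)) z) (cHess (C.ρ a) z) - 1).PosSemidef
  vol : ∀ f : Cm p → ℝ≥0∞, Measurable f →
    ∫⁻ y in U, ENNReal.ofReal (D y) * f (sh y) ∂μ = ∫⁻ t in O, ENNReal.ofReal (V t) * f t

end

/-- barriers `u ∘ π + e + K` and their masses -/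
structure PM {N : ℕ} {M : Type} [TopologicalSpace M] [MeasurableSpace M] (Q : Pat N M)
    (μ : Measure M) (k : ℕ) where
  U : Set M
  π : M → Cm k
  e : M → ℝ
  O : Set (Cm k)
  D : M → ℝ
  V : Cm k → ℝ
  c : ℝ
  m : ℝ
  c0 : 0 ≤ c
  m0 : 0 ≤ m
  opn : IsOpen U
  opnO : IsOpen O
  cont : ContinuousOn π U
  cpt : ∀ K, IsCompact K → K ⊆ O → IsCompact {y ∈ U | π y ∈ K}
  e_le : ∀ y ∈ U, e y ≤ 0
  e_ge : ∀ y ∈ U, ‖π y‖ ≤ 1 → -m ≤ e y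
  D0 : ∀ y ∈ U, 0 ≤ D y
  sp : ∀ (u : Cm k → ℝ) (K : ℝ), ContDiff ℝ ∞ u → (∀ v, (cHess u v).PosSemidef) →
    Q.SP (fun y => u (π y) + e y + K) U ∧ ∀ y ∈ U,
      D y * (cHess u (π y)).det.re ≤ Q.MA (fun y => u (π y) + e y + K) y ∧
      Q.MA (fun y => u (π y) + e y + K) y ≤ D y * (cHess u (π y) + (c : ℂ) • (1 : Mx k)).det.re
  vol : ∀ f : Cm k → ℝ≥0∞, Measurable f →
    ∫⁻ y in U, ENNReal.ofReal (D y) * f (π y) ∂μ = ∫⁻ v in O, ENNReal.ofReal (V v) * f v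

/-- the model of a tube -/
def StModT : Prop :=
  ∀ (n : ℕ) (Γ E : Type) [Group Γ] [Countable Γ] [TopologicalSpace E] [T2Space E] [MulAction Γ E]
    [MeasurableSpace E] [BorelSpace E] (C : Cov n Γ E) (μ : Measure E) (F : Fol C) (T : Tube F),
    C.Vol μ → ∃ M : Mdl C μ F.p, M.U = {y ∈ T.U | T.sh y ∈ ball T.t₁ (T.r / 2)} ∧ M.sh = T.sh ∧
      M.O = ball T.t₁ (T.r / 2) ∧ ∃ V₁, ∀ t ∈ M.O, M.V t ≤ V₁

/-- the model of a chart -/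
def StModC : Prop :=
  ∀ (n : ℕ) (Γ E : Type) [Group Γ] [Countable Γ] [TopologicalSpace E] [T2Space E] [MulAction Γ E]
    [MeasurableSpace E] [BorelSpace E] (C : Cov n Γ E) (μ : Measure E) (a : C.I),
    C.Vol μ → ∃ M : Mdl C μ n, M.U = C.pt 1 a '' C.B (7 / 2) a ∧ M.sh = C.co 1 a ∧
      M.O = C.B (7 / 2) a ∧ ∀ t ∈ M.O, M.V t ≤ 1

/-- unitary changes of the coordinates on the base -/
def StModL : Prop :=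
  ∀ (n p : ℕ) (Γ E : Type) [Group Γ] [TopologicalSpace E] [MulAction Γ E] [MeasurableSpace E]
    (C : Cov n Γ E) (μ : Measure E) (M : Mdl C μ p) (t₀ : Cm p) (W : Mx p), Wᴴ * W = 1 →
    ∃ M' : Mdl C μ p, M'.U = M.U ∧ (M'.sh = fun y => W *ᵥ (M.sh y - t₀)) ∧
      M'.O = {v | t₀ + Wᴴ *ᵥ v ∈ M.O} ∧ M'.c = M.c ∧ M'.V = fun v => M.V (t₀ + Wᴴ *ᵥ v)

/-- the model on `E × ℂ` -/
def StPM : Prop :=
  ∀ (n p : ℕ) (Γ E : Type) [Group Γ] [Countable Γ] [TopologicalSpace E] [T2Space E] [MulAction Γ E]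
    [MeasurableSpace E] [BorelSpace E] (C : Cov n Γ E) (μ : Measure E) (M : Mdl C μ p) (β m : ℝ)
    (τ : ℂ), C.Vol μ → 0 < β → β ≤ m → PG (QY C β m) (μY n μ β m) →
    ∃ X : PM (QY C β m) (μY n μ β m) (p + 1), X.U = M.U ×ˢ univ ∧
      (X.π = fun y => Fin.cons (y.2 - τ) (M.sh y.1)) ∧ X.O = {v : Cm (p + 1) | Fin.tail v ∈ M.O} ∧
      (X.V = fun v => β ^ n / β ^ p * M.V (Fin.tail v)) ∧ X.c = β * M.c ∧ X.m = m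

/-- **Y9, upper bound** -/
def StUp : Prop :=
  ∀ (N k : ℕ) (M : Type) [TopologicalSpace M] [T2Space M] [MeasurableSpace M] [BorelSpace M]
    (Q : Pat N M) (μ : Measure M) (S : MAS Q μ) (X : PM Q μ k) (ν : M → ℝ) (r e K Λ δ V₁ : ℝ)
    (s : Fin k → ℝ), Gen S → Q.Dens ν → ∫ y, ν y ∂μ ≤ 1 → 0 < r → r ≤ 1 → closedBall 0 r ⊆ X.O →
    0 ≤ V₁ → (∀ v ∈ X.O, X.V v ≤ V₁) → 0 < e → 0 ≤ Λ → (∀ i, 0 < s i ∧ Real.exp (-s i) < r ^ 2) →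
    (∀ y, ν y ≠ 0 → y ∈ X.U ∧ ∀ i, ‖X.π y i‖ ^ 2 ≤ Real.exp (-s i)) →
    X.c * k + e ≤ e * (K - X.m) → (∀ i, X.m + (Λ + δ) / s i * Real.log (4 / r ^ 2) ≤ K) →
    (∀ i, K + Real.log (k + 1) + s i ≤ δ) → 0 ≤ δ →
    S.G (Real.exp Λ • ν) ≤
      1 + Λ + V₁ * (1 + e) ^ k * mR k * (Λ + δ) ^ (k + 1) / ((k + 1) * ∏ i, s i)

/-- **Y9, lower bound** -/
def StLo : Prop :=
  ∀ (k : ℕ) (η : ℝ), 1 ≤ k → 0 < η → η ≤ 1 → ∃ K₀ : ℝ, ∀ (N : ℕ) (M : Type) [TopologicalSpace M] [T2Space M]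
    [MeasurableSpace M] [BorelSpace M] (Q : Pat N M) (μ : Measure M) (S : MAS Q μ) (X : PM Q μ k)
    (p : M → ℝ) (r Λ δ δ₁ d V₀ : ℝ) (s : Fin k → ℝ), Gen S → Q.Dens p → 0 < r → r ≤ 1 →
    closedBall 0 r ⊆ X.O → 0 ≤ V₀ → (∀ v ∈ ball 0 r, V₀ ≤ X.V v) →
    (∀ i, 0 < s i ∧ Real.exp (-s i) < r ^ 2) → 1 ≤ d → 0 ≤ δ₁ →
    (∀ y ∈ X.U, r / 2 ≤ ‖X.π y‖ → ‖X.π y‖ < r → -d ≤ S.φ (Real.exp Λ • p) y) →
    (∀ y ∈ X.U, (∀ i, ‖X.π y i‖ ^ 2 ≤ Real.exp (-s i)) → S.φ (Real.exp Λ • p) y ≤ -Λ + δ₁) →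
    (∀ i, δ₁ + X.m + Real.log (k + 1) + d + 1 + K₀ + s i ≤ δ) → 0 ≤ δ → δ ≤ Λ →
    (1 - η) * V₀ * mR k * (Λ - δ) ^ (k + 1) / ((k + 1) * ∏ i, s i) ≤
      (1 + 3 * Real.exp (-d)) * S.G (Real.exp Λ • p)

/-! ### geometry -/

/-- uniform constants of a tube -/
def StTK : Prop :=
  ∀ (n : ℕ) (Γ E : Type) [Group Γ] [TopologicalSpace E] [T2Space E] [MulAction Γ E]
    (C : Cov n Γ E) (F : Fol C) (T : Tube F), ∃ K ≥ (1 : ℝ), ∀ γ a, ∀ x ∈ C.B 3 a,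
    C.pt γ a x ∈ T.U → ‖T.sh (C.pt γ a x) - T.t₁‖ ≤ T.r / 2 →
    (∀ w, K⁻¹ * nsq w ≤ nsq ((jm (fun z => T.sh (C.pt γ a z)) x)ᴴ *ᵥ w) ∧
      nsq ((jm (fun z => T.sh (C.pt γ a z)) x)ᴴ *ᵥ w) ≤ K * nsq w) ∧
    ∀ v, nsq v ≤ K⁻¹ → x + v ∈ C.B 4 a ∧ C.pt γ a (x + v) ∈ T.U ∧
      nsq (T.sh (C.pt γ a (x + v)) - T.sh (C.pt γ a x)) ≤ K * nsq v ∧
      nsq (T.sh (C.pt γ a (x + v)) - T.sh (C.pt γ a x) -
        jm (fun z => T.sh (C.pt γ a z)) x *ᵥ v) ≤ K * nsq v ^ 2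

/-- barriers which come from `E`, and slices -/
def StSB : Prop :=
  ∀ (n : ℕ) (Γ E : Type) [Group Γ] [TopologicalSpace E] [T2Space E] [MulAction Γ E]
    [MeasurableSpace E] [BorelSpace E] (C : Cov n Γ E) (β m : ℝ) (μ : Measure (E × ℂ))
    (S : MAS (QY C β m) μ) (ν : E × ℂ → ℝ), Gen S → 0 < β → 0 < m → (QY C β m).Dens ν →
    (∀ u : E → ℝ, (∀ y, C.SmAt u y) → (∀ γ a, ∀ z ∈ C.B 4 a, (C.om 1 u γ a z).PosSemidef) →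
      (∀ y, u y ≤ 0) → (∀ y, ν y ≤ Real.exp (-(β / 2 * u y.1))) →
      ∀ y, β / 2 * u y.1 - (n + 3) ≤ S.φ ν y) ∧
    ∀ (w : ℂ) (Ω : Set E), QP C β (fun y => S.φ ν (y, w)) Ω

/-- the probe with the frame `ξ diag (exp (-r m / 2))` -/
def pdg {n : ℕ} {Γ E : Type} [Group Γ] [TopologicalSpace E] [MulAction Γ E] {C : Cov n Γ E}
    (b : Pb C) (m : Fin n → ℝ) (r : ℝ) : Pb C := { b with ξ := b.ξ * dg m r }

/-- convexity along diagonal one parameter groups -/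
def StCv : Prop :=
  ∀ (n : ℕ) (Γ E : Type) [Group Γ] [Countable Γ] [TopologicalSpace E] [T2Space E] [MulAction Γ E]
    [MeasurableSpace E] [BorelSpace E] (C : Cov n Γ E) (K : ℝ), ∃ Z₀ : ℕ, ∀ P : Par, Z₀ ≤ P.Z →
    ∀ (μ : Measure (E × ℂ)) (S : MAS (P.Q C) μ), Gen S → R41 P S K →
    ∀ (b : Pb C) (m : Fin n → ℝ) (ν : E × ℂ → ℝ) (L θ : ℝ), (P.Q C).Dens ν → 0 ≤ L → 0 ≤ θ → θ ≤ 1 →
      (∀ r ∈ Icc (-1) (L + 1), (pdg b m r).Ok P) →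
      S.G (ν + (pdg b m (θ * L)).W P (P.t * b.s)) ≤
        (1 - θ) * S.G (ν + (pdg b m 0).W P (P.t * b.s)) +
          θ * S.G (ν + (pdg b m L).W P (P.t * b.s)) + P.U S b.s * Real.exp (-(b.s / 2))

/-! ### the rows with the parameters -/

/-- for large `Z`, and `lo` large with respect to `TT` -/
def Ev (Φ : Par → Prop) : Prop :=
  ∃ (Z₀ : ℕ) (f : ℝ → ℝ), ∀ P : Par, Z₀ ≤ P.Z → f P.TT ≤ P.lo → Φ P

/-- the model constant -/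
def md (P : Par) (d p : ℕ) (κ : ℝ) : ℝ := κ * P.β ^ d * P.t ^ (p + 2)

section
variable {n : ℕ} {Γ E : Type} [Group Γ] [TopologicalSpace E] [MulAction Γ E] [MeasurableSpace E]
  {C : Cov n Γ E} {μ : Measure (E × ℂ)} {F : Fol C}

/-- the upper bound for the probes in the core of a tube -/
def UpT (P : Par) (S : MAS (P.Q C) μ) (T : Tube F) (κ e : ℝ) : Prop :=
  ∀ (b : Pb C) (g : Γ) (ρ : ℝ), b.Ok P → b.y g ∈ T.core → Fr ρ b.ξ → 0 ≤ ρ → ρ ≤ b.s / 8 →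
    S.G (b.W P (P.t * b.s)) ≤ 1 + P.t * b.s + (1 + e) * (md P F.d F.p κ * b.s ^ 2 / b.s') *
      Real.exp (b.ld g T.sh / b.s + 8 * n * (ρ / b.s) ^ 2)

/-- the lower bound -/
def LoT (P : Par) (S : MAS (P.Q C) μ) (F : Fol C) (κ e : ℝ) : Prop :=
  ∀ s ∈ Icc P.lo P.hi, (1 - e) * (md P F.d F.p κ * P.q * s) ≤ P.GG S s

end

/-- the upper bound for a model -/
def StUM : Prop :=
  ∀ (p : ℕ) (c r e : ℝ), 0 < r → 0 < e → ∃ Z₀ : ℕ, ∀ P : Par, Z₀ ≤ P.Z →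
    ∀ (n : ℕ) (Γ E : Type) [Group Γ] [Countable Γ] [TopologicalSpace E] [T2Space E] [MulAction Γ E]
    [MeasurableSpace E] [BorelSpace E] (C : Cov n Γ E) (μ : Measure E) (M : Mdl C μ p)
    (S : MAS (P.Q C) (μY n μ P.β P.m)) (ν : E × ℂ → ℝ) (V₁ s s' : ℝ) (τ : ℂ) (σ : Fin p → ℝ),
    C.Vol μ → Gen S → M.c ≤ c → closedBall 0 r ⊆ M.O → 0 ≤ V₁ → (∀ t ∈ M.O, M.V t ≤ V₁) →
    (P.Q C).Dens ν → ∫ y, ν y ∂(μY n μ P.β P.m) ≤ 1 → s ∈ Icc P.lo P.hi → P.sw s / 2 ≤ s' →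
    s' ≤ 4 * P.Z * P.sw s → (∀ i, s / 2 ≤ σ i ∧ σ i ≤ 2 * s) →
    (∀ y, ν y ≠ 0 → y.1 ∈ M.U ∧ ‖y.2 - τ‖ ^ 2 ≤ Real.exp (-s') ∧
      ∀ i, ‖M.sh y.1 i‖ ^ 2 ≤ Real.exp (-σ i)) →
    S.G (Real.exp (P.t * s) • ν) ≤ 1 + P.t * s + (1 + e) * (P.β ^ n / P.β ^ p * V₁ * mR (p + 1) /
      (p + 2)) * (P.t * s) ^ (p + 2) / (s' * ∏ i, σ i)

/-- **Y9 in a tube, upper bound**; `V₁` bounds the volume of the fibres -/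
def StUT : Prop :=
  ∀ (n : ℕ) (Γ E : Type) [Group Γ] [Countable Γ] [TopologicalSpace E] [T2Space E] [MulAction Γ E]
    [MeasurableSpace E] [BorelSpace E] (C : Cov n Γ E) (μ : Measure E) (F : Fol C) (T : Tube F)
    (M : Mdl C μ F.p) (V₁ K e : ℝ), C.Vol μ → M.U = {y ∈ T.U | T.sh y ∈ ball T.t₁ (T.r / 2)} →
    M.sh = T.sh → M.O = ball T.t₁ (T.r / 2) → (∀ t ∈ M.O, M.V t ≤ V₁) → 0 < e →
    Ev fun P => ∀ S : MAS (P.Q C) (μY n μ P.β P.m), Gen S → R41 P S K →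
      UpT P S T (V₁ * mR (F.p + 1) / (F.p + 2)) e

/-- **Y9 in a tube, lower bound** -/
def StLT : Prop :=
  ∀ (n : ℕ) (Γ E : Type) [Group Γ] [Countable Γ] [TopologicalSpace E] [T2Space E] [MulAction Γ E]
    [MeasurableSpace E] [BorelSpace E] (C : Cov n Γ E) (μ : Measure E) (F : Fol C) (T : Tube F)
    (M : Mdl C μ F.p) (V₀ K e : ℝ), C.Vol μ → M.U = {y ∈ T.U | T.sh y ∈ ball T.t₁ (T.r / 2)} →
    M.sh = T.sh → M.O = ball T.t₁ (T.r / 2) → 0 ≤ V₀ → (∃ t ∈ M.O, V₀ < M.V t) → 0 < e →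
    (∀ᵐ t, t ∈ ball T.t₁ T.r → ∀ τ > (0 : ℝ), Nonempty (Sesh T t τ)) →
    Ev fun P => ∀ S : MAS (P.Q C) (μY n μ P.β P.m), Gen S → R41 P S K →
      LoT P S F (V₀ * mR (F.p + 1) / (F.p + 2)) e

/-- **Y9 in the charts** -/
def StUC : Prop :=
  ∀ (n : ℕ) (Γ E : Type) [Group Γ] [Countable Γ] [TopologicalSpace E] [T2Space E] [MulAction Γ E]
    [MeasurableSpace E] [BorelSpace E] [Nonempty E] (C : Cov n Γ E) (μ : Measure E), C.Vol μ →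
    ∃ C₁ : ℝ, ∀ K, Ev fun P => ∀ S : MAS (P.Q C) (μY n μ P.β P.m), Gen S → R41 P S K →
      ∀ s ∈ Icc P.lo P.hi, P.GG S s ≤ C₁ * P.t ^ (n + 2) * P.q * s

/-- **X1** -/
def StX1 : Prop :=
  ∀ (n : ℕ) (Γ E : Type) [Group Γ] [Countable Γ] [TopologicalSpace E] [T2Space E] [MulAction Γ E]
    [MeasurableSpace E] [BorelSpace E] (C : Cov n Γ E) (F : Fol C) (T : Tube F) (K R ε : ℝ),
    0 < ε → ∃ e > (0 : ℝ), ∀ κ > (0 : ℝ), Ev fun P => ∀ (μ : Measure (E × ℂ)) (S : MAS (P.Q C) μ),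
      Gen S → R41 P S K → UpT P S T κ e → LoT P S F κ e →
      ∀ s ∈ Icc P.lo P.hi, P.Pin S s T.core T.sh R ε

/-- **Y9, X1, parameters**, with the rows Y1, Y2, Y3 as input -/
def St8' : Prop :=
  ∀ (n : ℕ) (Γ E : Type) [Group Γ] [Countable Γ] [TopologicalSpace E] [T2Space E]
    [ConnectedSpace E] [MulAction Γ E] [MeasurableSpace E] [BorelSpace E] (C : Cov n Γ E)
    (μ : Measure E) (F : Fol C) (T : ℕ → Tube F), C.Vol μ →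
    (∀ i, ∀ᵐ t, t ∈ ball (T i).t₁ (T i).r → ∀ τ > (0 : ℝ), Nonempty (Sesh (T i) t τ)) →
    ∀ (K R ε : ℝ) (j : ℕ), 0 < ε → ∃ Z₀ : ℕ, ∀ Z ≥ Z₀, ∃ P : Par, P.Z = Z ∧
      ∀ S : MAS (P.Q C) (μY n μ P.β P.m), Gen S → R41 P S K →
        ∃ s, R8 P S s (fun i => (T i).core) (fun i => (T i).sh) j R ε

end Vale.Agent.P284Y.Y9
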