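import Vale.Agent.P284Y.Y9.Fin
import Vale.Agent.P284Y.Y.R41I
import Vale.Agent.P284Y.A.TubeOps

/-!
# P284Y, rows Y9 and X1: small lemmas
-/

open scoped ContDiff Topology ComplexOrder ENNReal Matrix
open Filter Set Function Metric MeasureTheory

noncomputable section

namespace Vale.Agent.P284Y.Y9

open Vale.Agent.P272.K Vale.Agent.P284Z Vale.Agent.P284Z.J Vale.Agent.P284Y.A Vale.Agent.P284Y.Lib

variable {n p : ℕ}

theorem fr_iso {V : Mx n} (h : ∀ u, nsq (V *ᵥ u) = nsq u) : Fr 0 V := fun u => by simp [h]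

theorem dg_zero (m : Fin n → ℝ) : dg m 0 = 1 := by simp [dg]

theorem nsq_smul' (c : ℝ) (u : Cm n) : nsq ((c : ℂ) • u) = c ^ 2 * nsq u := by
  simp only [nsq, Pi.smul_apply, smul_eq_mul, norm_mul, mul_pow, Finset.mul_sum, Complex.norm_real,
    Real.norm_eq_abs, sq_abs]

theorem sq_le_nsq' (u : Cm n) (i : Fin n) : ‖u i‖ ^ 2 ≤ nsq u :=
  Finset.single_le_sum (f := fun b => ‖u b‖ ^ 2) (fun _ _ => sq_nonneg _) (Finset.mem_univ i)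

/-- the singular values of `A ξ` -/
theorem sv_bd (hS : StSvd) {A : Matrix (Fin p) (Fin n) ℂ} {ξ : Mx n} {K ρ : ℝ} (hK : 1 ≤ K)
    (hA : ∀ w, K⁻¹ * nsq w ≤ nsq (Aᴴ *ᵥ w) ∧ nsq (Aᴴ *ᵥ w) ≤ K * nsq w) (hξ : Fr ρ ξ) :
    ∃ (W : Mx p) (σ : Fin p → ℝ), Wᴴ * W = 1 ∧ (∀ v, nsq (W *ᵥ v) = nsq v) ∧
      (∀ i, Real.exp (-(2 * ρ)) * K⁻¹ ≤ σ i ∧ |Real.log (σ i)| ≤ 2 * ρ + Real.log K) ∧
      lds (A * ξ) = ∑ i, Real.log (σ i) ∧ ∀ u i, ‖(W *ᵥ (A *ᵥ (ξ *ᵥ u))) i‖ ^ 2 ≤ σ i * nsq u := by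
  have K0 : 0 < K := one_pos.trans_le hK
  have a0 : 0 < Real.exp (-(2 * ρ)) * K⁻¹ := by positivity
  obtain ⟨W, σ, h1, h2, h3, h4, h5⟩ := hS.svd n p (A * ξ) _ (Real.exp (2 * ρ) * K) a0 fun w => by
    rw [Matrix.conjTranspose_mul, ← Matrix.mulVec_mulVec, mul_assoc, mul_assoc]
    exact ⟨(mul_le_mul_of_nonneg_left (hA w).1 (Real.exp_pos _).le).trans (hS.adj n ρ ξ hξ _).1,
      (hS.adj n ρ ξ hξ _).2.trans (mul_le_mul_of_nonneg_left (hA w).2 (Real.exp_pos _).le)⟩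
  refine ⟨W, σ, h1, h2, fun i => ⟨(h3 i).1, abs_le.2 ⟨?_, ?_⟩⟩, h4, fun u i => ?_⟩
  · have := Real.log_le_log a0 (h3 i).1
    rw [Real.log_mul (Real.exp_pos _).ne' (inv_pos.2 K0).ne', Real.log_exp, Real.log_inv] at this
    linarith
  · have := Real.log_le_log (a0.trans_le (h3 i).1) (h3 i).2
    rwa [Real.log_mul (Real.exp_pos _).ne' K0.ne', Real.log_exp] at this
  · simpa only [Matrix.mulVec_mulVec] using h5 u i

variable {Γ E : Type} [Group Γ] [TopologicalSpace E] [MulAction Γ E] {C : Cov n Γ E}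

theorem B34 {a : C.I} {x : Cm n} (h : x ∈ C.B 3 a) : x ∈ C.B 4 a := C.B_mono (by norm_num) a h

/-- the jacobian matrix in two charts -/
theorem jm_ch {sh : E → Cm p} {U : Set E} (h : C.HolOn sh U) (g : Γ) {γ γ' : Γ} {a a' : C.I}
    {x x' : Cm n} (hx : x ∈ C.B 4 a) (hx' : x' ∈ C.B 4 a') (e : C.pt γ a x = C.pt γ' a' x')
    (hU : C.pt (g * γ') a' x' ∈ U) : jm (fun w => sh (C.pt (g * γ) a w)) x =
      jm (fun w => sh (C.pt (g * γ') a' w)) x' * jm (C.tr (γ'⁻¹ * γ) a a') x := by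
  obtain ⟨o, e'⟩ := C.Ov_of_eq hx hx' e
  have h1 := J.jm_comp (s := C.tr (γ'⁻¹ * γ) a a') (t := fun w => sh (C.pt (g * γ') a' w)) (z := x)
    (C.an_tr o).differentiableAt (e'.symm ▸ (h _ _ _ hx' hU).differentiableAt)
  rw [e'] at h1
  rw [← h1]
  have h2 : (fun w => sh (C.pt (g * γ) a w)) =ᶠ[𝓝 x]
      fun w => sh (C.pt (g * γ') a' (C.tr (γ'⁻¹ * γ) a a' w)) :=
    (C.ev_Ov o).mono fun w hw => by simp only [C.pt_tr hw, mul_assoc, mul_inv_cancel_left]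
  simp only [jm, h2.fderiv_eq]

namespace Par'
variable (P : Par)

theorem Z_le_B : (P.Z : ℝ) ≤ P.B :=
  (le_mul_of_one_le_right P.Z_pos.le P.one_le_β).trans P.Zβ_le_B

theorem Z_le_t : (P.Z : ℝ) ≤ P.t := (Z_le_B P).trans P.B_le_t

theorem one_le_t : 1 ≤ P.t := P.one_le_Z.trans (Z_le_t P)

theorem hi_le_B : P.hi ≤ P.B := le_trans (le_mul_of_one_le_left (zero_le_one.trans P.one_le_hi)
  (one_le_mul_of_one_le_of_one_le (one_le_pow₀ P.one_le_Z) P.one_le_TT)) P.hi_le_B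

end Par'

/-- `St8` from the rows Y1, Y2, Y3 -/
theorem st8_of' (h41 : St41) (h : St8') : St8 := by
  intro n Γ E _ _ _ _ _ _ _ _ C μ F T hμ hS _ R ε j hε
  obtain ⟨K, Z₁, h1⟩ := h41 n Γ E C
  obtain ⟨Z₂, h2⟩ := h n Γ E C μ F T hμ hS K R ε j hε
  refine ⟨max Z₁ Z₂, fun Z hZ => ?_⟩
  obtain ⟨P, h3, h4⟩ := h2 Z (le_of_max_le_right hZ)
  exact ⟨P, h3, fun S hG _ _ => h4 S hG (h1 P (h3 ▸ le_of_max_le_left hZ) _ S hG)⟩

end Vale.Agent.P284Y.Y9
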