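import Vale.Agent.P284Y.Y9.Bas
import Vale.Agent.P284Y.Y9.Lo
import Vale.Agent.P284Y.A.A10

/-!
# P284Y, row Y9: the lower bound in a tube
-/

open scoped ContDiff Topology ComplexOrder ENNReal Matrix
open Filter Set Function Metric MeasureTheory

noncomputable section

namespace Vale.Agent.P284Y.Y9.L63

open Vale.Agent.P272.K Vale.Agent.P284Z Vale.Agent.P284Z.J Vale.Agent.P284Y.A Vale.Agent.P284Y.Lib

variable {n : ℕ} {Γ E : Type} [Group Γ] [TopologicalSpace E] [MulAction Γ E] {C : Cov n Γ E}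
  {F : Fol C} {T : Tube F}

/-- the regularised Seshadri function -/
theorem sesh_reg {t : Cm F.p} {τ ε : ℝ} (σ : Sesh T t τ) (hτ : 0 < τ) (hε : 0 < ε) (h1 : ε ≤ 1) :
    (∀ y, C.SmAt (fun y => τ * Real.log ((σ.P y + ε) / 2)) y) ∧
    (∀ γ a, ∀ z ∈ C.B 4 a, (C.om 1 (fun y => τ * Real.log ((σ.P y + ε) / 2)) γ a z).PosSemidef) ∧
    ∀ y, τ * Real.log ((σ.P y + ε) / 2) ≤ 0 := by
  have h0 : ∀ y, 0 < σ.P y + ε := fun y => add_pos_of_nonneg_of_pos (σ.nonneg y) hε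
  refine ⟨fun y γ a z hz e => contDiffAt_const.mul ((((σ.sm y γ a z hz e).add
    contDiffAt_const).div_const 2).log (half_pos (h0 _)).ne'), fun γ a z hz => ?_, fun y =>
    mul_nonpos_of_nonneg_of_nonpos hτ.le (Real.log_nonpos (half_pos (h0 y)).le
      (by linarith [σ.le_one y]))⟩
  have r2 : ∀ w ∈ C.B 4 a, ContDiffAt ℝ 2 (fun w => τ⁻¹ * C.ρ a w) w := fun w hw =>
    contDiffAt_const.mul ((C.ρ_sm a w hw).of_le two_le)
  have h2 : Psh (fun w => τ⁻¹ * C.ρ a w) (C.B 4 a) := psh_of_cHess fun w hw => ⟨r2 w hw, by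
    rw [C2.cHess_const_mul _ ((C.ρ_sm a w hw).of_le two_le)]
    exact psd_smul (C.ρ_pos a w hw).posSemidef (inv_pos.2 hτ).le⟩
  have h3 := ((σ.lpsh γ a).add ((lpsh_const hε.le _).mul_exp h2 (.of_cont fun w hw =>
    (r2 w hw).continuousAt.continuousWithinAt))).congr
    (Q := fun w => (σ.P (C.pt γ a w) + ε) * Real.exp (τ⁻¹ * C.ρ a w)) fun w _ => by
      simp only [add_mul, div_eq_inv_mul]
  have h4 : ContDiffAt ℝ 2 (fun w => (σ.P (C.pt γ a w) + ε) * Real.exp (τ⁻¹ * C.ρ a w)) z :=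
    (((σ.sm _ γ a z hz rfl).of_le two_le).add contDiffAt_const).mul (r2 z hz).exp
  have h5 := mul_pos (h0 (C.pt γ a z)) (Real.exp_pos (τ⁻¹ * C.ρ a z))
  have h6 := psd_smul (h3.cHess_psd (isOpen_ball.mem_nhds hz) h5 h4) hτ.le
  rw [← C2.cHess_const_mul τ (h4.log h5.ne'),
    ← hess_const_add (-(τ * Real.log 2)) (contDiffAt_const.mul (h4.log h5.ne'))] at h6
  refine (congrArg (fun f => (cHess f z).PosSemidef) (funext fun w => ?_)).mp h6
  simp only [Real.log_mul (h0 _).ne' (Real.exp_pos _).ne', Real.log_exp,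
    Real.log_div (h0 _).ne' two_ne_zero]
  field_simp
  ring

/-- the final count -/
theorem lt_num {p : ℕ} {η e c s q t x G d : ℝ} (h0 : 0 < η) (h1 : η ≤ 1) (he : (2 * p + 4) * η ≤ e)
    (hc : 0 ≤ c) (hs : 0 < s) (hq : 0 < q) (ht : 0 < t) (hx : 0 ≤ x) (hG : 0 ≤ G) (hcs : c ≤ η * s)
    (hd : 3 / η ≤ d) (h : (1 - η) * x * (t * s - η * (t * s)) ^ (p + 1 + 1) /
      ((((p + 1 : ℕ) : ℝ) + 1) * (s / q * (s + c) ^ p)) ≤ (1 + 3 * Real.exp (-d)) * G) :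
    (1 - e) * (x / (p + 2) * t ^ (p + 2) * q * s) ≤ G := by
  have a0 : 0 ≤ 1 - η := sub_nonneg.2 h1
  have h2 : (1 - η) * (1 + 3 * Real.exp (-d)) ≤ 1 := by
    have h3 : 3 * Real.exp (-d) ≤ η := by
      rw [Real.exp_neg, ← div_eq_mul_inv, div_le_iff₀ (Real.exp_pos _), ← div_le_iff₀' h0]
      linarith [Real.add_one_le_exp d]
    nlinarith [Real.exp_pos (-d)]
  have h3 : ((1 - η) * (s + c)) ^ p ≤ s ^ p := pow_le_pow_left₀ (by positivity) (by nlinarith) p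
  have h4 : 1 - e ≤ (1 - η) ^ (2 * p + 4) := by
    have := one_add_mul_le_pow (a := -η) (by linarith) (2 * p + 4)
    push_cast at this
    rw [← sub_eq_add_neg] at this
    linarith
  have h5 := (mul_le_mul_of_nonneg_left h a0).trans
    ((mul_assoc _ _ _).symm.trans_le (mul_le_of_le_one_left hG h2))
  refine (mul_le_mul_of_nonneg_right h4 (by positivity)).trans (le_trans ?_ h5)
  have h6 := mul_le_mul_of_nonneg_left h3
    (show 0 ≤ (1 - η) ^ (p + 4) * x * t ^ (p + 2) * q * s / (p + 2) / (s + c) ^ p by positivity)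
  refine le_of_eq_of_le ?_ (h6.trans_eq ?_)
  · rw [mul_pow]
    field_simp
    ring
  · rw [show t * s - η * (t * s) = (1 - η) * t * s by ring, mul_pow, mul_pow]
    push_cast
    field_simp
    ring

theorem mul_exp_lt {x s : ℝ} (h : x ≤ s) : x * Real.exp (-s) < 1 := by
  rw [Real.exp_neg, ← div_eq_mul_inv, div_lt_one (Real.exp_pos _)]
  linarith [Real.add_one_le_exp s]

theorem le_exp_half {x s : ℝ} (h0 : 0 ≤ x) (h : x ^ 2 ≤ Real.exp (-s)) : x ≤ Real.exp (-(s / 2)) := by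
  rwa [show -s = -(s / 2) + -(s / 2) by ring, Real.exp_add, ← sq,
    pow_le_pow_iff_left₀ h0 (Real.exp_pos _).le two_ne_zero] at h

/-- the total shift -/
theorem lt_del (P : Par) {s η K Lr c CF A c₁ x : ℝ} {n : ℕ} (hs : s ∈ Icc P.lo P.hi) (η0 : 0 < η)
    (η1 : η ≤ 1) (hc : 0 ≤ c) (CF0 : 0 ≤ CF) (p2 : 3 * (K + Lr + 76 + c) / η ≤ P.Z)
    (p3 : 6 * CF / η ≤ P.Z) (p4 : c₁ / η ≤ P.Z) (p9 : (n : ℝ) ≤ P.Z) (q1 : 12 * A / η ≤ P.lo)
    (hx : x = P.sw s ∨ x = s + c₁) :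
    K * P.B + CF * P.β * (s + n) + P.m + 4 * P.t * A + P.B * (Lr + 11) + c + x ≤ η * (P.t * s) := by
  have Zs : (P.Z : ℝ) ≤ s := P.Z_le_lo.trans hs.1
  have s1 : 1 ≤ s := P.one_le_Z.trans Zs
  have s0 : 0 < s := one_pos.trans_le s1
  have sw1 := P.le_sw s0.le
  have t0 := P.t_pos
  rw [div_le_iff₀ η0] at p2 p3 p4 q1
  have k1 : x ≤ P.B := by
    have k2 := (mul_le_mul_of_nonneg_right (P.Z_ge'.trans (P.Z_le_pow (a := 8) (by norm_num)))
      (s0.le.trans sw1)).trans (P.sw_le_B hs.2)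
    have k3 := mul_le_of_le_one_right P.Z_pos.le η1
    rcases hx with rfl | rfl <;> linarith
  have k2 := mul_le_mul_of_nonneg_left (P.ZB_le_t.trans (le_mul_of_one_le_right t0.le s1)) η0.le
  have k3 := mul_le_mul_of_nonneg_right p2 P.B_pos.le
  have k4 := mul_le_mul_of_nonneg_left (p3.trans (mul_le_mul_of_nonneg_right P.Z_le_TT η0.le))
    (mul_pos P.β_pos s0).le
  have k5 := mul_le_mul_of_nonneg_left (p9.trans Zs) (mul_nonneg CF0 P.β_pos.le)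
  have k6 := mul_le_mul_of_nonneg_left (q1.trans (mul_le_mul_of_nonneg_right hs.1 η0.le)) t0.le
  have k7 := le_mul_of_one_le_right hc P.one_le_B
  have k8 : P.β * s * (P.TT * η) = η * (P.t * s) := by rw [Par.t]; ring
  rw [Par.m]
  linarith

variable {γ : Γ} {a : C.I} {z : Cm n} {P : Par} {s : ℝ}

/-- the probe with the standard frame -/
abbrev pb1 (P : Par) (γ : Γ) (a : C.I) (z : Cm n) (s : ℝ) : Pb C := ⟨γ, a, z, 1, s, 0, P.sw s⟩

theorem ok1 (hz : z ∈ C.B 1 a) (hs : s ∈ Icc P.lo P.hi) (γ : Γ) : (pb1 P γ a z s).Ok P := by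
  have s0 := P.lo_pos.trans_le hs.1
  have sw1 := P.le_sw s0.le
  refine ⟨C.B_mono (by norm_num) a hz, fun u => ?_, hs.1, hs.2, by simpa using (Real.exp_pos _).le,
    by linarith, le_mul_of_one_le_left (by linarith) (by linarith [P.one_le_Z])⟩
  rw [Matrix.one_mulVec]
  exact ⟨mul_le_of_le_one_left (J.nsq_nonneg u) (Real.exp_le_one_iff.2 (by linarith)),
    le_mul_of_one_le_left (J.nsq_nonneg u) (Real.one_le_exp (by linarith))⟩

variable [MeasurableSpace E] {μ : Measure (E × ℂ)} {S : MAS (P.Q C) μ} {K : ℝ}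

theorem G_pb1 (hR : R41 P S K) (hz : z ∈ C.B 1 a) (hs : s ∈ Icc P.lo P.hi) (γ : Γ) :
    S.G ((pb1 P γ a z s).W P (P.t * s)) ≤ P.GG S s := by
  refine le_of_eq_of_le ?_ (hR.g_le s hs a z (C.B_mono (by norm_num) a hz))
  rw [← (hR.act γ 1 0 _ norm_one (hR.densW _ _ (ok1 hz hs γ))).2.2]
  congr 1
  ext y
  have := hR.sym (pb1 P 1 a z s) γ 1 0 y (ok1 hz hs 1) norm_one
  simp only [mul_one, mul_zero, add_zero] at this
  exact congrArg (Real.exp (P.t * s) * ·) this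

/-- lower bound away from `w = 0` -/
theorem low_w (hR : R41 P S K) (hz : z ∈ C.B 1 a) (hs : s ∈ Icc P.lo P.hi) {r : ℝ} (r0 : 0 < r)
    {y : E × ℂ} (h1 : r / 2 ≤ ‖y.2‖) (h2 : ‖y.2‖ < 1 / 2) :
    -(P.B * (-Real.log (r ^ 2 / 4) + 11)) ≤ S.φ ((pb1 P γ a z s).W P (P.t * s)) y := by
  have s0 := P.lo_pos.trans_le hs.1
  have B0 := P.B_pos
  have k4 : P.t * s / P.sw s = P.B := by
    rw [← P.B_mul_sw, mul_div_cancel_right₀ _ (s0.trans_le (P.le_sw s0.le)).ne']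
  have k5 := (hR.low Unit {()} (fun _ => pb1 P γ a z s) (fun _ => P.t * s) _
    (hR.densW _ (P.t * s) (ok1 hz hs γ)) (fun _ _ => ⟨ok1 hz hs γ, (mul_pos P.t_pos s0).le⟩)
    (by have := P.Z_ge; simp only [Finset.card_singleton]; omega)
    (by rw [Finset.sum_singleton]; exact k4.trans_le (by linarith))
    (by rw [Finset.sum_singleton])).1 y h2
  rw [Finset.sum_singleton, k4, sub_zero] at k5
  have k6 : Real.log (r ^ 2 / 4) ≤ Real.log (‖y.2‖ ^ 2 + Real.exp (-P.sw s)) :=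
    Real.log_le_log (by positivity) (by nlinarith [Real.exp_pos (-P.sw s)])
  have k7 : ‖y.2‖ ^ 2 ≤ 1 / 4 := by nlinarith [norm_nonneg y.2]
  linarith [mul_le_mul_of_nonneg_left k6 B0.le, mul_le_mul_of_nonneg_left k7 B0.le]

/-- the probe is below the barrier -/
theorem sesh_sup (hR : R41 P S K) (hz : z ∈ C.B 1 a) (hs : s ∈ Icc P.lo P.hi) {KT τ : ℝ}
    (σ : Sesh T (T.sh (C.pt γ a z)) τ) (KT1 : 1 ≤ KT)
    (hK : ∀ v, nsq v ≤ KT⁻¹ → C.pt γ a (z + v) ∈ T.U ∧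
      nsq (T.sh (C.pt γ a (z + v)) - T.sh (C.pt γ a z)) ≤ KT * nsq v) (p7 : KT ≤ s)
    (q2 : 2 * (σ.κ * KT) ≤ s) (q3 : KT / σ.r ^ 2 ≤ s) (y : E × ℂ) :
    (pb1 P γ a z s).W P (P.t * s) y ≤
      Real.exp (-(P.β / 2 * (8 * P.TT * Real.log ((σ.P y.1 + Real.exp (-(s / 2))) / 2)))) := by
  have s1 : 1 ≤ s := KT1.trans p7
  by_cases h : (pb1 P γ a z s).p P y = 0
  · simpa [Pb.W, h] using (Real.exp_pos _).le
  obtain ⟨⟨u, hu, hy⟩, -⟩ := hR.supp _ (ok1 hz hs γ) y h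
  have v1 : nsq (((Real.exp (-(s / 2)) : ℝ) : ℂ) • (1 : Mx n) *ᵥ u) ≤ Real.exp (-s) := by
    rw [Matrix.one_mulVec, nsq_smul', sq, ← Real.exp_add, show -(s / 2) + -(s / 2) = -s by ring]
    exact mul_le_of_le_one_right (Real.exp_pos _).le (by simpa using hu)
  obtain ⟨v2, v3⟩ := hK _ (v1.trans (by
    rw [inv_eq_one_div, le_div_iff₀' (by linarith)]
    exact (mul_exp_lt p7).le))
  replace v3 := v3.trans (mul_le_mul_of_nonneg_left v1 (by linarith))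
  have v4 := σ.inn _ v2 (lt_of_pow_lt_pow_left₀ 2 σ.r_pos.le ((sq_le_nsq _).trans_lt
    (v3.trans_lt (by
      have := mul_exp_lt q3
      rwa [div_mul_eq_mul_div, div_lt_one (pow_pos σ.r_pos 2)] at this))))
  have v5 : σ.P y.1 ≤ Real.exp (-(s / 2)) := by
    rw [hy]
    refine (v4.trans_le (mul_le_mul_of_nonneg_left v3 σ.κ_pos.le)).trans ?_
    rw [← mul_assoc, show -(s / 2) = s / 2 + -s by ring, Real.exp_add]
    exact mul_le_mul_of_nonneg_right (by linarith [Real.add_one_le_exp (s / 2)]) (Real.exp_pos _).le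
  have v6 : Real.log ((σ.P y.1 + Real.exp (-(s / 2))) / 2) ≤ -(s / 2) := by
    rw [Real.log_le_iff_le_exp (by have := σ.nonneg y.1; positivity)]
    linarith
  refine (mul_le_mul_of_nonneg_left (hR.sup _ (ok1 hz hs γ) y).2 (Real.exp_pos _).le).trans ?_
  rw [← Real.exp_add, Real.exp_le_exp]
  have v7 : P.B / P.Z ≤ P.t * s := (div_le_self P.B_pos.le P.one_le_Z).trans
    (P.B_le_t.trans (le_mul_of_one_le_right P.t_pos.le s1))
  have v8 := mul_le_mul_of_nonneg_left v6 P.t_pos.le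
  rw [Par.t] at v7 v8 ⊢
  linarith

omit [MeasurableSpace E] in
theorem sesh_ge {t : Cm F.p} {τ r ε : ℝ} (σ : Sesh T t τ) (r0 : 0 < r) (hε : 0 < ε) {y : E}
    {i : Fin F.p} (hi : r / 2 ≤ ‖(T.sh y - t) i‖) :
    -|Real.log (min (σ.κ * (r / 2) ^ 2) σ.κ' / 2)| ≤ Real.log ((σ.P y + ε) / 2) := by
  have k3 : min (σ.κ * (r / 2) ^ 2) σ.κ' ≤ σ.P y := by
    by_cases h : y ∈ T.U ∧ ‖T.sh y - t‖ < σ.r
    · rw [σ.inn _ h.1 h.2]
      exact min_le_of_left_le (mul_le_mul_of_nonneg_left ((pow_le_pow_left₀ (half_pos r0).le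
        hi 2).trans (sq_le_nsq' _ i)) σ.κ_pos.le)
    · exact min_le_of_right_le (σ.out _ h)
  exact (neg_abs_le _).trans (Real.log_le_log
    (by have := σ.κ_pos; have := σ.κ'_pos; positivity) (by linarith))

/-- the well spreads along the fibres -/
theorem deep1 (hG : Gen S) (hR : R41 P S K) (hz : z ∈ C.B 1 a) (hs : s ∈ Icc P.lo P.hi)
    {CF c S₀ : ℝ} (c0 : 0 < c) (h10 : T.Prop10 γ a z CF c S₀) (p6 : S₀ ≤ s) {y : E × ℂ}
    (sb : QP C P.β (fun y' => S.φ ((pb1 P γ a z s).W P (P.t * s)) (y', y.2)) T.U) (hy : y.1 ∈ T.U)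
    (e0 : ‖y.2‖ ^ 2 ≤ Real.exp (-P.sw s)) (e1 : ∀ i, ‖(T.sh y.1 - T.sh (C.pt γ a z)) i‖ ^ 2 ≤
      Real.exp (-(s + (n + 2 * |Real.log c|)))) :
    S.φ ((pb1 P γ a z s).W P (P.t * s)) y ≤ -(P.t * s) + (K * P.B + CF * P.β * (s + n)) := by
  have dn := hR.densW _ (P.t * s) (ok1 hz hs γ)
  have ts := mul_pos P.t_pos (P.lo_pos.trans_le hs.1)
  refine (h10 P.β _ (P.t * s - K * P.B) (s + n) P.β_pos.le sb
    (.of_cont ((hG.cont _ dn).comp (by fun_prop)).continuousOn)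
    (by linarith [n.cast_nonneg (α := ℝ)]) (fun z' hz' => ?_) y.1 hy ?_).trans_eq (by ring)
  · refine (hR.dom₀ (ok1 hz hs γ) (by linarith) dn le_rfl
      ⟨⟨((Real.exp (s / 2) : ℝ) : ℂ) • (z' - z), ?_, ?_⟩, ?_⟩).trans_eq (by ring)
    · have k2 := pow_le_pow_left₀ (norm_nonneg _) (mem_closedBall_iff_norm.1 hz') 2
      have k3 := (P284Z.K.nsq_le (z' - z)).trans (mul_le_mul_of_nonneg_left k2 n.cast_nonneg)
      rw [nsq_smul']
      refine (mul_le_mul_of_nonneg_left k3 (sq_nonneg _)).trans ?_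
      rw [mul_left_comm, ← mul_pow, ← Real.exp_add, sq, ← Real.exp_add,
        show s / 2 + -(s + n) / 2 + (s / 2 + -(s + n) / 2) = -n by ring, Real.exp_neg,
        ← div_eq_mul_inv]
      exact (div_le_one_of_le₀ (by linarith [Real.add_one_le_exp n]) (Real.exp_pos _).le).trans
        (one_le_pow₀ (by linarith [P.q_pos]))
    · change C.pt γ a z' = C.pt γ a (z + ((Real.exp (-(s / 2)) : ℝ) : ℂ) • (1 : Mx n) *ᵥ _)
      rw [Matrix.one_mulVec, smul_smul, ← Complex.ofReal_mul, ← Real.exp_add, neg_add_cancel,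
        Real.exp_zero, Complex.ofReal_one, one_smul, add_sub_cancel]
    · rw [sub_zero]
      linarith [Real.exp_pos (-(P.sw s / 2)), le_exp_half (norm_nonneg _) e0]
  · rw [pi_norm_le_iff_of_nonneg (by positivity)]
    refine fun i => (le_exp_half (norm_nonneg _) (e1 i)).trans ?_
    rw [← Real.exp_log c0, ← Real.exp_add, Real.exp_le_exp, Real.log_exp]
    linarith [neg_abs_le (Real.log c)]

theorem stLT_of (hPM : StPM) (hL : StModL) (hSB : StSB) (hTK : StTK) : StLT := by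
  intro n Γ E _ _ _ _ _ _ _ C μ F T M V₀ K e hμ m1 m2 m3 hV0 ⟨t, ht, hVt⟩ he hS
  have hO : IsOpen {t ∈ M.O | V₀ < M.V t} := M.V_cont.isOpen_inter_preimage M.opnO isOpen_Ioi
  obtain ⟨t₀, ht₀, hσ⟩ := Measure.exists_mem_of_measure_ne_zero_of_ae
    (hO.measure_ne_zero volume ⟨t, ht, hVt⟩) (ae_restrict_of_ae hS)
  obtain ⟨r₀, hr₀, hb₀⟩ := nhds_basis_closedBall.mem_iff.1 (hO.mem_nhds ht₀)
  have t1 : t₀ ∈ ball T.t₁ (T.r / 2) := m3 ▸ ht₀.1
  have t2 : t₀ ∈ ball T.t₁ T.r := ball_subset_ball (half_le_self T.r_pos.le) t1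
  obtain ⟨x, hx, rfl⟩ := (T.conn t₀ t2).nonempty
  obtain ⟨γ, a, z, hz, hy⟩ := C.cover x
  obtain rfl : x = C.pt γ a z := hy
  have z1 : z ∈ C.B 1 a := by simpa [Cov.B] using hz
  obtain ⟨CF, c, S₀, CF0, c0, -, h10⟩ := a10 n Γ E C F T γ a z (C.B_mono (by norm_num) a z1) hx
  obtain ⟨KT, KT1, hKT⟩ := hTK n Γ E C F T
  replace hKT := (hKT γ a z (C.B_mono (by norm_num) a z1) hx (mem_ball_iff_norm.1 t1).le).2
  obtain ⟨M', n1, n2, n3, -, n5⟩ := hL n F.p Γ E C μ M (T.sh (C.pt γ a z)) 1 (by simp)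
  obtain ⟨r, r0, r1, r2⟩ : ∃ r > (0 : ℝ), r ≤ 1 / 2 ∧ r ≤ r₀ :=
    ⟨min r₀ (1 / 2), by positivity, min_le_right _ _, min_le_left _ _⟩
  obtain ⟨η, η0, η1, η2⟩ : ∃ η > (0 : ℝ), η ≤ 1 ∧ (2 * F.p + 4) * η ≤ e := by
    have h : (2 * F.p + 4) * (min e 1 / (2 * F.p + 4)) = min e 1 := by field_simp
    exact ⟨min e 1 / (2 * F.p + 4), by positivity, div_le_one_of_le₀ (min_le_of_right_le
      (by linarith [F.p.cast_nonneg (α := ℝ)])) (by positivity), h.trans_le (min_le_left _ _)⟩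
  obtain ⟨K₀, hLo⟩ := stLo (F.p + 1) η (by omega) η0 η1
  have Lr0 : 0 ≤ -Real.log (r ^ 2 / 4) :=
    neg_nonneg.2 (Real.log_nonpos (by positivity) (by nlinarith))
  have hf : ∀ T' : ℝ, ∃ f : ℝ, 0 < T' → ∃ σ : Sesh T (T.sh (C.pt γ a z)) (8 * T'),
      12 * |Real.log (min (σ.κ * (r / 2) ^ 2) σ.κ' / 2)| / η ≤ f ∧ 2 * (σ.κ * KT) ≤ f ∧
        KT / σ.r ^ 2 ≤ f := fun T' => by
    by_cases h : 0 < T'
    · obtain ⟨σ⟩ := hσ t2 (8 * T') (by positivity)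
      exact ⟨max _ (max _ _), fun _ => ⟨σ, le_max_left _ _, le_max_of_le_right (le_max_left _ _),
        le_max_of_le_right (le_max_right _ _)⟩⟩
    · exact ⟨0, fun h' => (h h').elim⟩
  choose f hf using hf
  have c0' : 0 ≤ Real.log (((F.p + 1 : ℕ) : ℝ) + 1) + n + 4 + |K₀| := by
    have := Real.log_nonneg (show 1 ≤ ((F.p + 1 : ℕ) : ℝ) + 1 by
      linarith [(F.p + 1).cast_nonneg (α := ℝ)])
    positivity
  refine (((((ev_lo f).and (ev_Z (3 * (K + -Real.log (r ^ 2 / 4) + 76 +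
    (Real.log (((F.p + 1 : ℕ) : ℝ) + 1) + n + 4 + |K₀|)) / η))).and ((ev_Z (6 * CF / η)).and
    (ev_Z ((n + 2 * |Real.log c|) / η)))).and
    (((ev_Z (3 / η)).and (ev_Z S₀)).and ((ev_Z KT).and (ev_Z (1 / r ^ 2))))).and (ev_Z n)).mono ?_
  rintro P ⟨⟨⟨⟨p1, p2⟩, p3, p4⟩, ⟨p5, p6⟩, p7, p8⟩, p9⟩ S hG hR s hs
  obtain ⟨σ, q1, q2, q3⟩ := hf P.TT P.TT_pos
  have Zs : (P.Z : ℝ) ≤ s := P.Z_le_lo.trans hs.1
  have s0 : 0 < s := P.Z_pos.trans_le Zs
  have B0 := P.B_pos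
  have t0 := P.t_pos
  have β0 := P.β_pos
  have ok := ok1 z1 hs γ
  have dn := hR.densW _ (P.t * s) ok
  obtain ⟨X, x1, x2, x3, x4, -, x6⟩ := hPM n F.p Γ E C μ M' P.β P.m 0 hμ β0 P.β_le_m hG.pg
  obtain ⟨sb1, sb2⟩ := hSB n Γ E C P.β P.m _ S _ hG β0 P.m_pos dn
  have π0 : ∀ y, X.π y 0 = y.2 := fun y => by simp [x2]
  have π1 : ∀ y i, X.π y i.succ = (T.sh y.1 - T.sh (C.pt γ a z)) i := fun y i => by
    simp [x2, n2, m2]
  have tl : ∀ v : Cm (F.p + 1), ‖v‖ ≤ r → T.sh (C.pt γ a z) + (1 : Mx F.p)ᴴ *ᵥ Fin.tail v ∈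
      closedBall (T.sh (C.pt γ a z)) r₀ := fun v hv => by
    rw [Matrix.conjTranspose_one, Matrix.one_mulVec, mem_closedBall_iff_norm, add_sub_cancel_left,
      pi_norm_le_iff_of_nonneg hr₀.le]
    exact fun i => (norm_le_pi_norm v _).trans (hv.trans r2)
  obtain ⟨u1, u2, u3⟩ := sesh_reg σ (mul_pos (by norm_num) P.TT_pos) (Real.exp_pos (-(s / 2)))
    (Real.exp_le_one_iff.2 (by linarith))
  have sb3 := sb1 _ u1 u2 u3 (sesh_sup hR z1 hs σ KT1
    (fun v hv => ⟨(hKT v hv).2.1, (hKT v hv).2.2.1⟩) (p7.trans Zs) (q2.trans (p1.trans hs.1))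
    (q3.trans (p1.trans hs.1)))
  have sg := fun (y : E) i => sesh_ge σ r0 (Real.exp_pos (-(s / 2))) (y := y) (i := i)
  generalize hA : |Real.log (min (σ.κ * (r / 2) ^ 2) σ.κ' / 2)| = A at q1 sg
  have k1 : 0 ≤ 4 * P.t * A := hA ▸ by positivity
  have k2 : 0 ≤ P.B * (-Real.log (r ^ 2 / 4) + 11) := by positivity
  have n0 := n.cast_nonneg (α := ℝ)
  have h := hLo (n + 1) (E × ℂ) _ _ S X _ r (P.t * s) (η * (P.t * s))
    (K * P.B + CF * P.β * (s + n)) (4 * P.t * A + P.B * (-Real.log (r ^ 2 / 4) + 11) + (n + 3))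
    (P.β ^ n / P.β ^ F.p * V₀) (Fin.cons (P.sw s) fun _ => s + (n + 2 * |Real.log c|)) hG
    (hR.dens _ ok).1 r0 (by linarith)
    (fun v hv => by rw [x3, n3]; exact (hb₀ (tl v (mem_closedBall_zero_iff.1 hv))).1)
    (by positivity)
    (fun v hv => by
      rw [x4, n5]
      exact mul_le_mul_of_nonneg_left (hb₀ (tl v (mem_ball_zero_iff.1 hv).le)).2.le (by positivity))
    (fun i => by
      have h1 : s ≤ (Fin.cons (P.sw s) fun _ => s + (n + 2 * |Real.log c|) :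
          Fin (F.p + 1) → ℝ) i :=
        Fin.cases (P.le_sw s0.le) (fun _ => le_add_of_nonneg_right (by positivity)) i
      refine ⟨s0.trans_le h1, (Real.exp_le_exp.2 (neg_le_neg h1)).trans_lt ?_⟩
      have := mul_exp_lt (p8.trans Zs)
      rwa [div_mul_eq_mul_div, one_mul, div_lt_one (by positivity)] at this)
    (by linarith) (by have := hR.K_ge; positivity)
    (fun y hy e1 e2 => by
      obtain ⟨i, hi⟩ : ∃ i, r / 2 ≤ ‖X.π y i‖ := by
        by_contra! h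
        exact e1.not_gt ((pi_norm_lt_iff (half_pos r0)).2 h)
      refine Fin.cases (fun hi => ?_) (fun i hi => ?_) i hi
      · exact le_trans (by linarith) (low_w hR z1 hs r0 (π0 y ▸ hi)
          ((π0 y ▸ (norm_le_pi_norm _ 0).trans_lt e2).trans_le r1))
      · have k5 := mul_le_mul_of_nonneg_left (sg y.1 i (π1 y i ▸ hi)) t0.le
        refine le_trans ?_ (sb3 y)
        rw [Par.t] at k5 ⊢
        linarith)
    (fun y hy e1 => deep1 hG hR z1 hs c0 h10 (p6.trans Zs) (sb2 _ _)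
      (by rw [x1, n1, m1] at hy; exact hy.1.1) (π0 y ▸ e1 0) fun i => π1 y i ▸ e1 i.succ)
    (fun i => by
      have := lt_del P hs η0 η1 c0' CF0 p2 p3 p4 p9 (q1.trans p1)
        (x := (Fin.cons (P.sw s) fun _ => s + (n + 2 * |Real.log c|) : Fin (F.p + 1) → ℝ) i)
        (Fin.cases (.inl rfl) (fun _ => .inr rfl) i)
      rw [x6]
      linarith [le_abs_self K₀])
    (by positivity) (mul_le_of_le_one_left (by positivity) η1)
  rw [Fin.prod_univ_succ, Fin.cons_zero] at h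
  simp only [Fin.cons_succ, Finset.prod_const, Finset.card_univ, Fintype.card_fin] at h
  have e1 : P.β ^ n / P.β ^ F.p = P.β ^ F.d := by
    rw [div_eq_iff (by positivity), ← pow_add, F.dim]
  rw [mul_assoc (1 - η), e1] at h
  have m0 := mR_pos (F.p + 1)
  refine le_trans (le_of_eq ?_) ((lt_num η0 η1 η2 (by positivity) s0 P.q_pos t0 (by positivity)
    (hG.G_nonneg _ dn) ?_ ?_ h).trans (G_pb1 hR z1 hs γ))
  · rw [md]
    ring
  · rw [div_le_iff₀' η0] at p4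
    exact p4.trans (mul_le_mul_of_nonneg_left Zs η0.le)
  · linarith [Par'.Z_le_B P, mul_nonneg B0.le Lr0]

end Vale.Agent.P284Y.Y9.L63
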