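import Vale.Agent.P284Y.Y9.Spec

/-!
# P284Y, row Y9: frames and singular values
-/

open scoped ContDiff Topology ComplexOrder ENNReal Matrix
open Filter Set Function Metric MeasureTheory

noncomputable section

namespace Vale.Agent.P284Y.Y9

open Vale.Agent.P272.K Vale.Agent.P284Z Vale.Agent.P284Z.J Vale.Agent.P284Y.A Vale.Agent.P284Y.Lib

namespace Sv

variable {n p : ℕ}

theorem nn (u : Cm n) : 0 ≤ nsq u := Finset.sum_nonneg fun _ _ => sq_nonneg _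

theorem dot (u : Cm n) : star u ⬝ᵥ u = (nsq u : ℝ) := by
  simp [nsq, dotProduct, Complex.conj_mul']

theorem adjv (A : Matrix (Fin p) (Fin n) ℂ) (w : Cm p) (u : Cm n) :
    star w ⬝ᵥ A *ᵥ u = star (Aᴴ *ᵥ w) ⬝ᵥ u := by
  rw [Matrix.star_mulVec, Matrix.conjTranspose_conjTranspose, Matrix.dotProduct_mulVec]

theorem quad (A : Matrix (Fin p) (Fin n) ℂ) (u : Cm n) :
    ((nsq (A *ᵥ u) : ℝ) : ℂ) = star u ⬝ᵥ (Aᴴ * A) *ᵥ u := by
  rw [← Matrix.mulVec_mulVec, adjv, Matrix.conjTranspose_conjTranspose, dot]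

theorem cs (u v : Cm n) : ‖star u ⬝ᵥ v‖ ^ 2 ≤ nsq u * nsq v := by
  refine le_trans (pow_le_pow_left₀ (norm_nonneg _) (norm_sum_le _ _) 2) ?_
  simpa [nsq] using Finset.sum_mul_sq_le_sq_mul_sq Finset.univ (fun i => ‖u i‖) fun i => ‖v i‖

theorem le_of_sq {x c : ℝ} (hc : 0 ≤ c) (h : x ^ 2 ≤ c * x) : x ≤ c := by
  by_contra! h1
  nlinarith

theorem adj_le {A : Matrix (Fin p) (Fin n) ℂ} {c : ℝ} (hc : 0 ≤ c)
    (h : ∀ u, nsq (A *ᵥ u) ≤ c * nsq u) (w : Cm p) : nsq (Aᴴ *ᵥ w) ≤ c * nsq w := by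
  have h1 := cs w (A *ᵥ (Aᴴ *ᵥ w))
  rw [adjv, dot, Complex.norm_real, Real.norm_eq_abs, sq_abs] at h1
  refine le_of_sq (mul_nonneg hc (nn w)) (h1.trans ?_)
  exact (mul_le_mul_of_nonneg_left (h _) (nn w)).trans_eq (by ring)

theorem eq_zero {u : Cm n} (h : nsq u ≤ 0) : u = 0 := funext fun i => by
  simpa using (Finset.sum_eq_zero_iff_of_nonneg fun _ _ => sq_nonneg _).1 (h.antisymm (nn u)) i
    (Finset.mem_univ i)

theorem unit {R : ℝ} {ξ : Mx n} (h : Fr R ξ) : IsUnit ξ.det := by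
  refine (Matrix.isUnit_iff_isUnit_det ξ).1 (Matrix.mulVec_injective_iff_isUnit.1 fun u v e => ?_)
  have h1 := (h (u - v)).1
  rw [Matrix.mulVec_sub, e, sub_self, show nsq (0 : Cm n) = 0 by simp [nsq]] at h1
  exact sub_eq_zero.1 (eq_zero (nonpos_of_mul_nonpos_right h1 (Real.exp_pos _)))

theorem flip {R x y : ℝ} : Real.exp (-R) * x ≤ y ↔ x ≤ Real.exp R * y := by
  rw [Real.exp_neg, inv_mul_le_iff₀ (Real.exp_pos R)]

theorem inv {R : ℝ} {ξ : Mx n} (h : Fr R ξ) : Fr R ξ⁻¹ := fun u => by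
  have h1 := h (ξ⁻¹ *ᵥ u)
  rw [Matrix.mulVec_mulVec, Matrix.mul_nonsing_inv _ (unit h), Matrix.one_mulVec] at h1
  exact ⟨flip.2 h1.2, flip.1 h1.1⟩

theorem adj {R : ℝ} {ξ : Mx n} (h : Fr R ξ) : Fr R ξᴴ := fun u => by
  refine ⟨flip.2 ?_, adj_le (Real.exp_pos _).le (fun v => (h v).2) u⟩
  have h1 := adj_le (Real.exp_pos _).le (fun v => (inv h v).2) (ξᴴ *ᵥ u)
  rwa [Matrix.mulVec_mulVec, ← Matrix.conjTranspose_mul, Matrix.mul_nonsing_inv _ (unit h),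
    Matrix.conjTranspose_one, Matrix.one_mulVec] at h1

theorem mul {R R' : ℝ} {ξ ζ : Mx n} (h : Fr R ξ) (h' : Fr R' ζ) : Fr (R + R') (ξ * ζ) := fun u => by
  rw [← Matrix.mulVec_mulVec, mul_add, neg_add, Real.exp_add, Real.exp_add, mul_assoc, mul_assoc]
  exact ⟨(mul_le_mul_of_nonneg_left (h' u).1 (Real.exp_pos _).le).trans (h _).1,
    (h _).2.trans (mul_le_mul_of_nonneg_left (h' u).2 (Real.exp_pos _).le)⟩

theorem nsq_diag (d : Fin n → ℝ) (u : Cm n) :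
    nsq (Matrix.diagonal (fun i => (d i : ℂ)) *ᵥ u) = ∑ i, d i ^ 2 * ‖u i‖ ^ 2 := by
  simp [nsq, Matrix.mulVec_diagonal, mul_pow]

theorem nsq_dg (m : Fin n → ℝ) (r : ℝ) (u : Cm n) :
    nsq (dg m r *ᵥ u) = ∑ i, Real.exp (-(r * m i)) * ‖u i‖ ^ 2 := by
  rw [dg, nsq_diag]
  refine Finset.sum_congr rfl fun i _ => ?_
  rw [sq, ← Real.exp_add]
  congr 2
  ring

theorem iso {W : Mx n} (h : Wᴴ * W = 1) (v : Cm n) : nsq (W *ᵥ v) = nsq v := by
  refine Complex.ofReal_injective ?_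
  rw [quad, h, Matrix.one_mulVec, dot]

/-- the spectral theorem -/
theorem spec {H : Mx n} (h : H.IsHermitian) : ∃ (U : Mx n) (σ : Fin n → ℝ), Uᴴ * U = 1 ∧
    U * Uᴴ = 1 ∧ Uᴴ * H * U = Matrix.diagonal fun i => (σ i : ℂ) := by
  refine ⟨h.eigenvectorUnitary, h.eigenvalues, h.eigenvectorUnitary.2.1, h.eigenvectorUnitary.2.2, ?_⟩
  have := h.conjStarAlgAut_star_eigenvectorUnitary
  rwa [Unitary.conjStarAlgAut_star_apply] at this

theorem nsq_of_diag {A : Matrix (Fin p) (Fin n) ℂ} {x : Fin n → ℝ}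
    (h : Aᴴ * A = Matrix.diagonal fun i => (x i : ℂ)) (u : Cm n) :
    nsq (A *ᵥ u) = ∑ i, x i * ‖u i‖ ^ 2 := by
  refine Complex.ofReal_injective ?_
  rw [quad, h]
  simp only [dotProduct, Matrix.mulVec_diagonal, Pi.star_apply, mul_left_comm _ (x _ : ℂ)]
  simp [Complex.conj_mul']

theorem nsq_single (i : Fin n) : nsq (Pi.single i 1 : Cm n) = 1 := by
  simp [nsq, Pi.single_apply, apply_ite]

theorem col_of_diag {A : Matrix (Fin p) (Fin n) ℂ} {x : Fin n → ℝ}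
    (h : Aᴴ * A = Matrix.diagonal fun i => (x i : ℂ)) (i : Fin n) :
    nsq (A *ᵥ Pi.single i 1) = x i := by
  rw [nsq_of_diag h]
  simp [Pi.single_apply, apply_ite]

end Sv

theorem stSvd : StSvd where
  adj _ _ _ := Sv.adj
  mul _ _ _ _ _ := Sv.mul
  mono _ _ _ _ h hR u := ⟨(mul_le_mul_of_nonneg_right (Real.exp_le_exp.2 (by linarith))
    (Sv.nn u)).trans (h u).1, (h u).2.trans (mul_le_mul_of_nonneg_right
      (Real.exp_le_exp.2 (by linarith)) (Sv.nn u))⟩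
  dg n m r R h u := by
    rw [Sv.nsq_dg, nsq, Finset.mul_sum, Finset.mul_sum]
    exact ⟨Finset.sum_le_sum fun i _ => mul_le_mul_of_nonneg_right
      (Real.exp_le_exp.2 (neg_le_neg (abs_le.1 (h i)).2)) (sq_nonneg _),
      Finset.sum_le_sum fun i _ => mul_le_mul_of_nonneg_right
        (Real.exp_le_exp.2 (neg_le.1 (abs_le.1 (h i)).1)) (sq_nonneg _)⟩
  svd n p A a b ha h := by
    obtain ⟨U, σ, h1, h2, h3⟩ := Sv.spec (Matrix.isHermitian_mul_conjTranspose_self A)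
    have h4 : (Aᴴ * U)ᴴ * (Aᴴ * U) = Matrix.diagonal fun i => (σ i : ℂ) := by
      rw [← h3, Matrix.conjTranspose_mul, Matrix.conjTranspose_conjTranspose]
      simp only [Matrix.mul_assoc]
    have h5 : ∀ i, nsq (Aᴴ *ᵥ (U *ᵥ Pi.single i 1)) = σ i := fun i => by
      rw [Matrix.mulVec_mulVec, Sv.col_of_diag h4]
    have h6 : ∀ i, a ≤ σ i ∧ σ i ≤ b := fun i => by
      simpa only [h5, Sv.iso h1, Sv.nsq_single, mul_one] using h (U *ᵥ Pi.single i 1)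
    have h7 : (Uᴴ)ᴴ * Uᴴ = 1 := by rwa [Matrix.conjTranspose_conjTranspose]
    refine ⟨Uᴴ, σ, h7, Sv.iso h7, h6, ?_, fun u i => ?_⟩
    · have h8 := congrArg Matrix.det h3
      rw [Matrix.det_mul, mul_comm, Matrix.det_mul, ← mul_assoc, ← Matrix.det_mul, h2,
        Matrix.det_one, one_mul, Matrix.det_diagonal, ← Complex.ofReal_prod] at h8
      rw [lds, h8, Complex.ofReal_re, Real.log_prod fun i _ => (ha.trans_le (h6 i).1).ne']
    · have h8 := Sv.cs (Aᴴ *ᵥ (U *ᵥ Pi.single i 1)) u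
      rw [h5, ← Sv.adjv, ← Matrix.conjTranspose_conjTranspose U, ← Sv.adjv] at h8
      simpa [dotProduct, Pi.single_apply, apply_ite] using h8

end Vale.Agent.P284Y.Y9
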