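import Vale.Agent.P284Y.Y9.ModT
import Vale.Agent.P284Y.Y9.PMod
import Vale.Agent.P284Y.Y9.Up
import Vale.Agent.P284Y.Y9.TK
import Vale.Agent.P284Y.Y9.SB
import Vale.Agent.P284Y.Y9.Cv
import Vale.Agent.P284Y.Y9.Svd
import Vale.Agent.P284Y.Y9.Ad
import Vale.Agent.P284Y.Y9.UM
import Vale.Agent.P284Y.Y9.UT
import Vale.Agent.P284Y.Y9.UC
import Vale.Agent.P284Y.Y9.LT63
import Vale.Agent.P284Y.Y9.X1
import Vale.Agent.P284Y.Y.S41

/-!
# P284Y, rows Y9 and X1, and the choice of the parameters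
-/

namespace Vale.Agent.P284Y

open Y9

theorem st8' : St8' :=
  st8_of stModT (stUT_of stModL stSvd stTK (stUM_of stPM stUp)) (L63.stLT_of stPM stModL stSB stTK)
    (stUC_of stModC stModL (stUM_of stPM stUp)) (stX1_of stSvd stAd stTK stCv)

theorem st8 : St8 := st8_of' st41 st8'

end Vale.Agent.P284Y
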