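import Vale.Agent.P284Y.Y9.ModC
import Vale.Agent.P284Y.A.TubeOps
import Vale.Agent.P284Z.K.K6e

/-!
# P284Y, row Y9: the model of a tube
-/

set_option linter.all false

open scoped ContDiff Topology ComplexOrder ENNReal Matrix
open Filter Set Function Metric MeasureTheory

noncomputable section

namespace Vale.Agent.P284Y.Y9

open Vale.Agent.P272.K Vale.Agent.P284Z Vale.Agent.P284Z.J Vale.Agent.P284Y.A Vale.Agent.P284Y.Lib
open K.K6e (gq mp jm_congr)

variable {n p : ℕ} {Γ E : Type} [Group Γ] [TopologicalSpace E] [MulAction Γ E] {C : Cov n Γ E}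

theorem coA_ch (S : Matrix (Fin p) (Fin n) ℂ) {J G : Mx n} (h : (pb J G).det ≠ 0) :
    coA (S * J) (pb J G) = coA S G := by
  rw [coA, coA, ← MC.coA_pb h]
  simp only [coA, Matrix.map_mul, Matrix.transpose_mul, Matrix.mul_assoc]

theorem coA_pos {S : Matrix (Fin p) (Fin n) ℂ} {G : Mx n} (hS : Surjective S.mulVec)
    (hG : G.PosDef) : (coA S G).PosDef := by
  obtain ⟨R, hR⟩ := Matrix.mulVec_surjective_iff_exists_right_inverse.1 hS
  have h := hG.inv.conjTranspose_mul_mul_same (B := S.transpose)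
    (LeftInverse.injective (g := R.transpose.mulVec) fun x => by
      rw [Matrix.mulVec_mulVec, ← Matrix.transpose_mul, hR, Matrix.transpose_one, Matrix.one_mulVec])
  rwa [show S.transposeᴴ = S.map (starRingEnd ℂ) from rfl] at h

variable (C) in
/-- the dual metric on the base, as a function on `E` -/
def gA (s : E → Cm p) (y : E) : Mx p :=
  coA (jm (fun w => s (C.pt (C.ch₀ y).1 (C.ch₀ y).2.1 w)) (C.ch₀ y).2.2)
    (cHess (C.ρ (C.ch₀ y).2.1) (C.ch₀ y).2.2)

variable {s : E → Cm p} {U : Set E} {γ : Γ} {a : C.I} {z : Cm n}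

theorem gA_pt (hs : C.HolOn s U) (hz : z ∈ C.B 4 a) (h : C.pt γ a z ∈ U) :
    gA C s (C.pt γ a z) = coA (jm (fun w => s (C.pt γ a w)) z) (cHess (C.ρ a) z) := by
  obtain ⟨h1, h2⟩ := JGx.ch₀_spec (C := C) (C.pt γ a z)
  obtain ⟨o, h3⟩ := C.Ov_of_eq hz h1 h2.symm
  have h4 := JGx.rho_ch jb o
  have h5 := JGx.pt_tr_ev o (C.ch₀ (C.pt γ a z)).1 s
  rw [mul_inv_cancel_left] at h5
  rw [jm_congr h5, jm_comp (t := fun w => s (C.pt _ _ w)) (C.an_tr o).differentiableAt
    (h3.symm ▸ (hs _ _ _ h1 (h2.symm ▸ h)).differentiableAt), h4,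
    coA_ch _ (h4 ▸ JGx.det_ne hz), h3, gA]

theorem gA_cont (hs : C.HolOn s U) (hU : IsOpen U) : ContinuousOn (gA C s) U := fun y hy => by
  obtain ⟨γ, a, z, hz, rfl⟩ := C.exists_pt y
  have hz := C.B14 hz
  have h1 : ContinuousAt (jm fun w => s (C.pt γ a w)) z := continuousAt_pi.2 fun b =>
    continuousAt_pi.2 fun j => (an_jm (hs γ a z hz hy) b j).continuousAt
  have h2 : ContinuousAt (fun w => (cHess (C.ρ a) w)⁻¹) z := (continuousAt_matrix_inv _ (by
    rw [Ring.inverse_eq_inv']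
    exact continuousAt_inv₀ (JGx.det_ne hz))).comp (K.cont_cHess (C.ρ_sm a z hz))
  have h3 : Continuous fun x : Matrix (Fin p) (Fin n) ℂ × Mx n =>
      x.1.map (starRingEnd ℂ) * x.2 * x.1.transpose :=
    ((continuous_fst.matrix_map Complex.continuous_conj).matrix_mul continuous_snd).matrix_mul
      continuous_fst.matrix_transpose
  refine (JGx.contAt hz ((h3.continuousAt.comp (h1.prodMk h2)).congr ?_)).continuousWithinAt
  filter_upwards [(C.isOpen_preimage_pt γ a hU).mem_nhds ⟨hz, hy⟩] with w hw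
  exact (gA_pt hs hw.1 hw.2).symm

variable {F : Fol C} (T : Tube F)

theorem gA_pos {y : E} (hy : y ∈ T.U) : (gA C T.sh y).PosDef := by
  obtain ⟨h1, h2⟩ := JGx.ch₀_spec (C := C) y
  refine coA_pos (fun t => ?_) (C.ρ_pos _ _ h1)
  simpa only [jm_mulVec, dch] using T.surj _ _ _ h1 (h2.symm ▸ hy) t

namespace MT

/-- integrals over the plaques -/
theorem fib {d : ℕ} {h : Cm d × Cm p → ℝ} {S : Set (Cm p)} (hS : IsCompact S)
    (hc : ContinuousOn h (ball 0 4 ×ˢ S)) (h0 : ∀ v ∈ ball 0 4 ×ˢ S, h v ≠ 0 → ‖v.1‖ < 2) :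
    (∀ t ∈ S, IntegrableOn (fun u => h (u, t)) (ball 0 4)) ∧
      ContinuousOn (fun t => ∫ u in ball 0 4, h (u, t)) S := by
  have h1 : closedBall (0 : Cm d) 2 ⊆ ball 0 4 := closedBall_subset_ball (by norm_num)
  obtain ⟨M, hM⟩ := ((isCompact_closedBall 0 2).prod hS).exists_bound_of_continuousOn
    (hc.mono (prod_mono h1 Subset.rfl))
  have h2 : ∀ t ∈ S, ∀ᵐ u ∂volume.restrict (ball (0 : Cm d) 4), ‖h (u, t)‖ ≤ |M| := fun t ht =>
    ae_restrict_of_forall_mem measurableSet_ball fun u hu => by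
      by_cases e : h (u, t) = 0
      · simp [e]
      · exact (hM _ ⟨mem_closedBall_zero_iff.2 (h0 _ ⟨hu, ht⟩ e).le, ht⟩).trans (le_abs_self M)
  have h3 : ∀ t ∈ S, AEStronglyMeasurable (fun u => h (u, t)) (volume.restrict (ball 0 4)) :=
    fun t ht => (hc.comp (Continuous.prodMk_left t).continuousOn fun u hu =>
      ⟨hu, ht⟩).aestronglyMeasurable measurableSet_ball
  have h4 : IntegrableOn (fun _ => |M|) (ball (0 : Cm d) 4) :=
    integrableOn_const measure_ball_lt_top.ne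
  exact ⟨fun t ht => h4.mono' (h3 t ht) (h2 t ht), continuousOn_of_dominated h3 h2 h4
    (ae_restrict_of_forall_mem measurableSet_ball fun u hu =>
      hc.comp (Continuous.prodMk_right u).continuousOn fun t ht => ⟨hu, ht⟩)⟩

/-- the volume in a product chart -/
theorem box [MeasurableSpace E] {μ : Measure E} (hμ : C.Vol μ) (j : T.J) :
    ∃ W : Cm F.d × Cm F.p → ℝ, ContinuousOn W (T.Ψ j).target ∧ (∀ v ∈ (T.Ψ j).target, 0 < W v) ∧
      ∀ φ : E → ℝ≥0∞, Measurable φ → support φ ⊆ (T.Ψ j).source →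
        ∫⁻ y, φ y ∂μ = ∫⁻ v in (T.Ψ j).target, φ ((T.Ψ j).symm v) * ENNReal.ofReal (W v) := by
  let e : Fin F.d ⊕ Fin F.p ≃ Fin n := finSumFinEquiv.trans (finCongr F.dim)
  let Θ : Cm n → Cm n := fun x => C.co (T.g j) (T.a j) ((T.Ψ j).symm ((gq e).symm x))
  let X := (gq e).symm ⁻¹' (T.Ψ j).target
  have hX : IsOpen X := (T.Ψ j).open_target.preimage (gq e).symm.continuous
  have h1 : ∀ x ∈ X, AnalyticAt ℂ Θ x := fun x hx =>
    (T.holΨ' j _ hx).comp ((gq e).symm.analyticAt x)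
  have h2 : ∀ x ∈ X, Θ x ∈ C.B 4 (T.a j) := fun x hx => T.co_mem₄ ((T.Ψ j).map_target hx)
  have h3 : ∀ x ∈ X, C.pt (T.g j) (T.a j) (Θ x) = (T.Ψ j).symm ((gq e).symm x) := fun x hx =>
    (T.co_mem ((T.Ψ j).map_target hx)).2
  have h4 : ∀ x ∈ X, gq e (T.Ψ j (C.pt (T.g j) (T.a j) (Θ x))) = x := fun x hx => by
    rw [h3 x hx, (T.Ψ j).right_inv hx, (gq e).apply_symm_apply]
  have h5 : ∀ x ∈ X, (jm Θ x).det ≠ 0 := fun x hx => by
    refine (Matrix.isUnit_iff_isUnit_det _).1 (Matrix.mulVec_injective_iff_isUnit.1 ?_) |>.ne_zero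
    have h6 := (((gq e).analyticAt _).comp (T.holΨ j _ _ _ (h2 x hx)
      (h3 x hx ▸ (T.Ψ j).map_target hx))).differentiableAt.hasFDerivAt.comp x
      (h1 x hx).differentiableAt.hasFDerivAt
    have h7 := h6.unique ((hasFDerivAt_id x).congr_of_eventuallyEq
      (mem_of_superset (hX.mem_nhds hx) h4))
    rw [funext (jm_mulVec Θ x)]
    exact LeftInverse.injective fun v => congrArg (· v) h7
  have h6 : ∀ v ∈ (T.Ψ j).target, gq e v ∈ X := fun v hv => by
    rwa [mem_preimage, (gq e).symm_apply_apply]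
  refine ⟨fun v => (cHess (C.ρ (T.a j)) (Θ (gq e v))).det.re * ‖(jm Θ (gq e v)).det‖ ^ 2,
    fun v hv => ?_, fun v hv => mul_pos (MC.det_inv (C.ρ_pos _ _ (h2 _ (h6 v hv)))).1
      (pow_pos (norm_pos_iff.2 (h5 _ (h6 v hv))) 2), fun φ hφ hs => ?_⟩
  · have h7 : ContinuousAt (jm Θ) (gq e v) := continuousAt_pi.2 fun b =>
      continuousAt_pi.2 fun i => (an_jm (h1 _ (h6 v hv)) b i).continuousAt
    exact (((Complex.continuous_re.continuousAt.comp ((JGx.det_cont (h2 _ (h6 v hv))).comp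
      (h1 _ (h6 v hv)).continuousAt)).mul
      ((continuous_id.matrix_det.continuousAt.comp h7).norm.pow 2)).comp
      (gq e).continuous.continuousAt).continuousWithinAt
  have h7 : C.pt (T.g j) (T.a j) ⁻¹' (T.Ψ j).source ∩ C.B 4 (T.a j) = Θ '' X := by
    refine Subset.antisymm (fun z hz => ⟨_, h6 _ ((T.Ψ j).map_source hz.1), ?_⟩) ?_
    · simp only [Θ, (gq e).symm_apply_apply, (T.Ψ j).left_inv hz.1, C.co_pt hz.2]
    · rintro _ ⟨x, hx, rfl⟩
      exact ⟨mem_preimage.2 (h3 x hx ▸ (T.Ψ j).map_target hx), h2 x hx⟩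
  rw [← setLIntegral_eq_of_support_subset (s := C.pt (T.g j) (T.a j) '' C.B 4 (T.a j))
    fun y hy => ⟨_, T.co_mem₄ (hs hy), (T.co_mem (hs hy)).2⟩, hμ _ _ φ hφ,
    ← setLIntegral_eq_of_support_subset (s := C.pt (T.g j) (T.a j) ⁻¹' (T.Ψ j).source)
      fun z hz => hs (left_ne_zero_of_mul hz), Measure.restrict_restrict' (C.isOpen_B 4 _).measurableSet,
    h7, cov hX.measurableSet (fun x hx => (h1 x hx).differentiableAt)
      (fun x hx x' hx' e' => by rw [← h4 x hx, e', h4 x' hx']),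
    ← (mp e).setLIntegral_comp_preimage_emb (gq e).symm.toHomeomorph.measurableEmbedding]
  refine setLIntegral_congr_fun hX.measurableSet fun x hx => ?_
  simp only [h3 x hx, (gq e).apply_symm_apply]
  rw [ENNReal.ofReal_mul' (sq_nonneg _), mul_comm, mul_assoc]

/-- integration along the fibres -/
theorem vol [T2Space E] [MeasurableSpace E] [BorelSpace E] {μ : Measure E} (hμ : C.Vol μ)
    {D : E → ℝ} (hD : ContinuousOn D T.U) (hD0 : ∀ y ∈ T.U, 0 < D y) :
    ∃ V : Cm F.p → ℝ, (∀ S, IsCompact S → S ⊆ ball T.t₁ T.r → ContinuousOn V S) ∧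
      (∀ t ∈ ball T.t₁ T.r, 0 < V t) ∧ ∀ f : Cm F.p → ℝ≥0∞, Measurable f →
        ∫⁻ y in T.U, ENNReal.ofReal (D y) * f (T.sh y) ∂μ =
          ∫⁻ t in ball T.t₁ T.r, ENNReal.ofReal (V t) * f t := by
  classical
  obtain ⟨θ, t1, t2, t3, t4, t5⟩ := T.pu
  choose W w1 w2 w3 using box T hμ
  let h : T.J → Cm F.d × Cm F.p → ℝ := fun j v =>
    θ j ((T.Ψ j).symm v) * D ((T.Ψ j).symm v) * W j v
  have c1 : ∀ j, ContinuousOn (fun y => θ j y * D y) T.U := fun j =>
    ContinuousOn.mul (fun y hy => (Tube.smAt_cont (t1 j y hy)).continuousWithinAt) hD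
  have c2 : ∀ j, ContinuousOn (h j) (ball 0 4 ×ˢ ball T.t₁ T.r) := fun j => T.tgt j ▸
    ((c1 j).comp (T.Ψ j).continuousOn_symm fun v hv => T.symm_mem hv).mul (w1 j)
  have c3 : ∀ j, ∀ v ∈ (T.Ψ j).target, 0 < D ((T.Ψ j).symm v) * W j v := fun j v hv =>
    mul_pos (hD0 _ (T.symm_mem hv)) (w2 j v hv)
  have c4 : ∀ j, ∀ t ∈ ball T.t₁ T.r, 0 ≤ᵐ[volume.restrict (ball 0 4)] fun u => h j (u, t) :=
    fun j t ht => ae_restrict_of_forall_mem measurableSet_ball fun u hu =>
      (mul_nonneg (t2 j _) (c3 j _ (T.mem_tgt hu ht)).le).trans_eq (mul_assoc _ _ _).symm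
  have c5 := fun j S (hS : IsCompact S) (h' : S ⊆ ball T.t₁ T.r) => fib hS
    ((c2 j).mono (prod_mono Subset.rfl h')) fun v hv h0 => by
      have := (t3 j _ (left_ne_zero_of_mul (left_ne_zero_of_mul h0))).2
      rwa [(T.Ψ j).right_inv (T.mem_tgt hv.1 (h' hv.2))] at this
  have c6 := fun j t (ht : t ∈ ball T.t₁ T.r) =>
    (c5 j _ isCompact_singleton (singleton_subset_iff.2 ht)).1 t rfl
  refine ⟨fun t => ∑ j, ∫ u in ball 0 4, h j (u, t), fun S hS h' =>
    continuousOn_finsetSum _ fun j _ => (c5 j S hS h').2, fun t ht => ?_, fun f hf => ?_⟩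
  · refine Finset.sum_pos (fun j _ => (setIntegral_pos_iff_support_of_nonneg_ae (c4 j t ht)
      (c6 j t ht)).2 ((measure_ball_pos volume 0 one_pos).trans_le (measure_mono fun u hu => ?_)))
      (Finset.univ_nonempty_iff.2 T.nonempty_J)
    have h1 := ball_subset_ball (show (1 : ℝ) ≤ 4 by norm_num) hu
    have h2 : (u, t) ∈ (T.Ψ j).target := T.mem_tgt h1 ht
    refine ⟨((mul_pos (t4 j _ ((T.Ψ j).map_target h2) ?_) (c3 j _ h2)).trans_eq
      (mul_assoc _ _ _).symm).ne', h1⟩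
    rw [(T.Ψ j).right_inv h2]
    exact (mem_ball_zero_iff.1 hu).le
  have hm := T.opn.measurableSet
  let φ : T.J → E → ℝ≥0∞ := fun j y =>
    ENNReal.ofReal (T.U.piecewise (fun y => θ j y * D y) 0 y) * f (T.U.piecewise T.sh 0 y)
  have m1 : ∀ j, Measurable (φ j) := fun j =>
    ((c1 j).measurable_piecewise continuousOn_const hm).ennreal_ofReal.mul
      (hf.comp (T.contOn.measurable_piecewise continuousOn_const hm))
  have m2 : ∀ j, ∀ y ∈ T.U, φ j y = ENNReal.ofReal (θ j y * D y) * f (T.sh y) := fun j y hy => by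
    simp only [φ, piecewise_eq_of_mem _ _ _ hy]
  have m3 : ∀ j, support (φ j) ⊆ (T.Ψ j).source := fun j y hy => (t3 j y fun e => hy (by
    by_cases h' : y ∈ T.U <;> simp [φ, h', e])).1
  have m4 : ∀ j, AEMeasurable (fun v => ENNReal.ofReal (h j v))
      ((volume.restrict (ball 0 4)).prod (volume.restrict (ball T.t₁ T.r))) := fun j => by
    rw [Measure.prod_restrict]
    exact ((c2 j).aemeasurable (measurableSet_ball.prod measurableSet_ball)).ennreal_ofReal
  calc _ = ∫⁻ y in T.U, ∑ j, φ j y ∂μ := setLIntegral_congr_fun hm fun y hy => by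
        simp only [m2 _ y hy]
        rw [← Finset.sum_mul, ← ENNReal.ofReal_sum_of_nonneg fun j _ =>
          mul_nonneg (t2 j y) (hD0 y hy).le, ← Finset.sum_mul, t5 y hy, one_mul]
    _ = ∑ j, ∫⁻ t in ball T.t₁ T.r, (∫⁻ u in ball 0 4, ENNReal.ofReal (h j (u, t))) * f t := by
        rw [lintegral_finsetSum _ fun j _ => m1 j]
        refine Finset.sum_congr rfl fun j _ => ?_
        rw [setLIntegral_eq_of_support_subset ((m3 j).trans (T.src j)), w3 j _ (m1 j) (m3 j),
          setLIntegral_congr_fun (g := fun v => ENNReal.ofReal (h j v) * f v.2)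
            (T.Ψ j).open_target.measurableSet fun v hv => by
              simp only [m2 j _ (T.symm_mem hv), T.sh_symm hv, h]
              rw [ENNReal.ofReal_mul' (w2 j v hv).le, mul_right_comm], T.tgt,
          Measure.volume_eq_prod, ← Measure.prod_restrict]
        refine (lintegral_prod_symm _ ((m4 j).mul (hf.comp measurable_snd).aemeasurable)).trans
          (setLIntegral_congr_fun measurableSet_ball fun t ht => ?_)
        exact lintegral_mul_const'' (f t) (c6 j t ht).aemeasurable.ennreal_ofReal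
    _ = _ := by
        refine (lintegral_finsetSum' _ fun j _ => (m4 j).lintegral_prod_left'.fun_mul
          hf.aemeasurable).symm.trans (setLIntegral_congr_fun measurableSet_ball fun t ht => ?_)
        simp only [← ofReal_integral_eq_lintegral_ofReal (c6 _ t ht) (c4 _ t ht)]
        rw [← Finset.sum_mul, ENNReal.ofReal_sum_of_nonneg fun j _ =>
          integral_nonneg_of_ae (c4 j t ht)]

end MT

theorem stModT : StModT := by
  intro n Γ E _ _ _ _ _ _ _ C μ F T hμ
  have h0 : T.r / 2 < T.r := half_lt_self T.r_pos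
  have h1 := ball_subset_ball (x := T.t₁) h0.le
  have hA := gA_cont T.hol T.opn
  have hD : ContinuousOn (fun y => (gA C T.sh y).det.re) T.U :=
    (Complex.continuous_re.comp continuous_id.matrix_det).comp_continuousOn hA
  obtain ⟨V, v1, v2, v3⟩ := MT.vol T hμ hD fun y hy => (MC.det_inv (gA_pos T hy)).1
  have v4 := v1 _ (isCompact_closedBall _ _) (closedBall_subset_ball h0)
  obtain ⟨V₁, v5⟩ := (isCompact_closedBall _ _).bddAbove_image v4
  obtain ⟨c, hc1, hc2⟩ := K.exists_dom (T.cpt _ h0) (A := fun _ => 1) continuousOn_const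
    (hA.mono fun _ h => h.1) (fun _ _ => Matrix.isHermitian_one) fun y hy => gA_pos T hy.1
  have hU := T.isOpen_pre (isOpen_ball (x := T.t₁) (ε := T.r / 2))
  refine ⟨⟨_, T.sh, _, _, V, c, hc1, hU, isOpen_ball, fun γ a z hz h => T.hol γ a z hz h.1,
    fun _ h => h.2, fun K hK hKO => ?_, hD.mono fun _ h => h.1, v4.mono ball_subset_closedBall,
    fun t ht => v2 t (h1 ht), fun γ a z hz h => ?_, fun f hf => ?_⟩, rfl, rfl, rfl, V₁,
    fun t ht => v5 (mem_image_of_mem _ (ball_subset_closedBall ht))⟩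
  · refine (congrArg IsCompact (Set.ext fun y => ?_)).mp (T.cpt_of hK (hKO.trans h1))
    exact ⟨fun h => ⟨⟨h.1, hKO h.2⟩, h.2⟩, fun h => ⟨h.1.1, h.2⟩⟩
  · rw [← gA_pt T.hol hz h.1]
    exact ⟨rfl, hc2 _ ⟨h.1, (mem_ball_iff_norm.1 h.2).le⟩⟩
  · have h2 := v3 _ (hf.indicator (measurableSet_ball (x := T.t₁) (ε := T.r / 2)))
    rw [← Measure.restrict_restrict_of_subset h1, ← lintegral_indicator measurableSet_ball,
      ← Measure.restrict_restrict_of_subset (s := {y ∈ T.U | T.sh y ∈ ball T.t₁ (T.r / 2)})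
        (t := T.U) fun _ h => h.1, ← lintegral_indicator hU.measurableSet]
    refine ((setLIntegral_congr_fun T.opn.measurableSet fun y hy => ?_).trans h2).trans
      (lintegral_congr fun t => ?_)
    · by_cases h : T.sh y ∈ ball T.t₁ (T.r / 2)
      · rw [indicator_of_mem h, indicator_of_mem (mem_setOf.2 ⟨hy, h⟩)]
      · rw [indicator_of_notMem h, indicator_of_notMem fun h' => h h'.2, mul_zero]
    · exact (indicator_mul_right _ (fun t => ENNReal.ofReal (V t)) f).symm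

end Vale.Agent.P284Y.Y9
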